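import Vale.Agent.P133.SDefs
import Vale.Agent.P133.H832.TameDef

/-!
P133 (helper512): definitions for the inductive criterion.
-/

open scoped ComplexOrder

namespace Vale.Agent.P133.H512

open Vale.Agent.P133.Statement Vale.Agent.P133.H832

universe u

/-- The quotient of `A` by the closure of `J` is purely infinite. -/
def PiQuot {A : Type u} [NonUnitalCStarAlgebra A] (J : Submodule ℂ A) : Prop :=
  ∃ (B : Type u) (_ : NonUnitalCStarAlgebra B) (_ : PartialOrder B) (_ : StarOrderedRing B)
    (φ : A →⋆ₙₐ[ℂ] B), Function.Surjective φ ∧ (∀ z, φ z = 0 ↔ z ∈ J.topologicalClosure) ∧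
      PurelyInfinite B

/-- In every closed subset `Y` of the primitive ideal space of `A` (closed ideal `P`), every
nonempty relatively open subset (closed ideal `Q > P`) contains a nonempty relatively open subset
`U` (closed ideal `I`) and there is a closed set (closed ideal `L`) containing `U` such that the
algebra of the closed set of all points of the latter that are outside `U` (it contains the
boundary of `U` in `Y`) is one of the algebras `C k`. -/
def IsIndAlong {K : Type u} (C : K → Type u) [∀ k, NonUnitalCStarAlgebra (C k)] (A : Type u)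
    [NonUnitalCStarAlgebra A] : Prop :=
  ∀ P Q : Submodule ℂ A, IsClosedIdeal P → IsClosedIdeal Q → P < Q →
    ∃ I L : Submodule ℂ A, IsClosedIdeal I ∧ IsClosedIdeal L ∧ P < I ∧ I ≤ Q ∧ I ⊓ L ≤ P ∧
      ∃ (k : K) (φ : A →⋆ₙₐ[ℂ] C k), Function.Surjective φ ∧
        ∀ z, φ z = 0 ↔ z ∈ (I ⊔ L).topologicalClosure

end Vale.Agent.P133.H512
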