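import Vale.Agent.P133.H512.Zorn
import Vale.Agent.P133.H779.Main

/-!
P133 (helper512): a weakly purely infinite C*-algebra is purely infinite if (and only if) its
quotients by essential closed ideals are.
-/

open scoped ComplexOrder

namespace Vale.Agent.P133.H512

open Vale.Agent.P133 Vale.Agent.P133.Statement Vale.Agent.P133.H832 Vale.Agent.P133F
  Vale.Agent.P133.H681 Vale.Agent.P133.R2.H28

universe u

variable {A : Type u} [NonUnitalCStarAlgebra A] [PartialOrder A] [StarOrderedRing A]

/-- quotients of purely infinite algebras -/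
theorem pi_map {B : Type u} [NonUnitalCStarAlgebra B] [PartialOrder B] [StarOrderedRing B]
    (hA : PurelyInfinite A) (φ : A →⋆ₙₐ[ℂ] B) (hφ : Function.Surjective φ) :
    PurelyInfinite B := by
  refine pi_of_eltPI (eltPI_of_infB fun b hb => ?_)
  obtain ⟨k, rfl⟩ := CStarAlgebra.nonneg_iff_eq_star_mul_self.1 hb
  obtain ⟨k, rfl⟩ := hφ k
  rw [← map_star, ← map_mul]
  exact R2.H28.infB_map φ (infB_self_of_eltPI (eltPI_of A hA) (star_mul_self_nonneg k))

/-- **Theorem A+.** -/
theorem pi_of_essential (hW : WeaklyPurelyInfinite A)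
    (H : ∀ (B : Type u) [NonUnitalCStarAlgebra B] [PartialOrder B] [StarOrderedRing B]
      (φ : A →⋆ₙₐ[ℂ] B), Function.Surjective φ → EssKer φ → PurelyInfinite B) :
    PurelyInfinite A := by
  obtain ⟨n, hn⟩ := wpi_elementwise hW
  refine pi_of_eltPI (eltPI_of_essential_of hn (fun D _ _ _ hD HD => ?_) fun B _ _ _ φ hφ he =>
    eltPI_of B (H B φ hφ he))
  refine eltPI_of D (H779.pi_of_quotients (wpi_of_elt hD) fun B _ _ _ ψ hψ hinj =>
    pi_of_eltPI (HD B ψ hψ ?_))
  by_contra hno
  refine hinj fun x y hxy => ?_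
  by_contra hne
  exact hno ⟨x - y, sub_ne_zero.2 hne, by rw [map_sub, hxy, sub_self]⟩

end Vale.Agent.P133.H512
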