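import Vale.Agent.P133.H512.GlueG
import Vale.Agent.P133.R2.H28.Ev
import Vale.Agent.P133.R2.H695.Roerdam
import Vale.Agent.P133.H681.Generic

/-!
P133 (helper512): reduction of question (b) to quotients by essential ideals, from the case in
which every proper quotient is purely infinite.
-/

open scoped ComplexOrder

namespace Vale.Agent.P133.H512

open Vale.Agent.P133 Vale.Agent.P133.Statement Vale.Agent.P133.H832 Vale.Agent.P133F
  Vale.Agent.P133.H681 Vale.Agent.P133.R2.H28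

universe u

section

variable {A : Type u} [NonUnitalCStarAlgebra A] [PartialOrder A] [StarOrderedRing A]

/-- the kernel of `φ` is essential -/
def EssKer {B : Type u} [NonUnitalCStarAlgebra B] (φ : A →⋆ₙₐ[ℂ] B) : Prop :=
  ∀ x : A, (∀ y, φ y = 0 → x * y = 0) → x = 0

omit [PartialOrder A] [StarOrderedRing A] in
theorem eq_zero_of_mul_star {x : A} (h : x * star x = 0) : x = 0 :=
  CStarRing.mul_star_self_eq_zero_iff x |>.1 h

omit [PartialOrder A] [StarOrderedRing A] in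
theorem EssKer.comp {D C : Type u} [NonUnitalCStarAlgebra D] [NonUnitalCStarAlgebra C]
    {φ : A →⋆ₙₐ[ℂ] D} {ρ : D →⋆ₙₐ[ℂ] C} (hφ : Function.Surjective φ) (hρ : EssKer ρ) :
    EssKer (ρ.comp φ) := by
  intro x hx
  have h1 : φ x = 0 := by
    refine hρ _ fun y hy => ?_
    obtain ⟨y, rfl⟩ := hφ y
    rw [← map_mul, hx y (by rw [NonUnitalStarAlgHom.comp_apply]; exact hy), map_zero]
  refine eq_zero_of_mul_star (hx _ ?_)
  rw [NonUnitalStarAlgHom.comp_apply, map_star, h1, star_zero, map_zero]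

theorem cut_cut {a : A} (ha : 0 ≤ a) {κ κ' : ℝ} (hκ : 0 < κ) (hκ' : 0 < κ') :
    R2.H28.cut (R2.H28.cut a κ) κ' = R2.H28.cut a (κ + κ') := by
  have h1 := cfcₙ_comp (fun t : ℝ => max (t - κ') 0) (fun t : ℝ => max (t - κ) 0) a
    (by fun_prop) (by simp only [zero_sub]; exact max_eq_right (by linarith)) (by fun_prop)
    (by simp only [zero_sub]; exact max_eq_right (by linarith)) (IsSelfAdjoint.of_nonneg ha)
  have h2 : ((fun t : ℝ => max (t - κ') 0) ∘ fun t : ℝ => max (t - κ) 0) =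
      fun t : ℝ => max (t - (κ + κ')) 0 := by
    funext t
    simp only [Function.comp]
    rcases le_total t κ with h | h
    · rw [max_eq_right (by linarith : t - κ ≤ 0), max_eq_right (by linarith),
        max_eq_right (by linarith)]
    · rw [max_eq_left (by linarith : 0 ≤ t - κ)]
      congr 1
      ring
  rw [h2] at h1
  exact h1.symm

theorem cut_le_self {a : A} (ha : 0 ≤ a) {κ : ℝ} (hκ : 0 < κ) : R2.H28.cut a κ ≤ a := by
  have h1 : cfcₙ (fun t : ℝ => t) a = a := cfcₙ_id' ℝ a (IsSelfAdjoint.of_nonneg ha)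
  conv_rhs => rw [← h1]
  refine cfcₙ_mono (fun t ht => ?_) (by fun_prop) (by fun_prop)
    (by simp only [zero_sub]; exact max_eq_right (by linarith)) rfl
  have h2 : 0 ≤ t := quasispectrum_nonneg_of_nonneg a ha t ht
  exact max_le (by linarith) h2

theorem infB_cut_of {x c : A} (h : InfB x c) {κ : ℝ} (hκ : 0 < κ) : InfB x (R2.H28.cut c κ) :=
  h.sub (SubId.of_le (l := 1) (R2.H28.cut_nonneg _ _) zero_le_one (by
    rw [one_smul]; exact cut_le_self h.1 hκ))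

theorem infB_cut_mono {x a : A} (ha : 0 ≤ a) {κ κ' : ℝ} (hκ : 0 < κ) (hle : κ ≤ κ')
    (h : InfB x (R2.H28.cut a κ)) : InfB x (R2.H28.cut a κ') := by
  rcases hle.eq_or_lt with rfl | hlt
  · exact h
  · have h1 := infB_cut_of h (sub_pos.2 hlt)
    rwa [cut_cut ha hκ (sub_pos.2 hlt), add_sub_cancel] at h1

theorem infB_self_of_eltPI (hA : EltPI A) {a : A} (a0 : 0 ≤ a) : InfB a a := by
  have hD : Diag A := diag_of_eltPI A hA
  have hqs : star (CFC.sqrt a) = CFC.sqrt a :=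
    (IsSelfAdjoint.of_nonneg (CFC.sqrt_nonneg a)).star_eq
  refine ⟨a0, fun m ε hε => ?_⟩
  obtain ⟨d, _, hd⟩ := hD m (fun _ => CFC.sqrt a) ε hε
  refine ⟨d, fun i j => ?_⟩
  have h1 := hd i j
  have e1 : star (CFC.sqrt a * d i) * (CFC.sqrt a * d j) = star (d i) * a * d j := by
    rw [star_mul, hqs]
    calc _ = star (d i) * (CFC.sqrt a * CFC.sqrt a) * d j := by simp only [mul_assoc]
      _ = _ := by rw [CFC.sqrt_mul_sqrt_self a a0]
  rwa [e1, hqs, CFC.sqrt_mul_sqrt_self a a0] at h1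

theorem eltPI_of_infB (h : ∀ a : A, 0 ≤ a → InfB a a) : EltPI A := by
  intro a a0 ε hε
  obtain ⟨r, hr⟩ := (h a a0).2 2 ε hε
  refine ⟨r 0, r 1, ?_, ?_, ?_⟩
  · simpa using hr 0 0
  · simpa using hr 1 1
  · simpa using hr 0 1

/-- `n` copies of some cut `(a - κ)₊`, `κ < κ₀`, below `a` modulo `I` -/
def Good (n : ℕ) (a : A) (κ₀ : ℝ) (I : Submodule ℂ A) : Prop :=
  ∃ κ, 0 < κ ∧ κ < κ₀ ∧ ∀ η : ℝ, 0 < η → ∃ (s : Fin n → A) (z : Fin n → Fin n → A),
    (∀ i j, z i j ∈ I) ∧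
      ∀ i j, ‖star (s i) * a * s j - (if i = j then R2.H28.cut a κ else 0) - z i j‖ ≤ η

section quot

variable {B : Type u} [NonUnitalCStarAlgebra B] [PartialOrder B] [StarOrderedRing B]

theorem good_of_infB {n : ℕ} {a : A} {κ₀ κ : ℝ} (hκ : 0 < κ) (hκ₀ : κ < κ₀)
    {I : Submodule ℂ A} {φ : A →⋆ₙₐ[ℂ] B} (hφ : Function.Surjective φ)
    (hk : ∀ x, φ x = 0 → x ∈ I) (h : InfB (φ a) (φ (R2.H28.cut a κ))) : Good n a κ₀ I := by
  refine ⟨κ, hκ, hκ₀, fun η hη => ?_⟩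
  obtain ⟨s, z, hz, hs⟩ := lift_rows hφ h n hη
  exact ⟨s, z, fun i j => hk _ (hz i j), hs⟩

omit [PartialOrder A] [StarOrderedRing A] [PartialOrder B] [StarOrderedRing B] in
theorem map_rows (φ : A →⋆ₙₐ[ℂ] B) {a b z s t : A} {i : Prop} [Decidable i] (hz : φ z = 0)
    {η : ℝ} (h : ‖star s * a * t - (if i then b else 0) - z‖ ≤ η) :
    ‖star (φ s) * φ a * φ t - (if i then φ b else 0)‖ ≤ η := by
  have h1 : star (φ s) * φ a * φ t - (if i then φ b else 0) =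
      φ (star s * a * t - (if i then b else 0) - z) := by
    rw [map_sub, map_sub, hz, sub_zero, map_mul, map_mul, map_star]
    split_ifs
    · rfl
    · rw [map_zero]
  rw [h1]
  exact (NonUnitalStarAlgHom.norm_apply_le φ _).trans h

theorem infB_of_good {n : ℕ} (hn : WPI A n) {a : A} (ha : 0 ≤ a) {κ₀ : ℝ}
    {I : Submodule ℂ A} {φ : A →⋆ₙₐ[ℂ] B} (hφ : Function.Surjective φ)
    (hk : ∀ x ∈ I, φ x = 0) (h : Good n a κ₀ I) :
    ∃ κ, 0 < κ ∧ κ < κ₀ ∧ InfB (φ a) (φ (R2.H28.cut a κ)) := by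
  obtain ⟨κ, hκ, hκ₀, h⟩ := h
  refine ⟨κ, hκ, hκ₀, infB_of_wpi (wpiE_of_surj hn φ hφ) (R2.H28.map_nonneg' φ (R2.H28.cut_nonneg _ _))
    fun δ hδ => ?_⟩
  obtain ⟨s, z, hz, hs⟩ := h δ hδ
  exact ⟨fun i => φ (s i), fun i j =>
    map_rows φ (hk _ (hz i j)) (hs i j)⟩

end quot

/-- chains -/
theorem good_chain {n : ℕ} (hn : WPI A n) {a : A} (ha : 0 ≤ a) {κ₀ : ℝ}
    {c : Set (Submodule ℂ A)} (hc : ∀ P ∈ c, IsClosedIdeal P) (hch : IsChain (· ≤ ·) c)
    (hne : c.Nonempty) (h : Good n a κ₀ (sSup c).topologicalClosure) :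
    ∃ P ∈ c, Good n a κ₀ P := by
  obtain ⟨κ, hκ, hκ₀, h⟩ := h
  set ρ : ℝ := (κ₀ - κ) / 2 with hρ
  have hρ0 : 0 < ρ := by rw [hρ]; linarith
  set η : ℝ := ρ / (4 * ((n : ℝ) * n + 1)) with hη
  have hη0 : 0 < η := by rw [hη]; positivity
  obtain ⟨s, z, hz, hs⟩ := h η hη0
  have hz' : ∀ i j, ∃ w ∈ sSup c, ‖z i j - w‖ < η := by
    intro i j
    obtain ⟨w, hw, h1⟩ := Metric.mem_closure_iff.1
      (show z i j ∈ closure ((sSup c : Submodule ℂ A) : Set A) from hz i j) η hη0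
    exact ⟨w, hw, by rwa [dist_eq_norm] at h1⟩
  choose w hw hzw using hz'
  have hmem : ∀ x, x ∈ sSup c ↔ ∃ P ∈ c, x ∈ P := fun x =>
    Submodule.mem_sSup_of_directed hne hch.directedOn
  have hfin : ∀ S : Finset (Fin n × Fin n), ∃ P ∈ c, ∀ k ∈ S, w k.1 k.2 ∈ P := by
    intro S
    induction S using Finset.induction_on with
    | empty =>
      obtain ⟨P, hP⟩ := hne
      exact ⟨P, hP, fun k hk => absurd hk (Finset.notMem_empty k)⟩
    | insert k S hk ih =>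
      obtain ⟨P, hP, hPS⟩ := ih
      obtain ⟨P', hP', hk'⟩ := (hmem _).1 (hw k.1 k.2)
      rcases hch.total hP hP' with hle | hle
      · refine ⟨P', hP', fun l hl => ?_⟩
        rcases Finset.mem_insert.1 hl with rfl | hl
        · exact hk'
        · exact hle (hPS l hl)
      · refine ⟨P, hP, fun l hl => ?_⟩
        rcases Finset.mem_insert.1 hl with rfl | hl
        · exact hle hk'
        · exact hPS l hl
  obtain ⟨P, hP, hPw⟩ := hfin Finset.univ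
  refine ⟨P, hP, ?_⟩
  obtain ⟨B, i1, i2, i3, φ, hφ, hk⟩ := (hc P hP).quot
  have hB : WPI B n := wpiE_of_surj hn φ hφ
  have hφa : 0 ≤ φ a := R2.H28.map_nonneg' φ ha
  have h1 : InfB (φ a) (H695.cut ρ (φ (R2.H28.cut a κ))) := by
    refine H695.infB_cut hB (IsSelfAdjoint.of_nonneg hφa).star_eq
      (R2.H28.map_nonneg' φ (R2.H28.cut_nonneg _ _)) hρ0 (fun i => φ (s i)) (κ' := 2 * η) (fun i j => ?_) ?_
    · refine map_rows φ ((hk _).2 (hPw (i, j) (Finset.mem_univ _))) ?_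
      have h2 : star (s i) * a * s j - (if i = j then R2.H28.cut a κ else 0) - w i j =
          (star (s i) * a * s j - (if i = j then R2.H28.cut a κ else 0) - z i j) + (z i j - w i j) := by
        abel
      rw [h2]
      exact (norm_add_le _ _).trans (by linarith [hs i j, hzw i j])
    · have h3 : (n : ℝ) * (n * (2 * η)) = (n : ℝ) * n * ρ / (2 * ((n : ℝ) * n + 1)) := by
        rw [hη]; field_simp; ring
      rw [h3, div_lt_iff₀ (by positivity)]
      have h4 : 0 ≤ (n : ℝ) * n := by positivity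
      nlinarith
  have h2 : H695.cut ρ (φ (R2.H28.cut a κ)) = φ (R2.H28.cut a (κ + ρ)) := by
    have h3 : H695.cut ρ (φ (R2.H28.cut a κ)) = R2.H28.cut (φ (R2.H28.cut a κ)) ρ := rfl
    rw [h3, ← cut_map φ (R2.H28.cut_nonneg _ _) hρ0.le, cut_cut ha hκ hρ0]
  rw [h2] at h1
  exact good_of_infB (by linarith) (by rw [hρ]; linarith) hφ (fun x hx => (hk x).1 hx) h1

/-- The reduction to quotients by essential ideals, from the case of algebras all of whose proper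
quotients are purely infinite. -/
theorem eltPI_of_essential_of {n : ℕ} (hn : WPI A n)
    (hprime : ∀ (D : Type u) [NonUnitalCStarAlgebra D] [PartialOrder D] [StarOrderedRing D],
      WPI D n → (∀ (B : Type u) [NonUnitalCStarAlgebra B] [PartialOrder B] [StarOrderedRing B]
        (ψ : D →⋆ₙₐ[ℂ] B), Function.Surjective ψ → (∃ x, x ≠ 0 ∧ ψ x = 0) → EltPI B) → EltPI D)
    (H : ∀ (B : Type u) [NonUnitalCStarAlgebra B] [PartialOrder B] [StarOrderedRing B]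
        (φ : A →⋆ₙₐ[ℂ] B), Function.Surjective φ → EssKer φ → EltPI B) : EltPI A := by
  refine eltPI_of_infB fun a ha => ?_
  -- it suffices to find small cuts
  suffices hcut : ∀ κ₀ : ℝ, 0 < κ₀ → Good n a κ₀ ⊥ by
    refine infB_lim ha fun ε hε => ?_
    have hid : ∀ x : A, (NonUnitalStarAlgHom.id ℂ A) x = 0 → x ∈ (⊥ : Submodule ℂ A) :=
      fun x hx => (Submodule.mem_bot ℂ).2 hx
    obtain ⟨κ, hκ, hκε, h⟩ := infB_of_good hn ha (φ := NonUnitalStarAlgHom.id ℂ A)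
      (fun x => ⟨x, rfl⟩) (fun x hx => (Submodule.mem_bot ℂ).1 hx) (hcut ε hε)
    refine ⟨R2.H28.cut a κ, h, (R2.H28.norm_cut_sub_le ha hκ).trans_lt hκε⟩
  intro κ₀ hκ₀
  by_contra hbad
  -- a maximal bad ideal
  obtain ⟨P, -, hPm⟩ := zorn_le_nonempty₀
    {P : Submodule ℂ A | IsClosedIdeal P ∧ ¬ Good n a κ₀ P} (by
      intro c hc hch y hy
      refine ⟨(sSup c).topologicalClosure, ⟨isClosedIdeal_closure fun b x hx => ?_, ?_⟩,
        fun z hz => (le_sSup hz).trans (Submodule.le_topologicalClosure _)⟩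
      · have h1 : ∀ x, x ∈ sSup c ↔ ∃ P ∈ c, x ∈ P := fun x =>
          Submodule.mem_sSup_of_directed ⟨y, hy⟩ hch.directedOn
        obtain ⟨P, hP, hx⟩ := (h1 x).1 hx
        exact ⟨(h1 _).2 ⟨P, hP, ((hc hP).1.2 b x hx).1⟩,
          (h1 _).2 ⟨P, hP, ((hc hP).1.2 b x hx).2⟩⟩
      · intro hg
        obtain ⟨P, hP, hPg⟩ := good_chain hn ha (fun P hP => (hc hP).1) hch ⟨y, hy⟩ hg
        exact (hc hP).2 hPg) ⊥ ⟨isClosedIdeal_bot, hbad⟩
  obtain ⟨hP, hPbad⟩ := hPm.prop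
  have hmax : ∀ P' : Submodule ℂ A, IsClosedIdeal P' → P ≤ P' → ¬ P' ≤ P → Good n a κ₀ P' := by
    intro P' hP' hle hnle
    by_contra hb
    exact hnle (hPm.le_of_ge ⟨hP', hb⟩ hle)
  obtain ⟨D, i1, i2, i3, φ, hφ, hk⟩ := hP.quot
  have hD : WPI D n := wpiE_of_surj hn φ hφ
  have hφa : 0 ≤ φ a := R2.H28.map_nonneg' φ ha
  have hcm : ∀ κ : ℝ, 0 ≤ κ → φ (R2.H28.cut a κ) = R2.H28.cut (φ a) κ := fun κ hκ => cut_map φ ha hκ
  -- `D` is not purely infinite
  have hDn : ¬ EltPI D := by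
    intro hD'
    have h1 := infB_cut_of (infB_self_of_eltPI hD' hφa) (half_pos hκ₀)
    rw [← hcm _ (half_pos hκ₀).le] at h1
    exact hPbad (good_of_infB (half_pos hκ₀) (half_lt_self hκ₀) hφ (fun x hx => (hk x).1 hx) h1)
  -- a proper quotient of `D` that is not purely infinite
  have h1 : ∃ (B : Type u) (_ : NonUnitalCStarAlgebra B) (_ : PartialOrder B)
      (_ : StarOrderedRing B) (ψ : D →⋆ₙₐ[ℂ] B), Function.Surjective ψ ∧
        (∃ x, x ≠ 0 ∧ ψ x = 0) ∧ ¬ EltPI B := by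
    by_contra hno
    refine hDn (hprime D hD fun B j1 j2 j3 ψ hψ hx => ?_)
    by_contra hB
    exact hno ⟨B, j1, j2, j3, ψ, hψ, hx, hB⟩
  obtain ⟨B₁, j1, j2, j3, ψ, hψ, ⟨x₀, hx₀, hψx₀⟩, hB₁⟩ := h1
  -- its kernel is not essential
  have h2 : ¬ EssKer ψ := fun he => hB₁ (H B₁ (ψ.comp φ) (hψ.comp hφ) (EssKer.comp hφ he))
  have h3 : ∃ x₁ : D, (∀ y, ψ y = 0 → x₁ * y = 0) ∧ x₁ ≠ 0 := by
    by_contra hno
    exact h2 fun x hx => by
      by_contra hxn
      exact hno ⟨x, hx, hxn⟩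
  obtain ⟨x₁, hx₁, hx₁n⟩ := h3
  -- the two ideals of `D`
  let J : Submodule ℂ D := LinearMap.ker (ψ : D →ₗ[ℂ] B₁)
  have hJm : ∀ x, x ∈ J ↔ ψ x = 0 := fun x => LinearMap.mem_ker
  have hJ : IsClosedIdeal J := by
    refine ⟨?_, fun b x hx => ⟨?_, ?_⟩⟩
    · have e : (J : Set D) = ψ ⁻¹' {0} := by
        ext x; exact hJm x
      rw [e]
      exact isClosed_singleton.preimage (map_continuous ψ)
    · rw [hJm] at hx ⊢; rw [map_mul, hx, mul_zero]
    · rw [hJm] at hx ⊢; rw [map_mul, hx, zero_mul]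
  obtain ⟨N, hN, hN'⟩ := isClosedIdeal_right (isClosedIdeal_bot (A := D)) J
  have hNann : ∀ x : D, (∀ y ∈ J, x * y = 0) → x ∈ N := by
    intro x hx
    rw [hN']
    intro z hz w
    rw [Submodule.mem_bot]
    refine eq_zero_of_mul_star ?_
    have e : z * w * x * star (z * w * x) = z * w * (x * (star x * star w * star z)) := by
      simp only [star_mul, mul_assoc]
    rw [e, hx _ (hJ.2 _ _ (hJ.star_mem hz)).1, mul_zero]
  have hJN : ∀ z ∈ J, z ∈ N → z = 0 := by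
    intro z hz hzN
    have h4 := (hN' z).1 hzN (star z) (hJ.star_mem hz) (z * star z)
    rw [Submodule.mem_bot] at h4
    have h5 : star z * z = 0 := by
      refine eq_zero_of_mul_star ?_
      have e : star z * z * star (star z * z) = star z * (z * star z) * z := by
        simp only [star_mul, star_star, mul_assoc]
      rw [e, h4]
    exact (CStarRing.star_mul_self_eq_zero_iff z).1 h5
  have hx₀J : x₀ ∈ J := (hJm _).2 hψx₀
  have hx₁N : x₁ ∈ N := hNann x₁ fun y hy => hx₁ y ((hJm y).1 hy)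
  -- the quotient by the sum
  have hL : IsClosedIdeal (J ⊔ N).topologicalClosure := by
    refine isClosedIdeal_closure fun b x hx => ?_
    obtain ⟨u, hu, v, hv, rfl⟩ := Submodule.mem_sup.1 hx
    rw [mul_add, add_mul]
    exact ⟨Submodule.add_mem_sup (hJ.2 _ _ hu).1 (hN.2 _ _ hv).1,
      Submodule.add_mem_sup (hJ.2 _ _ hu).2 (hN.2 _ _ hv).2⟩
  obtain ⟨C, k1, k2, k3, ρ, hρ, hρk⟩ := hL.quot
  have hρe : EssKer ρ := by
    intro x hx
    have h6 : x ∈ N := hNann x fun y hy => hx y ((hρk y).2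
      (Submodule.le_topologicalClosure _ (Submodule.mem_sup_left hy)))
    exact eq_zero_of_mul_star (hx _ ((hρk _).2
      (Submodule.le_topologicalClosure _ (Submodule.mem_sup_right (hN.star_mem h6)))))
  have hC : Diag C := diag_of_eltPI C (H C (ρ.comp φ) (hρ.comp hφ) (EssKer.comp hφ hρe))
  -- the quotient by `N`
  obtain ⟨B₂, l1, l2, l3, ψ₂, hψ₂, hψ₂k⟩ := hN.quot
  -- pull back
  have hcomap : ∀ K : Submodule ℂ D, IsClosedIdeal K → ∀ x ∈ K, x ≠ 0 →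
      Good n a κ₀ (K.comap (φ : A →ₗ[ℂ] D)) := by
    intro K hK x hx hx0
    have hmemK : ∀ y, y ∈ K.comap (φ : A →ₗ[ℂ] D) ↔ φ y ∈ K := fun y => Iff.rfl
    refine hmax _ ⟨?_, fun b y hy => ⟨?_, ?_⟩⟩ ?_ ?_
    · exact hK.1.preimage (map_continuous φ)
    · rw [hmemK] at hy ⊢; rw [map_mul]; exact (hK.2 _ _ hy).1
    · rw [hmemK] at hy ⊢; rw [map_mul]; exact (hK.2 _ _ hy).2
    · intro y hy
      rw [hmemK, (hk y).2 hy]; exact K.zero_mem
    · intro hle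
      obtain ⟨y, rfl⟩ := hφ x
      exact hx0 ((hk y).2 (hle hx))
  obtain ⟨κ₁, hκ₁, hκ₁', hI₁⟩ := infB_of_good hn ha (φ := ψ.comp φ) (hψ.comp hφ)
    (fun x hx => (hJm _).1 hx) (hcomap J hJ x₀ hx₀J hx₀)
  obtain ⟨κ₂, hκ₂, hκ₂', hI₂⟩ := infB_of_good hn ha (φ := ψ₂.comp φ) (hψ₂.comp hφ)
    (fun x hx => (hψ₂k _).2 hx) (hcomap N hN x₁ hx₁N hx₁n)
  set κ : ℝ := max κ₁ κ₂ with hκdef
  have hκ : 0 < κ := hκ₁.trans_le (le_max_left _ _)
  have hκκ₀ : κ < κ₀ := max_lt hκ₁' hκ₂'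
  have hI₁' : InfB (ψ (φ a)) (ψ (φ (R2.H28.cut a κ))) := by
    have h7 : ∀ κ : ℝ, 0 ≤ κ → (ψ.comp φ) (R2.H28.cut a κ) = R2.H28.cut ((ψ.comp φ) a) κ := fun κ hκ =>
      cut_map (ψ.comp φ) ha hκ
    rw [h7 κ₁ hκ₁.le] at hI₁
    have h8 := infB_cut_mono (R2.H28.map_nonneg' (ψ.comp φ) ha) hκ₁ (le_max_left κ₁ κ₂) hI₁
    rw [← hκdef, ← h7 κ hκ.le] at h8
    exact h8
  have hI₂' : InfB (ψ₂ (φ a)) (ψ₂ (φ (R2.H28.cut a κ))) := by
    have h7 : ∀ κ : ℝ, 0 ≤ κ → (ψ₂.comp φ) (R2.H28.cut a κ) = R2.H28.cut ((ψ₂.comp φ) a) κ := fun κ hκ =>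
      cut_map (ψ₂.comp φ) ha hκ
    rw [h7 κ₂ hκ₂.le] at hI₂
    have h8 := infB_cut_mono (R2.H28.map_nonneg' (ψ₂.comp φ) ha) hκ₂ (le_max_right κ₁ κ₂) hI₂
    rw [← hκdef, ← h7 κ hκ.le] at h8
    exact h8
  have hfin := glueG hD hφa (R2.H28.map_nonneg' φ (R2.H28.cut_nonneg a κ)) hJ hN hJN hψ
    (fun z hz => (hJm z).2 hz) hψ₂ (fun z hz => (hψ₂k z).1 hz) hI₁' hI₂' hρ hρk hC
  exact hPbad (good_of_infB hκ hκκ₀ hφ (fun x hx => (hk x).1 hx) hfin)

end

end Vale.Agent.P133.H512
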