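import Vale.Agent.P133.H512.IndDef
import Vale.Agent.P133.H512.Main
import Vale.Agent.P133.H779.Ind

/-!
P133 (helper512): the inductive criterion and the criterion with essential ideals.
-/

open scoped ComplexOrder

namespace Vale.Agent.P133.H512

open Vale.Agent.P133 Vale.Agent.P133.Statement Vale.Agent.P133.H832 Vale.Agent.P133F
  Vale.Agent.P133.H681 Vale.Agent.P133.R2.H28 Vale.Agent.P133.H779

universe u

variable {A : Type u} [NonUnitalCStarAlgebra A] [PartialOrder A] [StarOrderedRing A]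

omit [PartialOrder A] [StarOrderedRing A] in
theorem isClosedIdeal_sup {I L : Submodule ℂ A} (hI : IsClosedIdeal I) (hL : IsClosedIdeal L) :
    IsClosedIdeal (I ⊔ L).topologicalClosure := by
  refine isClosedIdeal_closure fun b x hx => ?_
  obtain ⟨u, hu, v, hv, rfl⟩ := Submodule.mem_sup.1 hx
  rw [mul_add, add_mul]
  exact ⟨Submodule.add_mem_sup (hI.2 _ _ hu).1 (hL.2 _ _ hv).1,
    Submodule.add_mem_sup (hI.2 _ _ hu).2 (hL.2 _ _ hv).2⟩

omit [PartialOrder A] [StarOrderedRing A] in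
theorem closure_of_closedIdeal {E : Submodule ℂ A} (hE : IsClosedIdeal E) :
    E.topologicalClosure = E :=
  le_antisymm (Submodule.topologicalClosure_minimal _ le_rfl hE.1)
    (Submodule.le_topologicalClosure _)

theorem piQuot_of_pi (hA : PurelyInfinite A) {E : Submodule ℂ A}
    (hE : IsClosedIdeal E.topologicalClosure) : PiQuot E := by
  obtain ⟨B, i1, i2, i3, φ, hφ, hk⟩ := hE.quot
  exact ⟨B, i1, i2, i3, φ, hφ, hk, pi_map hA φ hφ⟩

theorem piQuot_elt {B : Type u} [NonUnitalCStarAlgebra B] [PartialOrder B] [StarOrderedRing B]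
    {χ : A →⋆ₙₐ[ℂ] B} (hχ : Function.Surjective χ) {E : Submodule ℂ A} (h : PiQuot E)
    (h2 : ∀ x ∈ E.topologicalClosure, χ x = 0) : EltPI B := by
  obtain ⟨C, i1, i2, i3, ρ, hρ, hk, hC⟩ := h
  exact eltPI_of_le hρ (eltPI_of C hC) hχ (fun x hx => (hk x).1 hx) h2

/-- The inductive criterion. -/
theorem pi_iff_ind (hW : WeaklyPurelyInfinite A) : PurelyInfinite A ↔
    ∀ P Q : Submodule ℂ A, IsClosedIdeal P → IsClosedIdeal Q → P < Q →
      ∃ I L : Submodule ℂ A, IsClosedIdeal I ∧ IsClosedIdeal L ∧ P < I ∧ I ≤ Q ∧ I ⊓ L ≤ P ∧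
        PiQuot (I ⊔ L) := by
  constructor
  · intro hA P Q hP hQ hPQ
    exact ⟨Q, P, hQ, hP, hPQ, le_rfl, inf_le_right, piQuot_of_pi hA (isClosedIdeal_sup hQ hP)⟩
  · intro H
    obtain ⟨n, hn⟩ := wpi_elementwise hW
    refine pi_of_eltPI (eltPI_of_ind hn fun P Q hP hQ hPQ => ?_)
    obtain ⟨I, L, hI, hL, hPI, hIQ, hIL, hB⟩ := H P Q hP hQ hPQ
    refine ⟨I, hI, hPI, hIQ, fun B _ _ _ φ hφ hk => piQuot_elt hφ hB fun x hx => (hk x).2 ?_⟩
    have h1 : L ≤ colon P I := fun y hy z hz =>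
      hIL ⟨(hI.2 _ _ hz).1, (hL.2 _ _ hy).2⟩
    exact Submodule.topologicalClosure_mono (sup_le_sup_left h1 I) hx

/-- The criterion with essential ideals. -/
theorem pi_iff_essential (hW : WeaklyPurelyInfinite A) : PurelyInfinite A ↔
    ∀ E : Submodule ℂ A, IsClosedIdeal E → (∀ x : A, (∀ y ∈ E, x * y = 0) → x = 0) →
      PiQuot E := by
  constructor
  · intro hA E hE _
    exact piQuot_of_pi hA (by rwa [closure_of_closedIdeal hE])
  · intro H
    refine pi_of_essential hW fun B _ _ _ φ hφ he => ?_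
    let E : Submodule ℂ A := LinearMap.ker (φ : A →ₗ[ℂ] B)
    have hm : ∀ x, x ∈ E ↔ φ x = 0 := fun x => LinearMap.mem_ker
    have hE : IsClosedIdeal E := by
      refine ⟨?_, fun b x hx => ⟨?_, ?_⟩⟩
      · have e : (E : Set A) = φ ⁻¹' {0} := by
          ext x; exact hm x
        rw [e]
        exact isClosed_singleton.preimage (map_continuous φ)
      · rw [hm] at hx ⊢; rw [map_mul, hx, mul_zero]
      · rw [hm] at hx ⊢; rw [map_mul, hx, zero_mul]
    have h1 : PiQuot E := H E hE fun x hx => he x fun y hy => hx y ((hm y).2 hy)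
    refine pi_of_eltPI (piQuot_elt hφ h1 fun x hx => ?_)
    rw [closure_of_closedIdeal hE] at hx
    exact (hm x).1 hx

/-- The inductive criterion along algebras `C k`. -/
theorem wpi_ind {K : Type u} {C : K → Type u} [∀ k, NonUnitalCStarAlgebra (C k)]
    [∀ k, PartialOrder (C k)] [∀ k, StarOrderedRing (C k)] (h : IsIndAlong C A)
    (hC : ∀ k, WeaklyPurelyInfinite (C k) → PurelyInfinite (C k)) :
    WeaklyPurelyInfinite A → PurelyInfinite A := by
  intro hW
  refine (pi_iff_ind hW).2 fun P Q hP hQ hPQ => ?_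
  obtain ⟨I, L, hI, hL, hPI, hIQ, hIL, k, φ, hφ, hk⟩ := h P Q hP hQ hPQ
  exact ⟨I, L, hI, hL, hPI, hIQ, hIL, C k, inferInstance, inferInstance, inferInstance, φ, hφ, hk,
    hC k (wpi_of_surj φ hφ hW)⟩

end Vale.Agent.P133.H512
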