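import Vale.Agent.P133.H512.Ind3
import Vale.Agent.P133.H330.TopIdeal

/-!
P133 (helper512): the inductive theorem, with quantifiers over all copies of the subquotients.
-/

open scoped ComplexOrder

namespace Vale.Agent.P133.H512

open Vale.Agent.P133 Vale.Agent.P133.Statement Vale.Agent.P133.H832 Vale.Agent.P133F
  Vale.Agent.P133.H681 Vale.Agent.P133.R2 Vale.Agent.P133.R2.H28 Vale.Agent.P133.H779
  Vale.Agent.P133.H330 Vale.Agent.P133.H216

universe u

section

variable {A : Type u} [NonUnitalCStarAlgebra A] [PartialOrder A] [StarOrderedRing A]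

/-- `I / P` is purely infinite if all its copies are -/
theorem piBetween_of {P I : Submodule ℂ A} (hP : IsClosedIdeal P) (hI : IsClosedIdeal I)
    (hPI : P ≤ I)
    (h : ∀ (B : Type u) [NonUnitalCStarAlgebra B] [PartialOrder B] [StarOrderedRing B]
      (φ : A →⋆ₙₐ[ℂ] B), Function.Surjective φ → (∀ x, φ x = 0 ↔ x ∈ P) →
      ∀ (D : Type u) [NonUnitalCStarAlgebra D] [PartialOrder D] [StarOrderedRing D]
        (ι : D →⋆ₙₐ[ℂ] B), Function.Injective ι →
        (∀ x, (∃ d, ι d = x) ↔ ∃ a ∈ I, φ a = x) → EltPI D) : PiBetween P I := by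
  obtain ⟨B, i1, i2, i3, φ, hφ, hk⟩ := hP.quot
  have hker : ∀ x, φ x = 0 → x ∈ I := fun x hx => hPI ((hk x).1 hx)
  have hI' : IsClosedIdeal (I.map (φ : A →ₗ[ℂ] B)) := isClosedIdeal_map φ hφ hI hker
  obtain ⟨D, j1, j2, j3, ι, hι, hr⟩ := exists_idAlg hI'
  have h1 : ∀ x, (∃ d, ι d = x) ↔ ∃ a ∈ I, φ a = x := fun x => (hr x).trans Submodule.mem_map
  have h2 : EltPI D := h B φ hφ hk D ι hι h1
  exact ⟨B, D, i1, j1, j2, j3, φ, ι, hφ, hk, hι,
    fun x => (mem_map_iff φ hker x).symm.trans (hr (φ x)).symm, pi_of_eltPI h2⟩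

/-- **The inductive theorem**, with quantifiers over all copies of the subquotients -/
theorem eltPI_of_ind4 {n : ℕ} (hn : WPI A n)
    (H : ∀ K K' : Submodule ℂ A, IsClosedIdeal K → IsClosedIdeal K' → K < K' →
      ∃ I : Submodule ℂ A, IsClosedIdeal I ∧ K < I ∧ I ≤ K' ∧
        ((∀ (B : Type u) [NonUnitalCStarAlgebra B] [PartialOrder B] [StarOrderedRing B]
          (φ : A →⋆ₙₐ[ℂ] B), Function.Surjective φ →
          (∀ x, φ x = 0 ↔ x ∈ (I ⊔ colon K I).topologicalClosure) → EltPI B) ∨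
        CompactMod K I ∨
        ∀ (B : Type u) [NonUnitalCStarAlgebra B] [PartialOrder B] [StarOrderedRing B]
          (φ : A →⋆ₙₐ[ℂ] B), Function.Surjective φ → (∀ x, φ x = 0 ↔ x ∈ K) →
          ∀ (D : Type u) [NonUnitalCStarAlgebra D] [PartialOrder D] [StarOrderedRing D]
            (ι : D →⋆ₙₐ[ℂ] B), Function.Injective ι →
            (∀ x, (∃ d, ι d = x) ↔ ∃ a ∈ I, φ a = x) → EltPI D)) : EltPI A := by
  refine eltPI_of_ind3 hn fun K K' hK hK' hlt => ?_
  obtain ⟨I, hI, h1, h2, h | h | h⟩ := H K K' hK hK' hlt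
  · exact ⟨I, hI, h1, h2, Or.inl h⟩
  · exact ⟨I, hI, h1, h2, Or.inr (Or.inl h)⟩
  · exact ⟨I, hI, h1, h2, Or.inr (Or.inr (piBetween_of hK hI h1.le h))⟩

end

end Vale.Agent.P133.H512
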