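import Vale.Agent.P133.H330.Top
import Mathlib.Topology.Sober

/-!
P133 (helper512): countable spaces are in the class `SmallInd`.
-/

namespace Vale.Agent.P133.H512

open Vale.Agent.P133.H330 TopologicalSpace

universe u

variable {X : Type u} [TopologicalSpace X]

/-- `V` is way below `U`: every directed family of open sets that covers `U` has a member that
contains `V` -/
def WayB (V U : Set X) : Prop :=
  ∀ F : Set (Set X), F.Nonempty → DirectedOn (· ⊆ ·) F → (∀ W ∈ F, IsOpen W) → U ⊆ ⋃₀ F →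
    ∃ W ∈ F, V ⊆ W

/-- the locally closed set `U ∩ Y` is not empty and nowhere in the class -/
def NW (Y U : Set X) : Prop :=
  IsClosed Y ∧ IsOpen U ∧ (U ∩ Y).Nonempty ∧
    ∀ U' : Set X, IsOpen U' → U' ⊆ U → (U' ∩ Y).Nonempty → ¬ SmallInd (U' ∩ Y : Set X)

theorem smallInd_transfer {S T : Set X} {C : Set S}
    (h : ∀ x, x ∈ T ↔ ∃ hx : x ∈ S, (⟨x, hx⟩ : S) ∈ C) (hT : SmallInd T) : SmallInd C := by
  let f : C → T := fun x => ⟨x.1.1, (h _).2 ⟨x.1.2, x.2⟩⟩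
  have hf : Continuous f := (continuous_subtype_val.comp continuous_subtype_val).subtype_mk _
  have hg : Topology.IsEmbedding ((Subtype.val : T → X) ∘ f) :=
    (Topology.IsEmbedding.subtypeVal (p := fun x => x ∈ S)).comp Topology.IsEmbedding.subtypeVal
  refine smallInd_embedding hT C f ⟨Topology.IsEmbedding.of_comp hf continuous_subtype_val hg, ?_⟩
  · have h1 : Set.range f = Set.univ := by
      refine Set.eq_univ_of_forall fun y => ?_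
      obtain ⟨hy, hy'⟩ := (h y.1).1 y.2
      exact ⟨⟨⟨y.1, hy⟩, hy'⟩, rfl⟩
    rw [h1]
    exact isClosed_univ

theorem exists_nw {Y U : Set X} (hU : IsOpen U) (hY : IsClosed Y)
    (h : ¬ SmallInd (U ∩ Y : Set X)) : ∃ Y' : Set X, Y' ⊆ Y ∧ NW Y' U := by
  by_contra hno
  push Not at hno
  refine h (smallInd_of_local fun C hC hCn => ?_)
  obtain ⟨Z, hZ, rfl⟩ := isClosed_induced_iff.1 hC
  obtain ⟨⟨x, hx⟩, hxZ⟩ := hCn
  by_contra hcon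
  push Not at hcon
  refine hno (Z ∩ Y) Set.inter_subset_right ⟨hZ.inter hY, hU, ⟨x, hx.1, hxZ, hx.2⟩,
    fun U' hU' hU'U hne hS => ?_⟩
  obtain ⟨y, hyU, hyZ, hyY⟩ := hne
  refine hcon (Subtype.val ⁻¹' U') (hU'.preimage continuous_subtype_val)
    ⟨⟨y, hU'U hyU, hyY⟩, hyU, hyZ⟩ (smallInd_transfer (T := U' ∩ (Z ∩ Y)) (fun z => ?_) hS)
  constructor
  · rintro ⟨h1, h2, h3⟩
    exact ⟨⟨hU'U h1, h3⟩, h1, h2⟩
  · rintro ⟨h1, h2, h3⟩
    exact ⟨h2, h3, h1.2⟩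

theorem smallInd_singleton (p : X) : SmallInd ({p} : Set X) := smallInd_of_noetherian

theorem nw_step [T0Space X] [Countable X]
    (hcc : ∀ (x : X) (U : Set X), IsOpen U → x ∈ U →
      ∃ V : Set X, IsOpen V ∧ x ∈ V ∧ V ⊆ U ∧ WayB V U)
    {Y U : Set X} (h : NW Y U) (p : X) :
    ∃ Y' U' : Set X, NW Y' U' ∧ Y' ⊆ Y ∧ U' ⊆ U ∧ WayB U' U ∧ p ∉ U' ∩ Y' := by
  obtain ⟨hY, hU, ⟨x, hxU, hxY⟩, hno⟩ := h
  obtain ⟨V, hV, hxV, hVU, hVU'⟩ := hcc x U hU hxU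
  have hNV : NW Y V := ⟨hY, hV, ⟨x, hxV, hxY⟩, fun U' h1 h2 h3 => hno U' h1 (h2.trans hVU) h3⟩
  by_cases hp : p ∈ V ∩ Y
  swap
  · exact ⟨Y, V, hNV, Set.Subset.rfl, hVU, hVU', hp⟩
  by_cases hA : V ∩ Y ⊆ closure {p}
  swap
  · obtain ⟨z, hz, hzp⟩ := Set.not_subset.1 hA
    refine ⟨Y, V \ closure {p}, ⟨hY, hV.sdiff isClosed_closure, ⟨z, ⟨hz.1, hzp⟩, hz.2⟩,
      fun U' h1 h2 h3 => hno U' h1 ((h2.trans Set.sdiff_subset).trans hVU) h3⟩, Set.Subset.rfl,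
      Set.sdiff_subset.trans hVU, fun F h1 h2 h3 h4 => ?_,
      fun h => h.1.2 (subset_closure rfl)⟩
    obtain ⟨W, hW, hVW⟩ := hVU' F h1 h2 h3 h4
    exact ⟨W, hW, Set.sdiff_subset.trans hVW⟩
  have hS : ¬ SmallInd (V ∩ Y : Set X) := hNV.2.2.2 V hV Set.Subset.rfl hNV.2.2.1
  by_cases hz : ∃ z ∈ V ∩ Y, z ≠ p ∧ ¬ SmallInd (V ∩ (Y ∩ closure {z}) : Set X)
  · obtain ⟨z, hzS, hzp, hzn⟩ := hz
    obtain ⟨Y', hY', hN⟩ := exists_nw hV (hY.inter isClosed_closure) hzn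
    refine ⟨Y', V, hN, hY'.trans Set.inter_subset_left, hVU, hVU', fun h => hzp ?_⟩
    have h1 : p ∈ closure {z} := (hY' h.2).2
    have h2 : z ∈ closure {p} := hA hzS
    exact ((specializes_iff_mem_closure.2 h1).antisymm (specializes_iff_mem_closure.2 h2)).eq
  exfalso
  push Not at hz
  apply hS
  by_cases hne : ∃ z ∈ V ∩ Y, z ≠ p
  swap
  · push Not at hne
    have h1 : V ∩ Y = {p} := Set.eq_singleton_iff_unique_mem.2 ⟨hp, hne⟩
    rw [h1]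
    exact smallInd_singleton p
  obtain ⟨z0, hz0S, hz0p⟩ := hne
  have hN : Nonempty {z : (V ∩ Y : Set X) // z.1 ≠ p} := ⟨⟨⟨z0, hz0S⟩, hz0p⟩⟩
  obtain ⟨g, hg⟩ := exists_surjective_nat {z : (V ∩ Y : Set X) // z.1 ≠ p}
  refine SmallInd.cover _ (fun k => Subtype.val ⁻¹' closure {(g k).1.1})
    (Or.inl fun k => isClosed_closure.preimage continuous_subtype_val)
    (fun C W hC hW hWC => ?_) fun k => ?_
  · have hex : ∃ z : (V ∩ Y : Set X), z ∈ W ∩ C ∧ z.1 ≠ p := by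
      by_contra hno'
      push Not at hno'
      obtain ⟨w, hw⟩ := hWC
      have hwp : w.1 = p := hno' w hw
      obtain ⟨Z, hZ, rfl⟩ := isClosed_induced_iff.1 hC
      obtain ⟨W', hW', rfl⟩ := isOpen_induced_iff.1 hW
      have hpZ : p ∈ Z := by rw [← hwp]; exact hw.2
      have hpW : p ∈ W' := by rw [← hwp]; exact hw.1
      have h1 : (W' ∩ V) ∩ Y = {p} := by
        refine Set.eq_singleton_iff_unique_mem.2 ⟨⟨⟨hpW, hp.1⟩, hp.2⟩, ?_⟩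
        rintro y ⟨⟨hyW, hyV⟩, hyY⟩
        refine hno' ⟨y, hyV, hyY⟩ ⟨hyW, ?_⟩
        exact closure_minimal (Set.singleton_subset_iff.2 hpZ) hZ (hA ⟨hyV, hyY⟩)
      refine hNV.2.2.2 (W' ∩ V) (hW'.inter hV) Set.inter_subset_right ?_ ?_
      · rw [h1]; exact Set.singleton_nonempty p
      · rw [h1]; exact smallInd_singleton p
    obtain ⟨z, hz1, hz2⟩ := hex
    obtain ⟨k, hk⟩ := hg ⟨z, hz2⟩
    refine ⟨k, z, hz1, ?_⟩
    show z.1 ∈ closure {(g k).1.1}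
    rw [hk]
    exact subset_closure rfl
  · refine smallInd_transfer (T := V ∩ (Y ∩ closure {(g k).1.1})) (fun y => ?_)
      (hz _ (g k).1.2 (g k).2)
    constructor
    · rintro ⟨h1, h2, h3⟩
      exact ⟨⟨h1, h2⟩, h3⟩
    · rintro ⟨h1, h3⟩
      exact ⟨h1.1, h1.2, h3⟩

/-- **Countable spaces are in the class `SmallInd`**, if they are T0, quasi-sober and
core-compact (for example locally quasi-compact). -/
theorem smallInd_of_countable [T0Space X] [QuasiSober X] [Countable X]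
    (hcc : ∀ (x : X) (U : Set X), IsOpen U → x ∈ U → ∃ V : Set X, IsOpen V ∧ x ∈ V ∧ V ⊆ U ∧
      ∀ F : Set (Set X), F.Nonempty → DirectedOn (· ⊆ ·) F → (∀ W ∈ F, IsOpen W) → U ⊆ ⋃₀ F →
        ∃ W ∈ F, V ⊆ W) : SmallInd X := by
  by_contra hX
  obtain ⟨Y0, h0⟩ : ∃ Y : Set X, NW Y Set.univ := by
    by_contra h
    refine hX (smallInd_of_local fun Y hY hYn => ?_)
    by_contra h2
    exact h ⟨Y, hY, isOpen_univ, by rwa [Set.univ_inter], fun U' h3 _ h4 h5 =>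
      h2 ⟨U', h3, h4, h5⟩⟩
  have hne : Nonempty X := ⟨h0.2.2.1.some⟩
  obtain ⟨p, hp⟩ := exists_surjective_nat X
  have hstep : ∀ (q : {q : Set X × Set X // NW q.1 q.2}) (k : ℕ),
      ∃ q' : {q : Set X × Set X // NW q.1 q.2}, q'.1.1 ⊆ q.1.1 ∧ q'.1.2 ⊆ q.1.2 ∧
        WayB q'.1.2 q.1.2 ∧ p k ∉ q'.1.2 ∩ q'.1.1 := by
    intro q k
    obtain ⟨Y', U', h1, h2, h3, h4, h5⟩ := nw_step hcc q.2 (p k)
    exact ⟨⟨(Y', U'), h1⟩, h2, h3, h4, h5⟩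
  choose nxt n1 n2 n3 n4 using hstep
  let s : ℕ → {q : Set X × Set X // NW q.1 q.2} := fun n =>
    Nat.rec ⟨(Y0, Set.univ), h0⟩ (fun k q => nxt q k) n
  have hs : ∀ k, s (k + 1) = nxt (s k) k := fun k => rfl
  have hYd : Antitone fun k => (s k).1.1 := antitone_nat_of_succ_le fun k => by
    rw [hs]; exact n1 _ _
  have hUd : Antitone fun k => (s k).1.2 := antitone_nat_of_succ_le fun k => by
    rw [hs]; exact n2 _ _
  have hW : ∀ k, WayB (s (k + 1)).1.2 (s k).1.2 := fun k => by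
    rw [hs]; exact n3 _ _
  have hpk : ∀ k, p k ∉ (s (k + 1)).1.2 ∩ (s (k + 1)).1.1 := fun k => by
    rw [hs]; exact n4 _ _
  have key : ∀ 𝒞 : Set (Set X), 𝒞.Nonempty → DirectedOn (· ⊇ ·) 𝒞 → (∀ C ∈ 𝒞, IsClosed C) →
      (∀ C ∈ 𝒞, ∀ j, (C ∩ (s j).1.2).Nonempty) → ∀ j, (⋂₀ 𝒞 ∩ (s j).1.2).Nonempty := by
    intro 𝒞 hne hd hc h j
    by_contra hemp
    obtain ⟨W, ⟨C, hC, rfl⟩, hW'⟩ := hW j (compl '' 𝒞) (hne.image _) (by
      rintro _ ⟨C1, h1, rfl⟩ _ ⟨C2, h2, rfl⟩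
      obtain ⟨C3, h3, h31, h32⟩ := hd C1 h1 C2 h2
      exact ⟨_, ⟨C3, h3, rfl⟩, Set.compl_subset_compl.2 h31, Set.compl_subset_compl.2 h32⟩) (by
      rintro _ ⟨C, hC, rfl⟩
      exact (hc C hC).isOpen_compl) (by
      intro x hx
      by_contra hx'
      refine hemp ⟨x, fun C hC => ?_, hx⟩
      by_contra hxC
      exact hx' ⟨Cᶜ, ⟨C, hC, rfl⟩, hxC⟩)
    obtain ⟨x, hx1, hx2⟩ := h C hC (j + 1)
    exact hW' hx2 hx1
  have hYU : ∀ k j, ((s k).1.1 ∩ (s j).1.2).Nonempty := by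
    intro k j
    obtain ⟨x, hxU, hxY⟩ := (s (max k j)).2.2.2.1
    exact ⟨x, hYd (le_max_left k j) hxY, hUd (le_max_right k j) hxU⟩
  let 𝒮 : Set (Set X) := {C | IsClosed C ∧ (∀ k, C ⊆ (s k).1.1) ∧ ∀ j, (C ∩ (s j).1.2).Nonempty}
  have hC0 : ⋂₀ (Set.range fun k => (s k).1.1) ∈ 𝒮 := by
    refine ⟨isClosed_sInter ?_, fun k => Set.sInter_subset_of_mem ⟨k, rfl⟩,
      key _ ⟨_, ⟨0, rfl⟩⟩ ?_ ?_ ?_⟩
    · rintro _ ⟨k, rfl⟩; exact (s k).2.1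
    · rintro _ ⟨k, rfl⟩ _ ⟨l, rfl⟩
      exact ⟨_, ⟨max k l, rfl⟩, hYd (le_max_left k l), hYd (le_max_right k l)⟩
    · rintro _ ⟨k, rfl⟩; exact (s k).2.1
    · rintro _ ⟨k, rfl⟩ j; exact hYU k j
  obtain ⟨M, -, hM⟩ := zorn_superset_nonempty 𝒮 (by
    intro c hc hch hcn
    refine ⟨⋂₀ c, ⟨isClosed_sInter fun C hC => (hc hC).1, fun k => ?_,
      key c hcn ?_ (fun C hC => (hc hC).1) fun C hC => (hc hC).2.2⟩,
      fun C hC => Set.sInter_subset_of_mem hC⟩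
    · obtain ⟨C, hC⟩ := hcn
      exact (Set.sInter_subset_of_mem hC).trans ((hc hC).2.1 k)
    · intro C1 h1 C2 h2
      rcases hch.total h1 h2 with h3 | h3
      · exact ⟨C1, h1, Set.Subset.rfl, h3⟩
      · exact ⟨C2, h2, h3, Set.Subset.rfl⟩) _ hC0
  obtain ⟨hMc, hMY, hMU⟩ := hM.prop
  have hirr : IsIrreducible M := by
    refine ⟨⟨(hMU 0).some, (hMU 0).some_mem.1⟩, ?_⟩
    rw [isPreirreducible_iff_isClosed_union_isClosed]
    intro C1 C2 h1 h2 h12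
    by_contra hcon
    push Not at hcon
    have hbad : ∀ C : Set X, IsClosed C → ¬ M ⊆ C → ∃ j, ¬ (M ∩ C ∩ (s j).1.2).Nonempty := by
      intro C hC hMC
      by_contra hall
      push Not at hall
      refine hMC ((hM.le_of_le (y := M ∩ C) ⟨hMc.inter hC, fun k =>
        Set.inter_subset_left.trans (hMY k), hall⟩ Set.inter_subset_left).trans
          Set.inter_subset_right)
    obtain ⟨j1, hj1⟩ := hbad C1 h1 hcon.1
    obtain ⟨j2, hj2⟩ := hbad C2 h2 hcon.2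
    obtain ⟨x, hxM, hxU⟩ := hMU (max j1 j2)
    rcases h12 hxM with h3 | h3
    · exact hj1 ⟨x, ⟨hxM, h3⟩, hUd (le_max_left j1 j2) hxU⟩
    · exact hj2 ⟨x, ⟨hxM, h3⟩, hUd (le_max_right j1 j2) hxU⟩
  obtain ⟨q, hq⟩ := QuasiSober.sober hirr hMc
  obtain ⟨k, rfl⟩ := hp q
  refine hpk k ⟨?_, hMY (k + 1) (hq.mem)⟩
  obtain ⟨x, hxM, hxU⟩ := hMU (k + 1)
  exact (hq.specializes hxM).mem_open (s (k + 1)).2.2.1 hxU

end Vale.Agent.P133.H512
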