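import Vale.Agent.P133.H512.Ind4
import Vale.Agent.P133.H512.Clause
import Vale.Agent.P133.H294.Pieces
import Vale.Agent.P133.H216.Crit

/-!
P133 (helper512): the criteria for pure infiniteness of weakly purely infinite C*-algebras in
terms of purely infinite subquotients.
-/

open scoped ComplexOrder

namespace Vale.Agent.P133.H512

open Vale.Agent.P133 Vale.Agent.P133.Statement Vale.Agent.P133.H832 Vale.Agent.P133F
  Vale.Agent.P133.H681 Vale.Agent.P133.R2 Vale.Agent.P133.R2.H28 Vale.Agent.P133.H779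
  Vale.Agent.P133.H330 Vale.Agent.P133.H216 Vale.Agent.P133.H294 Vale.Agent.P133.R2.H474

universe u

section

variable {A : Type u} [NonUnitalCStarAlgebra A] [PartialOrder A] [StarOrderedRing A]

theorem wpi1_of_pi (hA : PurelyInfinite A) : WPI A 1 := by
  have h1 : ∀ h : A, 0 ≤ h → ProperlyInfiniteMat (diagN 1 h) := by
    intro h h0
    have h1 := hA h h0
    have e1 : dsum (diagN 1 h) (diagN 1 h) = CStarMatrix.ofMatrix !![h, 0; 0, h] := by
      ext i j
      fin_cases i <;> fin_cases j <;>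
        simp [dsum, diagN, finSumFinEquiv, Fin.addCases, Matrix.fromBlocks]
    have e2 : dsum (diagN 1 h) (0 : CStarMatrix (Fin 1) (Fin 1) A) =
        CStarMatrix.ofMatrix !![h, 0; 0, 0] := by
      ext i j
      fin_cases i <;> fin_cases j <;>
        simp [dsum, diagN, finSumFinEquiv, Fin.addCases, Matrix.fromBlocks]
    rw [ProperlyInfiniteMat, e1, e2]
    exact h1
  exact Vale.Agent.P133.R2.H905.wpi_n h1 le_rfl

theorem eltPI_of_wpi1 (hA : WPI A 1) : EltPI A := by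
  intro h h0 ε hε
  obtain ⟨z, hz⟩ := hA h h0 2 ε hε
  refine ⟨z 0 0, z 0 1, ?_, ?_, ?_⟩
  · have h1 := hz 0 0
    rwa [Fin.sum_univ_one, if_pos rfl] at h1
  · have h1 := hz 1 1
    rwa [Fin.sum_univ_one, if_pos rfl] at h1
  · have h1 := hz 0 1
    rwa [Fin.sum_univ_one, if_neg (by decide), sub_zero] at h1

/-- subquotients of purely infinite algebras are purely infinite -/
theorem piBetween_of_pi (hA : PurelyInfinite A) {P I : Submodule ℂ A} (hP : IsClosedIdeal P)
    (hI : IsClosedIdeal I) (hPI : P ≤ I) : PiBetween P I := by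
  refine piBetween_of hP hI hPI fun B _ _ _ φ hφ hk D _ _ _ ι hι hr => ?_
  have hI' : IsClosedIdeal (I.map (φ : A →ₗ[ℂ] B)) :=
    isClosedIdeal_map φ hφ hI fun x hx => hPI ((hk x).1 hx)
  refine eltPI_of_wpi1 (wpi_of_her ι hι (fun x y w => ?_) (wpi1_of_pi (pi_map hA φ hφ)))
  obtain ⟨a, ha, hya⟩ := (hr (ι y)).1 ⟨y, rfl⟩
  have h1 : ι x * w * ι y ∈ I.map (φ : A →ₗ[ℂ] B) := (hI'.2 _ _ ⟨a, ha, hya⟩).1
  obtain ⟨b, hb, hb'⟩ := h1
  exact (hr _).2 ⟨b, hb, hb'⟩

omit [PartialOrder A] [StarOrderedRing A] in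
/-- purely infinite quotients -/
theorem quot_of_piBetween {E : Submodule ℂ A} (h : PiBetween E ⊤) :
    ∃ (D : Type u) (_ : NonUnitalCStarAlgebra D) (_ : PartialOrder D) (_ : StarOrderedRing D)
      (φ : A →⋆ₙₐ[ℂ] D), Function.Surjective φ ∧ (∀ x, φ x = 0 ↔ x ∈ E) ∧ EltPI D := by
  obtain ⟨D, J, i1, i2, i3, i4, φ, ι, hφ, hk, -, hr, hJ⟩ := h
  let _ : PartialOrder D := CStarAlgebra.spectralOrder D
  let _ : StarOrderedRing D := CStarAlgebra.spectralOrderedRing D
  refine ⟨D, i1, inferInstance, inferInstance, φ, hφ, hk, eltPI_of D (pi_map hJ ι fun d => ?_)⟩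
  obtain ⟨x, rfl⟩ := hφ d
  exact (hr x).1 Submodule.mem_top

theorem elt_of_piBetween {B : Type u} [NonUnitalCStarAlgebra B] [PartialOrder B]
    [StarOrderedRing B] {χ : A →⋆ₙₐ[ℂ] B} (hχ : Function.Surjective χ) {E : Submodule ℂ A}
    (h : PiBetween E ⊤) (h2 : ∀ x ∈ E, χ x = 0) : EltPI B := by
  obtain ⟨C, i1, i2, i3, ρ, hρ, hk, hC⟩ := quot_of_piBetween h
  exact eltPI_of_le hρ hC hχ (fun x hx => (hk x).1 hx) h2

/-- The inductive criterion. -/
theorem pi_iff_ind3 (hW : WeaklyPurelyInfinite A) : PurelyInfinite A ↔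
    ∀ P Q : Submodule ℂ A, IsClosedIdeal P → IsClosedIdeal Q → P < Q →
      ∃ I : Submodule ℂ A, IsClosedIdeal I ∧ P < I ∧ I ≤ Q ∧
        (PiBetween P I ∨ CompactMod P I ∨ ∃ L : Submodule ℂ A, IsClosedIdeal L ∧ I ⊓ L ≤ P ∧
          PiBetween (I ⊔ L).topologicalClosure ⊤) := by
  constructor
  · intro hA P Q hP hQ hPQ
    exact ⟨Q, hQ, hPQ, le_rfl, Or.inl (piBetween_of_pi hA hP hQ hPQ.le)⟩
  · intro H
    obtain ⟨n, hn⟩ := wpi_elementwise hW
    refine pi_of_eltPI (eltPI_of_ind3 hn fun P Q hP hQ hPQ => ?_)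
    obtain ⟨I, hI, hPI, hIQ, h | h | ⟨L, hL, hIL, h⟩⟩ := H P Q hP hQ hPQ
    · exact ⟨I, hI, hPI, hIQ, Or.inr (Or.inr h)⟩
    · exact ⟨I, hI, hPI, hIQ, Or.inr (Or.inl h)⟩
    · refine ⟨I, hI, hPI, hIQ, Or.inl fun B _ _ _ φ hφ hk =>
        elt_of_piBetween hφ h fun x hx => (hk x).2 ?_⟩
      have h1 : L ≤ colon P I := fun y hy z hz =>
        hIL ⟨(hI.2 _ _ hz).1, (hL.2 _ _ hy).2⟩
      exact Submodule.topologicalClosure_mono (sup_le_sup_left h1 I) hx

theorem isClosedIdeal_top : IsClosedIdeal (⊤ : Submodule ℂ A) :=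
  ⟨isClosed_univ, fun _ _ _ => ⟨Submodule.mem_top, Submodule.mem_top⟩⟩

/-- The criterion with essential ideals. -/
theorem pi_iff_essential' (hW : WeaklyPurelyInfinite A) : PurelyInfinite A ↔
    ∀ E : Submodule ℂ A, IsClosedIdeal E → (∀ x : A, (∀ y ∈ E, x * y = 0) → x = 0) →
      PiBetween E ⊤ := by
  constructor
  · intro hA E hE _
    exact piBetween_of_pi hA hE isClosedIdeal_top le_top
  · intro H
    refine (pi_iff_essential hW).2 fun E hE h => ?_
    obtain ⟨B, i1, i2, i3, φ, hφ, hk, hB⟩ := quot_of_piBetween (H E hE h)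
    exact ⟨B, i1, i2, i3, φ, hφ, fun z => by rw [closure_of_closedIdeal hE]; exact hk z,
      pi_of_eltPI hB⟩

omit [PartialOrder A] [StarOrderedRing A] in
/-- the two descriptions of purely infinite subquotients -/
theorem piSub_of_piBetween {J K : Submodule ℂ A} (hK : IsClosedIdeal K) (h : PiBetween J K) :
    PiSub J K := by
  obtain ⟨B, C, i1, i2, i3, i4, φ, κ, hφ, hk, hκ, hr, hC⟩ := h
  obtain ⟨D, j1, j2, j3, ι, hι, hιK⟩ := exists_idAlg hK
  have hex : ∀ d : D, ∃ c : C, κ c = φ (ι d) := fun d => (hr _).1 ((hιK _).1 ⟨d, rfl⟩)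
  choose f hf using hex
  let ρ : D →⋆ₙₐ[ℂ] C :=
    { toFun := f
      map_smul' := fun c d => hκ (by
        show κ (f (c • d)) = κ ((MonoidHom.id ℂ) c • f d)
        rw [MonoidHom.id_apply, map_smul, hf, hf, map_smul, map_smul])
      map_zero' := hκ (by rw [hf, map_zero, map_zero, map_zero])
      map_add' := fun x y => hκ (by rw [hf, map_add, map_add, map_add, hf, hf])
      map_mul' := fun x y => hκ (by rw [hf, map_mul, map_mul, map_mul, hf, hf])
      map_star' := fun x => hκ (by rw [hf, map_star, map_star, map_star, hf]) }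
  have hρ : ∀ d, κ (ρ d) = φ (ι d) := hf
  refine ⟨D, C, j1, i2, i3, i4, ι, ρ, hι, fun x => (hιK x).symm, fun c => ?_, fun d => ?_, hC⟩
  · obtain ⟨x, hx⟩ := hφ (κ c)
    obtain ⟨d, rfl⟩ := (hιK x).2 ((hr x).2 ⟨c, hx.symm⟩)
    exact ⟨d, hκ (by rw [hρ, hx])⟩
  · rw [← hk, ← hρ]
    constructor
    · intro h; rw [h, map_zero]
    · intro h; exact hκ (by rw [h, map_zero])

/-- **The criterion with countably many subquotients.** -/
theorem pi_iff_pieces (hW : WeaklyPurelyInfinite A) {J K : ℕ → Submodule ℂ A}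
    (hJ : ∀ k, IsClosedIdeal (J k)) (hK : ∀ k, IsClosedIdeal (K k)) (hJK : ∀ k, J k ≤ K k)
    (hs : TopologicalSpace.SeparableSpace A ∨ ∀ k, K k = ⊤)
    (hP : ∀ P : Submodule ℂ A, IsClosedIdeal P → ∀ x : A, x ∉ P →
      ∃ (k : ℕ) (y : A), y ∈ K k ∧ x * y ∉ (P ⊔ J k).topologicalClosure) :
    PurelyInfinite A ↔ ∀ k, PiBetween (J k) (K k) := by
  constructor
  · intro hA k
    exact piBetween_of_pi hA (hJ k) (hK k) (hJK k)
  · intro H
    obtain ⟨n, hn⟩ := wpi_elementwise hW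
    rcases hs with hs | hs
    · exact pi_of_eltPI (eltPI_of_subquotients hn hJ hK
        (fun k => piSub_of_piBetween (hK k) (H k)) hP)
    · refine pi_of_eltPI (eltPI_of_weakCover hn hJ (fun P hPc x hx => ?_)
        fun k B _ _ _ φ hφ hk => ?_)
      · by_contra hno
        obtain ⟨k, y, -, hxy⟩ := hP P hPc x hno
        exact hxy ((isClosedIdeal_sup hPc (hJ k)).2 y _ (hx k)).2
      · have h1 : PiBetween (J k) ⊤ := by
          have h2 := H k
          rwa [hs k] at h2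
        exact elt_of_piBetween hφ h1 fun x hx => (hk x).2 hx

end

end Vale.Agent.P133.H512
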