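import Vale.Agent.P133.H512.CountIndDef
import Vale.Agent.P133.H359.EuclidUnion

/-!
P133 (helper512): members of the class `CountInd`.
-/

namespace Vale.Agent.P133.H512

open Vale.Agent.P133.H330 TopologicalSpace

universe u

theorem isInducing_restrict {Z Z' X : Type u} [TopologicalSpace Z] [TopologicalSpace Z']
    [TopologicalSpace X] {f : Z → X} (hf : Topology.IsInducing f) {g : Z' → Z}
    (hg : Topology.IsInducing g) {T : Set X} (h : ∀ z, f (g z) ∈ T) :
    Topology.IsInducing (fun z => (⟨f (g z), h z⟩ : T)) := by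
  refine Topology.IsInducing.of_comp (g := (Subtype.val : T → X)) ?_ continuous_subtype_val ?_
  · exact Continuous.subtype_mk (hf.continuous.comp hg.continuous) h
  · exact hf.comp hg

/-- arbitrary subspaces -/
theorem CountInd.of_inducing {X : Type u} [TopologicalSpace X] (hX : CountInd X) :
    ∀ {Z : Type u} [TopologicalSpace Z] (f : Z → X), Topology.IsInducing f → CountInd Z := by
  induction hX with
  | union X S h hS ih =>
    intro Z _ f hf
    refine CountInd.union Z (fun k => f ⁻¹' S k) ?_ fun k => ?_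
    · rw [← Set.preimage_iUnion, h, Set.preimage_univ]
    · exact ih k _ (isInducing_restrict hf Topology.IsInducing.subtypeVal fun z => z.2)
  | intro X K L h hL ih =>
    intro Z _ f hf
    refine CountInd.intro Z {T : Set Z // CountInd T} (fun T => T.1) (fun Y' V' hY' hV' hne => ?_)
      fun T => T.2
    obtain ⟨V, hV, rfl⟩ := hf.isOpen_iff.1 hV'
    obtain ⟨z, hzV, hzY⟩ := hne
    obtain ⟨k, U, hU, ⟨y, hyU, hyY⟩, hUV, hk⟩ := h (closure (f '' Y')) V isClosed_closure hV
      ⟨f z, hzV, subset_closure ⟨z, hzY, rfl⟩⟩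
    have hsub : f ⁻¹' U ∩ Y' ⊆ f ⁻¹' (U ∩ closure (f '' Y')) := fun w hw =>
      ⟨hw.1, subset_closure ⟨w, hw.2, rfl⟩⟩
    obtain ⟨_, hwU, w, hwY, rfl⟩ := mem_closure_iff.1 hyY U hU hyU
    have h1 : f ⁻¹' U ∩ Y' ⊆ f ⁻¹' V := fun w hw => hUV (hsub hw)
    rcases hk with hk | hk
    · refine ⟨⟨f ⁻¹' U ∩ Y', ?_⟩, f ⁻¹' U, hU.preimage hf.continuous, ⟨w, hwU, hwY⟩, h1,
        Or.inl rfl⟩
      exact ih k _ (isInducing_restrict hf (g := (Subtype.val : (f ⁻¹' U ∩ Y' : Set Z) → Z))
        Topology.IsInducing.subtypeVal fun z => by rw [← hk]; exact hsub z.2)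
    · refine ⟨⟨closure (f ⁻¹' U ∩ Y') \ f ⁻¹' U, ?_⟩, f ⁻¹' U, hU.preimage hf.continuous,
        ⟨w, hwU, hwY⟩, h1, Or.inr rfl⟩
      refine ih k _ (isInducing_restrict hf
        (g := (Subtype.val : (closure (f ⁻¹' U ∩ Y') \ f ⁻¹' U : Set Z) → Z))
        Topology.IsInducing.subtypeVal fun z => ?_)
      rw [← hk]
      refine ⟨?_, z.2.2⟩
      have h2 : closure (f ⁻¹' U ∩ Y') ⊆ f ⁻¹' closure (U ∩ closure (f '' Y')) :=
        closure_minimal (fun w hw => subset_closure (hsub hw))
          (isClosed_closure.preimage hf.continuous)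
      exact h2 z.2.1

/-- spaces with a base of open sets with boundaries in the class -/
theorem countInd_of_base {X : Type u} [TopologicalSpace X]
    (h : ∀ (x : X) (V : Set X), IsOpen V → x ∈ V →
      ∃ U : Set X, IsOpen U ∧ x ∈ U ∧ U ⊆ V ∧ CountInd (frontier U)) : CountInd X := by
  refine CountInd.intro X {T : Set X // CountInd T} (fun T => T.1) (fun Y V hY hV hne => ?_)
    fun T => T.2
  obtain ⟨x, hxV, hxY⟩ := hne
  obtain ⟨U, hU, hxU, hUV, hfr⟩ := h x V hV hxV
  refine ⟨⟨closure (U ∩ Y) \ U, ?_⟩, U, hU, ⟨x, hxU, hxY⟩, Set.inter_subset_left.trans hUV,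
    Or.inr rfl⟩
  have h1 : closure (U ∩ Y) \ U ⊆ frontier U := by
    rw [hU.frontier_eq]
    exact Set.diff_subset_diff_left (closure_mono Set.inter_subset_left)
  exact hfr.of_inducing _ (Topology.IsEmbedding.inclusion h1).isInducing

theorem countInd_of_tInd {X : Type u} [TopologicalSpace X] (hX : TInd X) : CountInd X := by
  induction hX with
  | intro X K L h hL ih =>
    refine countInd_of_base fun x V hV hx => ?_
    obtain ⟨k, U, hU, hxU, hUV, hk⟩ := h x V hV hx
    refine ⟨U, hU, hxU, hUV, ?_⟩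
    rw [hk]
    exact ih k

/-- subspaces of euclidean spaces -/
theorem countInd_of_euclid {X : Type u} [TopologicalSpace X] {n : ℕ} {f : X → (Fin n → ℝ)}
    (hf : Topology.IsInducing f) : CountInd X := by
  obtain ⟨T, hT, hX⟩ := Vale.Agent.P133.H359.exists_tInd_cover (S := (Set.univ : Set X)) n
    (fun x => f x.1) (hf.comp Topology.IsInducing.subtypeVal)
  exact CountInd.union X T hX.symm fun k => countInd_of_tInd (hT k)

/-- countable spaces -/
theorem countInd_of_countable {X : Type u} [TopologicalSpace X] [Countable X] : CountInd X := by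
  rcases isEmpty_or_nonempty X with hX | hX
  · exact CountInd.intro X PEmpty.{u+1} (fun k => k.elim) (fun Y V _ _ h => h.elim fun x _ =>
      hX.elim x) fun k => k.elim
  · obtain ⟨g, hg⟩ := exists_surjective_nat X
    refine CountInd.union X (fun k => {g k}) ?_ fun k => ?_
    · ext x
      obtain ⟨k, rfl⟩ := hg x
      exact ⟨fun _ => Set.mem_univ _, fun _ => Set.mem_iUnion.2 ⟨k, rfl⟩⟩
    · exact countInd_of_tInd (tInd_of_subsingleton _)

end Vale.Agent.P133.H512
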