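import Mathlib.Topology.Order
import Mathlib.Topology.Closure
import Mathlib.Topology.Constructions

/-!
P133 (helper512): a class of spaces of countable dimension type, without separation axioms.
-/

namespace Vale.Agent.P133.H512

universe u

/-- The least class of spaces such that `X` is in the class in each of the following two cases.
(1) Every nonempty relatively open subset of every closed subset `Y` of `X` contains a nonempty
relatively open subset `U ∩ Y` which is in the class or whose boundary in `Y` is in the class (the
members of the class that occur are the sets `L k`). (2) `X` is the union of countably many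
arbitrary subspaces in the class. -/
inductive CountInd : (X : Type u) → [TopologicalSpace X] → Prop
  | intro (X : Type u) [TopologicalSpace X] (K : Type u) (L : K → Set X)
    (h : ∀ Y V : Set X, IsClosed Y → IsOpen V → (V ∩ Y).Nonempty →
      ∃ (k : K) (U : Set X), IsOpen U ∧ (U ∩ Y).Nonempty ∧ U ∩ Y ⊆ V ∧
        (U ∩ Y = L k ∨ closure (U ∩ Y) \ U = L k))
    (hL : ∀ k, CountInd (L k)) : CountInd X
  | union (X : Type u) [TopologicalSpace X] (S : ℕ → Set X) (h : ⋃ k, S k = Set.univ)
    (hS : ∀ k, CountInd (S k)) : CountInd X

end Vale.Agent.P133.H512
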