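import Vale.Agent.P133.H512.Game
import Vale.Agent.P133.H512.CountIndDef

/-!
P133 (helper512): the game argument for a class closed under countable unions of arbitrary
subspaces and under the inductive step.
-/

namespace Vale.Agent.P133.H512.Game

open Vale.Agent.P133.H330 TopologicalSpace

universe u

variable {X : Type u} [TopologicalSpace X] {H : Set X → Set X → Prop}

/-- `S` can be avoided by descending sequences of locally closed sets nowhere good -/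
def Win (H : Set X → Set X → Prop) (S : Set X) : Prop :=
  ∃ D : ℕ → Set (Set X × Set X), (∀ (i : ℕ) (Y U : Set X), NW H Y U →
      ∃ Y' U' : Set X, NW H Y' U' ∧ Y' ⊆ Y ∧ U' ⊆ U ∧ (Y', U') ∈ D i) ∧
    ∀ s : ℕ → Set X × Set X, (∀ n, NW H (s n).1 (s n).2) → (Antitone fun n => (s n).1) →
      (Antitone fun n => (s n).2) → (∀ i, ∃ n, s n ∈ D i) →
      ∀ x ∈ S, ∃ n, ¬ (x ∈ (s n).2 ∧ x ∈ (s n).1)

theorem Win.mono {S T : Set X} (h : Win H T) (hST : S ⊆ T) : Win H S := by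
  obtain ⟨D, h1, h2⟩ := h
  exact ⟨D, h1, fun s a b c d x hx => h2 s a b c d x (hST hx)⟩

theorem win_iUnion {S : ℕ → Set X} (h : ∀ k, Win H (S k)) : Win H (⋃ k, S k) := by
  choose D h1 h2 using h
  refine ⟨fun i => D i.unpair.1 i.unpair.2, fun i => h1 _ _, fun s a b c d x hx => ?_⟩
  obtain ⟨k, hk⟩ := Set.mem_iUnion.1 hx
  refine h2 k s a b c (fun i => ?_) x hk
  obtain ⟨n, hn⟩ := d (Nat.pair k i)
  have hn' : s n ∈ D (Nat.pair k i).unpair.1 (Nat.pair k i).unpair.2 := hn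
  rw [Nat.unpair_pair] at hn'
  exact ⟨n, hn'⟩

theorem win_of_neg {S : Set X} (h : Neg H S) : Win H S := by
  refine ⟨fun _ => {q | ∀ x ∈ S, ¬ (x ∈ q.2 ∧ x ∈ q.1)}, fun i Y U hN => ?_,
    fun s a b c d x hx => ?_⟩
  · obtain ⟨Y', U', h1, h2, h3, h4⟩ := h Y U hN
    exact ⟨Y', U', h1, h2, h3, h4⟩
  · obtain ⟨n, hn⟩ := d 0
    exact ⟨n, hn x hx⟩

/-- `S` can be avoided if it can be avoided locally -/
theorem win_local {S : Set X}
    (h : ∀ Y U : Set X, NW H Y U → ∃ Y' U' : Set X, NW H Y' U' ∧ Y' ⊆ Y ∧ U' ⊆ U ∧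
      ∃ T : Set X, Win H T ∧ ∀ x ∈ S, x ∈ U' → x ∈ Y' → x ∈ T) : Win H S := by
  -- a maximal family of pairwise incompatible pairs
  let P : Set (Set X × Set X) := {q | NW H q.1 q.2 ∧
    ∃ T : Set X, Win H T ∧ ∀ x ∈ S, x ∈ q.2 → x ∈ q.1 → x ∈ T}
  let comp : Set X × Set X → Set X × Set X → Prop := fun p q =>
    ∃ r : Set X × Set X, NW H r.1 r.2 ∧ r.1 ⊆ p.1 ∧ r.2 ⊆ p.2 ∧ r.1 ⊆ q.1 ∧ r.2 ⊆ q.2
  let 𝒮 : Set (Set (Set X × Set X)) := {M | M ⊆ P ∧ ∀ p ∈ M, ∀ q ∈ M, comp p q → p = q}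
  obtain ⟨M, hM⟩ := zorn_subset 𝒮 (by
    intro c hc hch
    refine ⟨⋃₀ c, ⟨Set.sUnion_subset fun m hm => (hc hm).1, ?_⟩, fun m hm =>
      Set.subset_sUnion_of_mem hm⟩
    rintro p ⟨m1, hm1, hp⟩ q ⟨m2, hm2, hq⟩ hpq
    rcases hch.total hm1 hm2 with h3 | h3
    · exact (hc hm2).2 p (h3 hp) q hq hpq
    · exact (hc hm1).2 p hp q (h3 hq) hpq)
  obtain ⟨hMP, hMc⟩ := hM.prop
  have hT : ∀ q : Set X × Set X, ∃ D : ℕ → Set (Set X × Set X), q ∈ M →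
      (∀ (i : ℕ) (Y U : Set X), NW H Y U →
        ∃ Y' U' : Set X, NW H Y' U' ∧ Y' ⊆ Y ∧ U' ⊆ U ∧ (Y', U') ∈ D i) ∧
      ∀ s : ℕ → Set X × Set X, (∀ n, NW H (s n).1 (s n).2) → (Antitone fun n => (s n).1) →
        (Antitone fun n => (s n).2) → (∀ i, ∃ n, s n ∈ D i) →
        ∀ x ∈ S, x ∈ q.2 → x ∈ q.1 → ∃ n, ¬ (x ∈ (s n).2 ∧ x ∈ (s n).1) := by
    intro q
    by_cases hq : q ∈ M
    · obtain ⟨-, T, ⟨D, h1, h2⟩, h3⟩ := hMP hq
      exact ⟨D, fun _ => ⟨h1, fun s a b c d x hx hx2 hx1 => h2 s a b c d x (h3 x hx hx2 hx1)⟩⟩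
    · exact ⟨fun _ => ∅, fun hq' => absurd hq' hq⟩
  choose D hD using hT
  refine ⟨fun i => {q | ∃ a ∈ M, q.1 ⊆ a.1 ∧ q.2 ⊆ a.2 ∧ q ∈ D a i}, fun i Y U hN => ?_,
    fun s a b c d x hx => ?_⟩
  · obtain ⟨Y1, U1, hN1, hY1, hU1, hT1⟩ := h Y U hN
    have hP1 : (Y1, U1) ∈ P := ⟨hN1, hT1⟩
    obtain ⟨a, haM, r, hr, hr1, hr2, hr3, hr4⟩ : ∃ a ∈ M, comp (Y1, U1) a := by
      by_contra hno
      push Not at hno
      have h1 : insert (Y1, U1) M ∈ 𝒮 := by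
        refine ⟨Set.insert_subset hP1 hMP, ?_⟩
        rintro p (rfl | hp) q (rfl | hq) hpq
        · rfl
        · exact absurd hpq (hno q hq)
        · obtain ⟨r, h1, h2, h3, h4, h5⟩ := hpq
          exact absurd ⟨r, h1, h4, h5, h2, h3⟩ (hno p hp)
        · exact hMc p hp q hq hpq
      have h2 : (Y1, U1) ∈ M := hM.le_of_ge h1 (Set.subset_insert _ _) (Set.mem_insert _ _)
      exact hno _ h2 ⟨(Y1, U1), hN1, Set.Subset.rfl, Set.Subset.rfl, Set.Subset.rfl,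
        Set.Subset.rfl⟩
    obtain ⟨Y', U', h1, h2, h3, h4⟩ := (hD a haM).1 i r.1 r.2 hr
    exact ⟨Y', U', h1, (h2.trans hr1).trans hY1, (h3.trans hr2).trans hU1,
      a, haM, h2.trans hr3, h3.trans hr4, h4⟩
  · by_contra hcon
    push Not at hcon
    choose m α hαM hα1 hα2 hα3 using d
    have hα : ∀ i, α i = α 0 := by
      intro i
      refine hMc _ (hαM i) _ (hαM 0) ⟨s (max (m i) (m 0)), a _, ?_, ?_, ?_, ?_⟩
      · exact (b (le_max_left _ _)).trans (hα1 i)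
      · exact (c (le_max_left _ _)).trans (hα2 i)
      · exact (b (le_max_right _ _)).trans (hα1 0)
      · exact (c (le_max_right _ _)).trans (hα2 0)
    obtain ⟨n, hn⟩ := (hD (α 0) (hαM 0)).2 s a b c (fun i => ⟨m i, by
      have h1 := hα3 i
      rwa [hα i] at h1⟩) x hx (hα2 0 (hcon (m 0)).1) (hα1 0 (hcon (m 0)).2)
    exact hn (hcon n)

/-- subspaces in the class -/
theorem win_of_countInd (hI : IndStep H) {Z : Type u} [TopologicalSpace Z] (hZ : CountInd Z) :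
    ∀ f : Z → X, Topology.IsInducing f → Win H (Set.range f) := by
  induction hZ with
  | union Z S h hS ih =>
    intro f hf
    refine (win_iUnion fun k => ih k (fun x => f x.1)
      (hf.comp Topology.IsInducing.subtypeVal)).mono ?_
    rintro _ ⟨z, rfl⟩
    obtain ⟨k, hk⟩ := Set.mem_iUnion.1 (show z ∈ ⋃ k, S k by rw [h]; exact Set.mem_univ z)
    exact Set.mem_iUnion.2 ⟨k, ⟨z, hk⟩, rfl⟩
  | intro Z K L h hL ih =>
    intro f hf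
    refine win_local fun Y U hN => ?_
    by_contra hno
    have hstar : ∀ Y' U' : Set X, IsClosed Y' → IsOpen U' → Y' ⊆ Y → U' ⊆ U →
        (∀ x ∈ Set.range f, ¬ (x ∈ U' ∧ x ∈ Y')) → H Y' U' := by
      intro Y' U' hY' hU' h1 h2 h3
      by_contra h4
      obtain ⟨Y'', U'', h5, h6, h7⟩ := exists_nw hI hY' hU' h4
      exact hno ⟨Y'', U'', h7, h5.trans h1, h6.trans h2, ∅, win_of_neg (fun Y U hN =>
        ⟨Y, U, hN, Set.Subset.rfl, Set.Subset.rfl, fun x hx => hx.elim⟩), fun x hx h8 h9 =>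
          h3 x hx ⟨h6 h8, h5 h9⟩⟩
    refine hN.2.2.2 U hN.2.1 Set.Subset.rfl hN.2.2.1 (hI Y U hN.1 hN.2.1
      fun Z' W hZ' hZY hW hWU hne => ?_)
    by_cases hd : ∃ W' : Set X, IsOpen W' ∧ W' ⊆ W ∧ (W' ∩ Z').Nonempty ∧
        ∀ x ∈ Set.range f, ¬ (x ∈ W' ∧ x ∈ Z')
    · obtain ⟨W', hW', h1, h2, h3⟩ := hd
      exact ⟨W', hW', h1, h2, Or.inl (hstar _ _ hZ' hW' hZY (h1.trans hWU) h3)⟩
    · push Not at hd
      obtain ⟨_, ⟨z, rfl⟩, hzW, hzZ⟩ := hd W hW Set.Subset.rfl hne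
      obtain ⟨k, O', hO', ⟨y, hyO, hyZ⟩, hOV, hfr⟩ := h (f ⁻¹' Z') (f ⁻¹' W)
        (hZ'.preimage hf.continuous) (hW.preimage hf.continuous) ⟨z, hzW, hzZ⟩
      obtain ⟨O₀, hO₀, rfl⟩ := hf.isOpen_iff.1 hO'
      obtain ⟨O, hOdef⟩ : ∃ O : Set X, O = O₀ ∩ W := ⟨_, rfl⟩
      have hO : IsOpen O := by rw [hOdef]; exact hO₀.inter hW
      have hOW : O ⊆ W := by rw [hOdef]; exact Set.inter_subset_right
      have hOO : O ⊆ O₀ := by rw [hOdef]; exact Set.inter_subset_left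
      have hmO : ∀ w, f w ∈ O₀ → f w ∈ Z' → f w ∈ O := fun w hw hw' => by
        rw [hOdef]; exact ⟨hw, hOV ⟨hw, hw'⟩⟩
      refine ⟨O, hO, hOW, ⟨f y, hmO y hyO hyZ, hyZ⟩, ?_⟩
      rcases hfr with hfr | hfr
      · left
        by_contra hDn
        obtain ⟨Y1, U1, hY1, hU1, hN1⟩ := exists_nw hI hZ' hO hDn
        refine hno ⟨Y1, U1, hN1, hY1.trans hZY, hU1.trans (hOW.trans hWU), _,
          ih k (fun x => f x.1) (hf.comp Topology.IsInducing.subtypeVal), ?_⟩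
        rintro _ ⟨w, rfl⟩ hwU hwY
        have hw : w ∈ f ⁻¹' O₀ ∩ f ⁻¹' Z' := ⟨hOO (hU1 hwU), hY1 hwY⟩
        rw [hfr] at hw
        exact ⟨⟨w, hw⟩, rfl⟩
      · right
        have hDY : closure (O ∩ Z') \ O ⊆ Y := fun y hy =>
          hZY (closure_minimal Set.inter_subset_right hZ' hy.1)
        by_contra hDn
        obtain ⟨Y1, U1, hY1, hU1, hN1⟩ := exists_nw hI (isClosed_closure.sdiff hO) hN.2.1 hDn
        refine hno ⟨Y1, U1, hN1, hY1.trans hDY, hU1, _, ih k (fun x => f x.1)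
          (hf.comp Topology.IsInducing.subtypeVal), ?_⟩
        rintro _ ⟨w, rfl⟩ hwU hwY
        have hw := hY1 hwY
        have hwZ : f w ∈ Z' := closure_minimal Set.inter_subset_right hZ' hw.1
        refine ⟨⟨w, ?_⟩, rfl⟩
        rw [← hfr]
        refine ⟨?_, fun hwO => hw.2 (hmO w hwO hwZ)⟩
        rw [hf.closure_eq_preimage_closure_image]
        refine closure_minimal (fun y hy => ?_) isClosed_closure hw.1
        rw [mem_closure_iff]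
        intro G hG hyG
        obtain ⟨_, ⟨v, rfl⟩, hv, hv'⟩ := hd (G ∩ O) (hG.inter hO)
          (Set.inter_subset_right.trans hOW) ⟨y, ⟨hyG, hy.1⟩, hy.2⟩
        exact ⟨f v, hv.1, v, ⟨hOO hv.2, hv'⟩, rfl⟩

/-- **The game argument.** -/
theorem good_of_win [QuasiSober X] (hI : IndStep H)
    (hcc : ∀ (x : X) (U : Set X), IsOpen U → x ∈ U → ∃ V : Set X, IsOpen V ∧ x ∈ V ∧ V ⊆ U ∧
      ∀ F : Set (Set X), F.Nonempty → DirectedOn (· ⊆ ·) F → (∀ W ∈ F, IsOpen W) → U ⊆ ⋃₀ F →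
        ∃ W ∈ F, V ⊆ W) (hX : Win H Set.univ) : H Set.univ Set.univ := by
  by_contra hX'
  obtain ⟨Y0, U0, -, -, h0⟩ := exists_nw hI isClosed_univ isOpen_univ hX'
  obtain ⟨D, hD1, hD2⟩ := hX
  have hstep : ∀ (q : {q : Set X × Set X // NW H q.1 q.2}) (k : ℕ),
      ∃ q' : {q : Set X × Set X // NW H q.1 q.2}, q'.1.1 ⊆ q.1.1 ∧ q'.1.2 ⊆ q.1.2 ∧
        WayB q'.1.2 q.1.2 ∧ q'.1 ∈ D k := by
    rintro ⟨⟨Y, U⟩, hq⟩ k
    obtain ⟨hY, hU, ⟨x, hxU, hxY⟩, hno⟩ := id hq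
    obtain ⟨V, hV, hxV, hVU, hVU'⟩ := hcc x U hU hxU
    have hNV : NW H Y V := ⟨hY, hV, ⟨x, hxV, hxY⟩, fun U' h1 h2 h3 => hno U' h1 (h2.trans hVU) h3⟩
    obtain ⟨Y', U', h1, h2, h3, h4⟩ := hD1 k Y V hNV
    refine ⟨⟨(Y', U'), h1⟩, h2, h3.trans hVU, fun F f1 f2 f3 f4 => ?_, h4⟩
    obtain ⟨W, hW, hVW⟩ := hVU' F f1 f2 f3 f4
    exact ⟨W, hW, h3.trans hVW⟩
  choose nxt n1 n2 n3 n4 using hstep
  let s : ℕ → {q : Set X × Set X // NW H q.1 q.2} := fun n =>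
    Nat.rec ⟨(Y0, U0), h0⟩ (fun k q => nxt q k) n
  have hs : ∀ k, s (k + 1) = nxt (s k) k := fun k => rfl
  have hYd : Antitone fun k => (s k).1.1 := antitone_nat_of_succ_le fun k => by
    rw [hs]; exact n1 _ _
  have hUd : Antitone fun k => (s k).1.2 := antitone_nat_of_succ_le fun k => by
    rw [hs]; exact n2 _ _
  have hW : ∀ k, WayB (s (k + 1)).1.2 (s k).1.2 := fun k => by
    rw [hs]; exact n3 _ _
  have hpk : ∀ k, (s (k + 1)).1 ∈ D k := fun k => by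
    rw [hs]; exact n4 _ _
  have key : ∀ 𝒞 : Set (Set X), 𝒞.Nonempty → DirectedOn (· ⊇ ·) 𝒞 → (∀ C ∈ 𝒞, IsClosed C) →
      (∀ C ∈ 𝒞, ∀ j, (C ∩ (s j).1.2).Nonempty) → ∀ j, (⋂₀ 𝒞 ∩ (s j).1.2).Nonempty := by
    intro 𝒞 hne hd hc h j
    by_contra hemp
    obtain ⟨W, ⟨C, hC, rfl⟩, hW'⟩ := hW j (compl '' 𝒞) (hne.image _) (by
      rintro _ ⟨C1, h1, rfl⟩ _ ⟨C2, h2, rfl⟩
      obtain ⟨C3, h3, h31, h32⟩ := hd C1 h1 C2 h2
      exact ⟨_, ⟨C3, h3, rfl⟩, Set.compl_subset_compl.2 h31, Set.compl_subset_compl.2 h32⟩) (by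
      rintro _ ⟨C, hC, rfl⟩
      exact (hc C hC).isOpen_compl) (by
      intro x hx
      by_contra hx'
      refine hemp ⟨x, fun C hC => ?_, hx⟩
      by_contra hxC
      exact hx' ⟨Cᶜ, ⟨C, hC, rfl⟩, hxC⟩)
    obtain ⟨x, hx1, hx2⟩ := h C hC (j + 1)
    exact hW' hx2 hx1
  have hYU : ∀ k j, ((s k).1.1 ∩ (s j).1.2).Nonempty := by
    intro k j
    obtain ⟨x, hxU, hxY⟩ := (s (max k j)).2.2.2.1
    exact ⟨x, hYd (le_max_left k j) hxY, hUd (le_max_right k j) hxU⟩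
  let 𝒮 : Set (Set X) := {C | IsClosed C ∧ (∀ k, C ⊆ (s k).1.1) ∧ ∀ j, (C ∩ (s j).1.2).Nonempty}
  have hC0 : ⋂₀ (Set.range fun k => (s k).1.1) ∈ 𝒮 := by
    refine ⟨isClosed_sInter ?_, fun k => Set.sInter_subset_of_mem ⟨k, rfl⟩,
      key _ ⟨_, ⟨0, rfl⟩⟩ ?_ ?_ ?_⟩
    · rintro _ ⟨k, rfl⟩; exact (s k).2.1
    · rintro _ ⟨k, rfl⟩ _ ⟨l, rfl⟩
      exact ⟨_, ⟨max k l, rfl⟩, hYd (le_max_left k l), hYd (le_max_right k l)⟩
    · rintro _ ⟨k, rfl⟩; exact (s k).2.1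
    · rintro _ ⟨k, rfl⟩ j; exact hYU k j
  obtain ⟨M, -, hM⟩ := zorn_superset_nonempty 𝒮 (by
    intro c hc hch hcn
    refine ⟨⋂₀ c, ⟨isClosed_sInter fun C hC => (hc hC).1, fun k => ?_,
      key c hcn ?_ (fun C hC => (hc hC).1) fun C hC => (hc hC).2.2⟩,
      fun C hC => Set.sInter_subset_of_mem hC⟩
    · obtain ⟨C, hC⟩ := hcn
      exact (Set.sInter_subset_of_mem hC).trans ((hc hC).2.1 k)
    · intro C1 h1 C2 h2
      rcases hch.total h1 h2 with h3 | h3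
      · exact ⟨C1, h1, Set.Subset.rfl, h3⟩
      · exact ⟨C2, h2, h3, Set.Subset.rfl⟩) _ hC0
  obtain ⟨hMc, hMY, hMU⟩ := hM.prop
  have hirr : IsIrreducible M := by
    refine ⟨⟨(hMU 0).some, (hMU 0).some_mem.1⟩, ?_⟩
    rw [isPreirreducible_iff_isClosed_union_isClosed]
    intro C1 C2 h1 h2 h12
    by_contra hcon
    push Not at hcon
    have hbad : ∀ C : Set X, IsClosed C → ¬ M ⊆ C → ∃ j, ¬ (M ∩ C ∩ (s j).1.2).Nonempty := by
      intro C hC hMC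
      by_contra hall
      push Not at hall
      refine hMC ((hM.le_of_le (y := M ∩ C) ⟨hMc.inter hC, fun k =>
        Set.inter_subset_left.trans (hMY k), hall⟩ Set.inter_subset_left).trans
          Set.inter_subset_right)
    obtain ⟨j1, hj1⟩ := hbad C1 h1 hcon.1
    obtain ⟨j2, hj2⟩ := hbad C2 h2 hcon.2
    obtain ⟨x, hxM, hxU⟩ := hMU (max j1 j2)
    rcases h12 hxM with h3 | h3
    · exact hj1 ⟨x, ⟨hxM, h3⟩, hUd (le_max_left j1 j2) hxU⟩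
    · exact hj2 ⟨x, ⟨hxM, h3⟩, hUd (le_max_right j1 j2) hxU⟩
  obtain ⟨q, hq⟩ := QuasiSober.sober hirr hMc
  obtain ⟨k, hk⟩ := hD2 (fun k => (s k).1) (fun k => (s k).2) hYd hUd
    (fun i => ⟨i + 1, hpk i⟩) q (Set.mem_univ q)
  refine hk ⟨?_, hMY k (hq.mem)⟩
  obtain ⟨x, hxM, hxU⟩ := hMU k
  exact (hq.specializes hxM).mem_open (s k).2.2.1 hxU

end Vale.Agent.P133.H512.Game
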