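import Vale.Agent.P133.H330.Wid
import Vale.Agent.P133.H512.Win
import Vale.Agent.P133.H512.CountInd

/-!
P133 (helper512): quasi-sober spaces covered by countably many subspaces which are in `CountInd`, or
locally closed and in `SmallIndW`, are in `SmallIndW`.
-/

namespace Vale.Agent.P133.H512

open Vale.Agent.P133.H330 TopologicalSpace

universe u

variable {X : Type u} [TopologicalSpace X]

theorem smallIndW_transfer {S T : Set X} {C : Set S}
    (h : ∀ x, x ∈ T ↔ ∃ hx : x ∈ S, (⟨x, hx⟩ : S) ∈ C) (hT : SmallIndW T) : SmallIndW C := by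
  let f : C → T := fun x => ⟨x.1.1, (h _).2 ⟨x.1.2, x.2⟩⟩
  have hf : Continuous f := (continuous_subtype_val.comp continuous_subtype_val).subtype_mk _
  have hg : Topology.IsEmbedding ((Subtype.val : T → X) ∘ f) :=
    (Topology.IsEmbedding.subtypeVal (p := fun x => x ∈ S)).comp Topology.IsEmbedding.subtypeVal
  refine smallIndW_embedding hT C f ⟨Topology.IsEmbedding.of_comp hf continuous_subtype_val hg, ?_⟩
  · have h1 : Set.range f = Set.univ := by
      refine Set.eq_univ_of_forall fun y => ?_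
      obtain ⟨hy, hy'⟩ := (h y.1).1 y.2
      exact ⟨⟨⟨y.1, hy⟩, hy'⟩, rfl⟩
    rw [h1]
    exact isClosed_univ

/-- the predicate of the game -/
def HW (Y U : Set X) : Prop := SmallIndW (U ∩ Y : Set X)

theorem mono_HW : Game.Mono (X := X) HW := by
  intro F O Y U hF hO hY hU h hUO hUY
  have h1 : SmallIndW (U ∩ (O ∩ F) : Set X) := smallIndW_open h hU
  have hsub : U ∩ Y ⊆ U ∩ (O ∩ F) := fun x hx => ⟨hx.1, hUO hx.1, hUY hx⟩
  refine smallIndW_embedding h1 _ (Set.inclusion hsub) ⟨Topology.IsEmbedding.inclusion hsub, ?_⟩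
  rw [Set.range_inclusion]
  have h3 : {x : (U ∩ (O ∩ F) : Set X) | x.1 ∈ U ∩ Y} = Subtype.val ⁻¹' Y := by
    ext x
    exact ⟨fun h => h.2, fun h => ⟨x.2.1, h⟩⟩
  rw [h3]
  exact hY.preimage continuous_subtype_val

theorem indStep_HW : Game.IndStep (X := X) HW := by
  intro Y U hY hU H
  refine smallIndW_of fun C V hC hV hVC => ?_
  obtain ⟨Z', hZ', rfl⟩ := isClosed_induced_iff.1 hC
  obtain ⟨W, hW, rfl⟩ := isOpen_induced_iff.1 hV
  obtain ⟨⟨x, hx⟩, hxW, hxZ⟩ := hVC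
  obtain ⟨O, hO, hOW, ⟨y, hyO, hyZ⟩, h⟩ := H (Z' ∩ Y) (W ∩ U) (hZ'.inter hY)
    Set.inter_subset_right (hW.inter hU) Set.inter_subset_right ⟨x, ⟨hxW, hx.1⟩, hxZ, hx.2⟩
  refine ⟨Subtype.val ⁻¹' O, hO.preimage continuous_subtype_val,
    ⟨⟨y, (hOW hyO).2, hyZ.2⟩, hyO, hyZ.1⟩, fun z hz => (hOW hz.1).1, Or.inr ?_⟩
  rcases h with h | h
  · left
    refine smallIndW_transfer (T := O ∩ (Z' ∩ Y)) (fun z => ?_) h
    constructor
    · rintro ⟨h4, h5, h6⟩
      exact ⟨⟨(hOW h4).2, h6⟩, h4, h5⟩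
    · rintro ⟨h4, h5, h6⟩
      exact ⟨h5, h6, h4.2⟩
  · right
    refine smallIndW_transfer (T := U ∩ (closure (O ∩ (Z' ∩ Y)) \ O)) (fun y => ?_) h
    have himg : ∀ y : (U ∩ Y : Set X), y ∈ closure (Subtype.val ⁻¹' O ∩ Subtype.val ⁻¹' Z') ↔
        y.1 ∈ closure (O ∩ (Z' ∩ Y)) := by
      intro y
      rw [closure_subtype]
      have e1 : (Subtype.val '' (Subtype.val ⁻¹' O ∩ Subtype.val ⁻¹' Z' :
          Set (U ∩ Y : Set X)) : Set X) = O ∩ (Z' ∩ Y) := by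
        ext t
        constructor
        · rintro ⟨⟨t, ht⟩, ⟨h1, h2⟩, rfl⟩
          exact ⟨h1, h2, ht.2⟩
        · rintro ⟨h1, h2, h3⟩
          exact ⟨⟨t, (hOW h1).2, h3⟩, ⟨h1, h2⟩, rfl⟩
      rw [e1]
    constructor
    · rintro ⟨h1, h2, h3⟩
      have h4 : y ∈ Y :=
        closure_minimal (Set.inter_subset_right.trans Set.inter_subset_right) hY h2
      exact ⟨⟨h1, h4⟩, (himg ⟨y, h1, h4⟩).2 h2, h3⟩
    · rintro ⟨h1, h2, h3⟩
      exact ⟨h1.1, (himg ⟨y, h1⟩).1 h2, h3⟩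

theorem smallIndW_of_win [QuasiSober X]
    (hcc : ∀ (x : X) (U : Set X), IsOpen U → x ∈ U → ∃ V : Set X, IsOpen V ∧ x ∈ V ∧ V ⊆ U ∧
      ∀ F : Set (Set X), F.Nonempty → DirectedOn (· ⊆ ·) F → (∀ W ∈ F, IsOpen W) → U ⊆ ⋃₀ F →
        ∃ W ∈ F, V ⊆ W) (h : Game.Win (X := X) HW Set.univ) : SmallIndW X := by
  have h1 : SmallIndW (Set.univ ∩ Set.univ : Set X) := Game.good_of_win indStep_HW hcc h
  refine smallIndW_embedding h1 X (fun x => ⟨x, trivial, trivial⟩) ?_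
  refine Topology.IsClosedEmbedding.of_continuous_injective_isClosedMap ?_ ?_ ?_
  · exact Continuous.subtype_mk continuous_id _
  · intro a b hab
    exact congrArg (fun z : (Set.univ ∩ Set.univ : Set X) => z.1) hab
  · intro C hC
    have e1 : (fun x => (⟨x, trivial, trivial⟩ : (Set.univ ∩ Set.univ : Set X))) '' C =
        Subtype.val ⁻¹' C := by
      ext z
      constructor
      · rintro ⟨c, hc, rfl⟩; exact hc
      · exact fun hz => ⟨z.1, hz, rfl⟩
    rw [e1]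
    exact hC.preimage continuous_subtype_val

/-- **Countable unions of arbitrary subspaces.** -/
theorem smallIndW_of_countUnion [QuasiSober X]
    (hcc : ∀ (x : X) (U : Set X), IsOpen U → x ∈ U → ∃ V : Set X, IsOpen V ∧ x ∈ V ∧ V ⊆ U ∧
      ∀ F : Set (Set X), F.Nonempty → DirectedOn (· ⊆ ·) F → (∀ W ∈ F, IsOpen W) → U ⊆ ⋃₀ F →
        ∃ W ∈ F, V ⊆ W) {S : ℕ → Set X}
    (hS : ∀ k, CountInd (S k) ∨ (IsLocallyClosed (S k) ∧ SmallIndW (S k)))
    (hSX : ⋃ k, S k = Set.univ) : SmallIndW X := by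
  refine smallIndW_of_win hcc ?_
  rw [← hSX]
  refine Game.win_iUnion fun k => ?_
  rcases hS k with h | ⟨h1, h2⟩
  · have h3 := Game.win_of_countInd (indStep_HW (X := X)) h (fun x => x.1)
      Topology.IsInducing.subtypeVal
    rwa [Subtype.range_coe] at h3
  · obtain ⟨O, F, hO, hF, hOF⟩ := h1
    rw [hOF] at h2 ⊢
    exact Game.win_of_neg (Game.neg_of_good mono_HW hF hO h2)

theorem smallIndW_of_countInd [QuasiSober X]
    (hcc : ∀ (x : X) (U : Set X), IsOpen U → x ∈ U → ∃ V : Set X, IsOpen V ∧ x ∈ V ∧ V ⊆ U ∧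
      ∀ F : Set (Set X), F.Nonempty → DirectedOn (· ⊆ ·) F → (∀ W ∈ F, IsOpen W) → U ⊆ ⋃₀ F →
        ∃ W ∈ F, V ⊆ W) (hX : CountInd X) : SmallIndW X := by
  refine smallIndW_of_win hcc ?_
  have h3 := Game.win_of_countInd (indStep_HW (X := X)) hX id Topology.IsInducing.id
  rwa [Set.range_id] at h3

end Vale.Agent.P133.H512
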