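import Vale.Agent.P133.H216.Compact

/-!
P133 (helper512): extension by a purely infinite ideal, for a single element.
-/

open scoped ComplexOrder

namespace Vale.Agent.P133.H512

open Vale.Agent.P133 Vale.Agent.P133.Statement Vale.Agent.P133.H832 Vale.Agent.P133F
  Vale.Agent.P133.H681 Vale.Agent.P133.R2 Vale.Agent.P133.R2.H28 Vale.Agent.P133.H779
  Vale.Agent.P133.H330

universe u

section

variable {A : Type u} [NonUnitalCStarAlgebra A] [PartialOrder A] [StarOrderedRing A]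

/-- The error term of a comparison modulo `J` is absorbed by `y`; for one tolerance. -/
theorem rows_absorb {n : ℕ} {b : A} (b0 : 0 ≤ b) {τ : ℝ} (hτ : 0 < τ) :
    ∃ ε : ℝ, 0 < ε ∧ ∀ {a h y : A}, 0 ≤ a → 0 ≤ h → 0 ≤ y → h * y = 0 → h ∈ RI a → y ∈ RI a →
      ∀ {J : Submodule ℂ A}, IsClosedIdeal J → (∀ x ∈ J, InfB y (star x * x)) →
      ∀ (s : Fin n → A) (z : Fin n → Fin n → A), (∀ i j, z i j ∈ J) →
      (∀ i j, ‖star (s i) * h * s j - (if i = j then b else 0) - z i j‖ < ε) →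
      ∃ T : Fin n → A, ∀ i j, ‖star (T i) * a * T j - (if i = j then b else 0)‖ ≤ τ := by
  obtain ⟨p, hp⟩ : ∃ p : A, p = CFC.sqrt b := ⟨_, rfl⟩
  have hps : star p = p := by rw [hp]; exact (IsSelfAdjoint.of_nonneg (CFC.sqrt_nonneg b)).star_eq
  have hpp : p * p = b := by rw [hp]; exact CFC.sqrt_mul_sqrt_self b b0
  set K : ℝ := ‖p‖ * ‖p‖ / (τ / 2) + 1 with hK
  have hK0 : 0 < K := by positivity
  set ε : ℝ := τ / (40 * K) with hε
  have hε0 : 0 < ε := by positivity
  refine ⟨ε, hε0, ?_⟩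
  intro a h y ha h0 y0 hhy hha hya J hJ hJy s z hzJ hs
  obtain ⟨k, hk⟩ : ∃ k : A, k = CFC.sqrt h := ⟨_, rfl⟩
  have hks : star k = k := by rw [hk]; exact (IsSelfAdjoint.of_nonneg (CFC.sqrt_nonneg h)).star_eq
  have hkk : k * k = h := by rw [hk]; exact CFC.sqrt_mul_sqrt_self h h0
  obtain ⟨l, hl⟩ : ∃ l : A, l = CFC.sqrt y := ⟨_, rfl⟩
  have hls : star l = l := by rw [hl]; exact (IsSelfAdjoint.of_nonneg (CFC.sqrt_nonneg y)).star_eq
  have hll : l * l = y := by rw [hl]; exact CFC.sqrt_mul_sqrt_self y y0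
  have hkRI : k ∈ RI h := by rw [hk]; exact sqrt_mem_RI h0
  have hlRI : l ∈ RI y := by rw [hl]; exact sqrt_mem_RI y0
  have hkl : k * l = 0 := by
    have h1 := RI.orth (z := h) (z' := y) (by rw [(IsSelfAdjoint.of_nonneg h0).star_eq]; exact hhy)
      hkRI hlRI
    rwa [hks] at h1
  have hlk : l * k = 0 := by
    have h1 := congrArg star hkl
    rwa [star_mul, hks, hls, star_zero] at h1
  obtain ⟨g, hg0, hg1, hgJ, hgz⟩ := unit_ideal hJ (fun p : Fin n × Fin n => z p.1 p.2)
    (fun p => hzJ _ _) hε0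
  have hgs : star g = g := (IsSelfAdjoint.of_nonneg hg0).star_eq
  have hpg : p * g ∈ J := (hJ.2 p g hgJ).1
  obtain ⟨u, hu⟩ := (hJy _ hpg).2 n ε hε0
  -- the total
  set Q : A := ((b - g * b) - (b - g * b) * g) + g * b * g with hQ
  have hpg2 : star (p * g) * (p * g) = g * b * g := by
    rw [star_mul, hps, hgs, ← hpp]; simp only [mul_assoc]
  have hQle : p * p ≤ (2 : ℝ) • Q := by
    have e1 : (2 : ℝ) • Q - p * p = star (p - (2 : ℝ) • (p * g)) * (p - (2 : ℝ) • (p * g)) := by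
      have e2 : star (p - (2 : ℝ) • (p * g)) * (p - (2 : ℝ) • (p * g)) =
          p * p - (2 : ℝ) • (p * p * g) - (2 : ℝ) • (g * (p * p)) +
            (2 : ℝ) • ((2 : ℝ) • (g * (p * p) * g)) := by
        rw [star_sub, star_smul, star_trivial (2 : ℝ), star_mul, hps, hgs, sub_mul, mul_sub,
          mul_sub, mul_smul_comm, smul_mul_assoc, smul_mul_smul_comm, smul_smul]
        simp only [mul_assoc]
        abel
      rw [e2, hpp, hQ]
      simp only [two_smul, sub_mul]
      abel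
    rw [← sub_nonneg, e1]
    exact star_mul_self_nonneg _
  obtain ⟨D, hDn, hD⟩ := order_lemma' hps hQle (half_pos hτ)
  have hDK : ‖D‖ * ‖D‖ ≤ K := hDn.trans (by rw [hK]; linarith)
  -- the vectors
  set V : Fin n → A := fun i => k * (s i - s i * g) + l * u i with hV
  have hVa : ∀ i, V i ∈ RI a := fun i =>
    RI.add (RI.mul (RI.trans hkRI hha) _) (RI.mul (RI.trans hlRI hya) _)
  have hVV : ∀ i j, ‖star (V i) * V j - (if i = j then Q else 0)‖ ≤ 6 * ε := by
    intro i j
    have e1 : star (V i) * V j = star (s i - s i * g) * h * (s j - s j * g) +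
        star (u i) * y * u j := by
      simp only [hV, star_add, star_mul, hks, hls, add_mul, mul_add]
      have h1 : star (s i - s i * g) * k * (l * u j) = 0 := by
        calc _ = star (s i - s i * g) * (k * l) * u j := by simp only [mul_assoc]
          _ = 0 := by rw [hkl]; simp
      have h2 : star (u i) * l * (k * (s j - s j * g)) = 0 := by
        calc _ = star (u i) * (l * k) * (s j - s j * g) := by simp only [mul_assoc]
          _ = 0 := by rw [hlk]; simp
      rw [h1, h2, add_zero, zero_add, ← hkk, ← hll]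
      simp only [mul_assoc]
    set x : A := star (s i) * h * s j - (if i = j then b else 0) - z i j with hx
    have hxn : ‖x‖ ≤ ε := (hs i j).le
    have e2 : star (s i - s i * g) * h * (s j - s j * g) -
        (if i = j then (b - g * b) - (b - g * b) * g else 0) =
        ((x - g * x) - (x - g * x) * g) + ((z i j - g * z i j) - (z i j - g * z i j) * g) := by
      rw [star_sub, star_mul, hgs, hx]
      split_ifs <;> noncomm_ring
    have e3 : star (V i) * V j - (if i = j then Q else 0) =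
        (((x - g * x) - (x - g * x) * g) + ((z i j - g * z i j) - (z i j - g * z i j) * g)) +
          (star (u i) * y * u j - (if i = j then g * b * g else 0)) := by
      rw [e1, ← e2, hQ]
      split_ifs
      · abel
      · abel
    have h1 : ‖x - g * x‖ ≤ 2 * ε := by
      calc _ ≤ ‖x‖ + ‖g * x‖ := norm_sub_le _ _
        _ ≤ ε + 1 * ε := add_le_add hxn (norm_mul_le_of_le hg1 hxn)
        _ = 2 * ε := by ring
    have h2 : ‖(x - g * x) - (x - g * x) * g‖ ≤ 4 * ε := by
      calc _ ≤ ‖x - g * x‖ + ‖(x - g * x) * g‖ := norm_sub_le _ _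
        _ ≤ 2 * ε + 2 * ε * 1 := add_le_add h1 (norm_mul_le_of_le h1 hg1)
        _ = 4 * ε := by ring
    have h3 := (hu i j).le
    rw [hpg2] at h3
    rw [e3]
    calc _ ≤ ‖((x - g * x) - (x - g * x) * g) + ((z i j - g * z i j) - (z i j - g * z i j) * g)‖ +
          ‖star (u i) * y * u j - (if i = j then g * b * g else 0)‖ := norm_add_le _ _
      _ ≤ (4 * ε + ε) + ε := add_le_add ((norm_add_le _ _).trans
          (add_le_add h2 (hgz (i, j)))) h3
      _ = 6 * ε := by ring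
  obtain ⟨T, hT⟩ := rows_of_vectors ha V hVa hε0
  have hTT : ∀ i j, ‖star (T i) * a * T j - (if i = j then Q else 0)‖ ≤ 10 * ε := by
    intro i j
    have e1 : star (T i) * a * T j - (if i = j then Q else 0) =
        (star (T i) * a * T j - star (V i) * V j) +
          (star (V i) * V j - (if i = j then Q else 0)) := by abel
    rw [e1]
    calc _ ≤ _ := norm_add_le _ _
      _ ≤ ε + 6 * ε := add_le_add (hT i j) (hVV i j)
      _ ≤ 10 * ε := by linarith
  -- the final vectors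
  have h22 : √(2 : ℝ) * √2 = 2 := Real.mul_self_sqrt (by norm_num)
  refine ⟨fun i => √(2 : ℝ) • (T i * D), fun i j => ?_⟩
  have e1 : star (√(2 : ℝ) • (T i * D)) * a * (√(2 : ℝ) • (T j * D)) -
      (if i = j then b else 0) =
      (2 : ℝ) • (star D * (star (T i) * a * T j - (if i = j then Q else 0)) * D) +
        (if i = j then star D * ((2 : ℝ) • Q) * D - p * p else 0) := by
    rw [star_smul, star_trivial (√(2 : ℝ)), smul_mul_assoc, smul_mul_smul_comm, h22, star_mul]
    split_ifs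
    · rw [mul_sub, sub_mul, smul_sub, hpp, mul_smul_comm, smul_mul_assoc]
      simp only [mul_assoc]
      abel
    · simp only [sub_zero, add_zero, mul_assoc]
  rw [e1]
  have h1 : ‖(2 : ℝ) • (star D * (star (T i) * a * T j - (if i = j then Q else 0)) * D)‖ ≤
      τ / 2 := by
    rw [norm_smul, Real.norm_of_nonneg (by norm_num)]
    calc 2 * ‖star D * (star (T i) * a * T j - (if i = j then Q else 0)) * D‖
        ≤ 2 * (‖D‖ * (10 * ε) * ‖D‖) := by
          gcongr
          exact norm_mul_le_of_le (norm_mul_le_of_le (norm_star _).le (hTT i j)) le_rfl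
      _ = 20 * ε * (‖D‖ * ‖D‖) := by ring
      _ ≤ 20 * ε * K := by gcongr
      _ = τ / 2 := by rw [hε]; field_simp; norm_num
  have h2 : ‖(if i = j then star D * ((2 : ℝ) • Q) * D - p * p else 0)‖ ≤ τ / 2 := by
    split_ifs
    · exact hD
    · rw [norm_zero]; positivity
  calc _ ≤ _ := norm_add_le _ _
    _ ≤ τ := by linarith

/-- an element is in the closed right ideal of its range -/
theorem mem_RI_mul_star (x : A) : x ∈ RI (x * star x) := by
  refine mem_RI.2 fun ε hε => ?_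
  obtain ⟨G, hG⟩ := approx_unit x hε
  refine ⟨x * G, ?_⟩
  have e1 : x * star x * (x * G) = x * (star x * x * G) := by simp only [mul_assoc]
  rw [e1]
  exact hG

omit [StarOrderedRing A] in
/-- rows below `k * y * k` are rows below `y` -/
theorem infB_conj {y k c : A} (hk : star k = k) (h : InfB (k * y * k) c) : InfB y c := by
  refine ⟨h.1, fun m ε hε => ?_⟩
  obtain ⟨r, hr⟩ := h.2 m ε hε
  refine ⟨fun i => k * r i, fun i j => ?_⟩
  have e1 : star (k * r i) * y * (k * r j) = star (r i) * (k * y * k) * r j := by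
    rw [star_mul, hk]; simp only [mul_assoc]
  rw [e1]
  exact hr i j

/-- approximate units of closed ideals, two-sided -/
theorem unit_ideal' {ι : Type} [Fintype ι] {J : Submodule ℂ A} (hJ : IsClosedIdeal J) (x : ι → A)
    (hx : ∀ i, x i ∈ J) {ε : ℝ} (hε : 0 < ε) :
    ∃ g : A, star g = g ∧ ‖g‖ ≤ 1 ∧ g ∈ J ∧ ∀ i, ‖x i - g * x i‖ ≤ ε ∧ ‖x i - x i * g‖ ≤ ε := by
  obtain ⟨g, hg0, hg1, hgJ, hg⟩ := unit_ideal hJ
    (fun p : ι × Bool => if p.2 then x p.1 * star (x p.1) else star (x p.1) * x p.1)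
    (fun p => by
      split_ifs
      · exact (hJ.2 _ _ (hx _)).2
      · exact (hJ.2 _ _ (hx _)).1) (ε := ε ^ 2) (by positivity)
  have hgs : star g = g := (IsSelfAdjoint.of_nonneg hg0).star_eq
  refine ⟨g, hgs, hg1, hgJ, fun i => ⟨?_, ?_⟩⟩
  · have h1 := hg (i, true)
    simp only [if_true] at h1
    have h2 : (x i * star (x i) - g * (x i * star (x i))) -
        (x i * star (x i) - g * (x i * star (x i))) * g =
        (x i - g * x i) * star (x i - g * x i) := by
      rw [star_sub, star_mul g (x i), hgs]; noncomm_ring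
    rw [h2, CStarRing.norm_self_mul_star] at h1
    exact abs_le_of_sq_le_sq' (by nlinarith [norm_nonneg (x i - g * x i)]) hε.le |>.2
  · have h1 := hg (i, false)
    simp only [Bool.false_eq_true, if_false] at h1
    have h2 : (star (x i) * x i - g * (star (x i) * x i)) -
        (star (x i) * x i - g * (star (x i) * x i)) * g =
        star (x i - x i * g) * (x i - x i * g) := by
      rw [star_sub, star_mul (x i) g, hgs]; noncomm_ring
    rw [h2, CStarRing.norm_star_mul_self] at h1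
    exact abs_le_of_sq_le_sq' (by nlinarith [norm_nonneg (x i - x i * g)]) hε.le |>.2

/-- Let every positive element of the closed ideal `I` be properly infinite. Then all multiples
of all elements of `I` in the closed ideal generated by `y` are below `y`. -/
theorem infB_of_piIdeal {I : Submodule ℂ A} (hI : IsClosedIdeal I)
    (hpi : ∀ q ∈ I, 0 ≤ q → InfB q q) {y : A} (y0 : 0 ≤ y) {c : A} (hc : 0 ≤ c) (hcI : c ∈ I)
    (hcy : InId y c) : InfB y c := by
  refine infB_lim hc fun ε hε => ?_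
  set δ : ℝ := ε / 10 with hδ
  have hδ0 : 0 < δ := by positivity
  -- `c` is approximated by an element of the ideal of `k y k`
  obtain ⟨g, hgs, hg1, hgI, hgc⟩ := unit_ideal' hI (fun _ : Unit => c) (fun _ => hcI) hδ0
  obtain ⟨m, r, s, hrs⟩ := hcy δ hδ0
  set C : ℝ := ∑ l, (‖g * r l‖ + ‖s l * g‖) + 1 with hC
  have hC0 : 0 ≤ ∑ l, (‖g * r l‖ + ‖s l * g‖) :=
    Finset.sum_nonneg fun l _ => add_nonneg (norm_nonneg _) (norm_nonneg _)
  have hC1 : 1 ≤ C := by rw [hC]; linarith
  have hCl : ∀ l, ‖g * r l‖ + ‖s l * g‖ ≤ C := fun l => by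
    have := Finset.single_le_sum (f := fun l => ‖g * r l‖ + ‖s l * g‖)
      (fun l _ => add_nonneg (norm_nonneg _) (norm_nonneg _)) (Finset.mem_univ l)
    rw [hC]; linarith
  set η : ℝ := δ / (2 * (m + 1) * (C * (‖y‖ + 1))) with hη
  have hη0 : 0 < η := by positivity
  obtain ⟨k, hks, hk1, hkI, hk⟩ := unit_ideal' hI
    (fun p : Fin m × Bool => if p.2 then g * r p.1 else s p.1 * g)
    (fun p => by
      split_ifs
      · exact (hI.2 _ _ hgI).2
      · exact (hI.2 _ _ hgI).1) hη0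
  have hk1' : ∀ l, ‖g * r l - g * r l * k‖ ≤ η := fun l => by
    have := (hk (l, true)).2
    simpa using this
  have hk2' : ∀ l, ‖s l * g - k * (s l * g)‖ ≤ η := fun l => by
    have := (hk (l, false)).1
    simpa using this
  set q : A := k * y * k with hq
  have hq0 : 0 ≤ q := by
    have := star_left_conjugate_nonneg y0 k
    rwa [hks] at this
  have hqI : q ∈ I := (hI.2 _ _ hkI).1
  obtain ⟨J, hJ, hJ'⟩ := isClosedIdeal_inId q
  set w : A := ∑ l, g * r l * q * (s l * g) with hw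
  have hwJ : w ∈ J := J.sum_mem fun l _ => (hJ.2 _ _ (hJ.2 _ _ ((hJ' q).2 (InId.refl q))).1).2
  have h1 : ‖g * (∑ l, r l * y * s l) * g - w‖ ≤ δ := by
    have e1 : g * (∑ l, r l * y * s l) * g - w =
        ∑ l, ((g * r l - g * r l * k) * y * (s l * g) +
          g * r l * k * y * (s l * g - k * (s l * g))) := by
      rw [hw, Finset.mul_sum, Finset.sum_mul, ← Finset.sum_sub_distrib]
      refine Finset.sum_congr rfl fun l _ => ?_
      rw [hq]; noncomm_ring
    rw [e1]
    refine (norm_sum_le _ _).trans ?_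
    have h2 : ∀ l ∈ (Finset.univ : Finset (Fin m)), ‖(g * r l - g * r l * k) * y * (s l * g) +
        g * r l * k * y * (s l * g - k * (s l * g))‖ ≤ δ / (m + 1) := by
      intro l _
      have ha : ‖g * r l‖ ≤ C := by have := hCl l; linarith [norm_nonneg (s l * g)]
      have hb : ‖s l * g‖ ≤ C := by have := hCl l; linarith [norm_nonneg (g * r l)]
      calc _ ≤ η * ‖y‖ * C + C * 1 * ‖y‖ * η := norm_add_le_of_le
            (norm_mul_le_of_le (norm_mul_le_of_le (hk1' l) le_rfl) hb)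
            (norm_mul_le_of_le (norm_mul_le_of_le (norm_mul_le_of_le ha hk1) le_rfl) (hk2' l))
        _ = 2 * (η * (C * ‖y‖)) := by ring
        _ ≤ 2 * (η * (C * (‖y‖ + 1))) := by
            have : C * ‖y‖ ≤ C * (‖y‖ + 1) := by nlinarith
            have := mul_le_mul_of_nonneg_left this hη0.le
            linarith
        _ = δ / (m + 1) := by rw [hη]; field_simp
    calc _ ≤ ∑ l : Fin m, δ / (m + 1) := Finset.sum_le_sum h2
      _ = m * (δ / (m + 1)) := by rw [Finset.sum_const, Finset.card_univ, Fintype.card_fin,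
          nsmul_eq_mul]
      _ ≤ δ := by
          rw [mul_div_assoc', div_le_iff₀ (by positivity)]
          nlinarith
  have h2 : ‖w - c‖ < ε / 2 := by
    have e1 : w - c = -(g * (∑ l, r l * y * s l) * g - w) +
        g * ((∑ l, r l * y * s l) - c) * g - ((c - g * c) + g * (c - c * g)) := by
      noncomm_ring
    rw [e1]
    have h3 : ‖g * ((∑ l, r l * y * s l) - c) * g‖ ≤ δ := by
      calc _ ≤ 1 * δ * 1 := norm_mul_le_of_le (norm_mul_le_of_le hg1 hrs.le) hg1
        _ = δ := by ring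
    have h4 : ‖(c - g * c) + g * (c - c * g)‖ ≤ δ + 1 * δ :=
      norm_add_le_of_le (hgc ()).1 (norm_mul_le_of_le hg1 (hgc ()).2)
    calc _ ≤ ‖-(g * (∑ l, r l * y * s l) * g - w) + g * ((∑ l, r l * y * s l) - c) * g‖ +
          ‖(c - g * c) + g * (c - c * g)‖ := norm_sub_le _ _
      _ ≤ (δ + δ) + (δ + 1 * δ) := by
          refine add_le_add (norm_add_le_of_le ?_ h3) h4
          rw [norm_neg]; exact h1
      _ < ε / 2 := by rw [hδ]; linarith
  have h3 : R2.H28.cut c (ε / 2) ∈ J := hJ.cut_mem hc hwJ (by rwa [norm_sub_rev])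
  have h4 : InfB q (R2.H28.cut c (ε / 2)) := by
    have h5 : CFC.sqrt (R2.H28.cut c (ε / 2)) ∈ J := by
      refine hJ.of_star_mul_self ?_
      rwa [(IsSelfAdjoint.of_nonneg (CFC.sqrt_nonneg _)).star_eq,
        CFC.sqrt_mul_sqrt_self _ (R2.H28.cut_nonneg _ _)]
    have h6 := infB_idSub (hpi q hqI hq0) hJ' _ h5
    rwa [(IsSelfAdjoint.of_nonneg (CFC.sqrt_nonneg _)).star_eq,
      CFC.sqrt_mul_sqrt_self _ (R2.H28.cut_nonneg _ _)] at h6
  exact ⟨_, infB_conj hks h4, (R2.H28.norm_cut_sub_le hc (half_pos hε)).trans_lt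
    (half_lt_self hε)⟩

omit [PartialOrder A] [StarOrderedRing A] in
theorem isClosedIdeal_inf' {I J : Submodule ℂ A} (hI : IsClosedIdeal I) (hJ : IsClosedIdeal J) :
    IsClosedIdeal (I ⊓ J) :=
  ⟨hI.1.inter hJ.1, fun b x hx => ⟨⟨(hI.2 b x hx.1).1, (hJ.2 b x hx.2).1⟩,
    ⟨(hI.2 b x hx.1).2, (hJ.2 b x hx.2).2⟩⟩⟩

omit [PartialOrder A] [StarOrderedRing A] in
theorem ri_smul {z x : A} (h : x ∈ RI z) (c : ℝ) : c • x ∈ RI z := by
  refine mem_RI.2 fun ε hε => ?_
  obtain ⟨w, hw⟩ := mem_RI.1 h (ε / (‖c‖ + 1)) (by positivity)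
  refine ⟨c • w, ?_⟩
  rw [mul_smul_comm, ← smul_sub, norm_smul]
  calc ‖c‖ * ‖z * w - x‖ ≤ ‖c‖ * (ε / (‖c‖ + 1)) := by gcongr
    _ = ‖c‖ / (‖c‖ + 1) * ε := by ring
    _ < 1 * ε := by
        gcongr
        rw [div_lt_one (by positivity)]; linarith
    _ = ε := one_mul ε

omit [PartialOrder A] [StarOrderedRing A] in
/-- norms in quotients -/
theorem norm_map_sq {B : Type u} [NonUnitalCStarAlgebra B] (φ : A →⋆ₙₐ[ℂ] B) (x : A) :
    ‖φ x‖ * ‖φ x‖ = ‖φ (star x * x)‖ := by
  rw [map_mul, map_star, CStarRing.norm_star_mul_self]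

/-- The element `v` is in the ideal of `y`. -/
theorem ext_v {B : Type u} [NonUnitalCStarAlgebra B] [PartialOrder B] [StarOrderedRing B]
    (φ : A →⋆ₙₐ[ℂ] B) {a b α g u₁ : A} (hb : 0 ≤ b) (hba : b ≤ a) (hαs : star α = α)
    (hαα : α * α = a) (hgs : star g = g) {τ ε : ℝ} (hτ0 : 0 < τ) (hε2 : ε ≤ τ / 256)
    (hu1b : ‖star u₁ * u₁ - ((b - g * b) - (b - g * b) * g)‖ ≤ 5 * ε)
    (hφy : φ (cfcₙ gg ((64 / τ) • (u₁ * star u₁ + α * g * star (α * g)))) = 0) :
    φ (cfcₙ ff ((1 / τ) • b)) = 0 := by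
  set L : ℝ := 64 / τ with hL
  have hL0 : 0 < L := by positivity
  set u₂ : A := α * g with hu₂
  set W : A := u₁ * star u₁ + u₂ * star u₂ with hW
  have hW1 : 0 ≤ u₁ * star u₁ := mul_star_self_nonneg _
  have hW2 : 0 ≤ u₂ * star u₂ := mul_star_self_nonneg _
  have hW0 : 0 ≤ W := add_nonneg hW1 hW2
  set X : A := L • W with hX
  have hX0 : 0 ≤ X := smul_nonneg hL0.le hW0
  have h1 : ‖φ X‖ ≤ 3 / 4 := by
    have e1 : φ X = -φ (cfcₙ gg X - X) := by
      rw [map_sub, hφy]; abel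
    rw [e1, norm_neg]
    exact (NonUnitalStarAlgHom.norm_apply_le φ _).trans (H216.gg_close hX0)
  have h2 : ‖φ W‖ ≤ 1 / L := by
    have e1 : φ X = L • φ W := by
      rw [hX, ← Complex.coe_smul, ← Complex.coe_smul, map_smul]
    rw [e1, norm_smul, Real.norm_of_nonneg hL0.le] at h1
    rw [le_div_iff₀ hL0]
    linarith
  have hsm : ∀ u u' : A, W = u * star u + u' * star u' → ‖φ u‖ * ‖φ u‖ ≤ 1 / L := by
    intro u u' hu
    refine le_trans ?_ h2
    rw [← CStarRing.norm_self_mul_star]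
    refine CStarAlgebra.norm_le_norm_of_nonneg_of_le (mul_star_self_nonneg _) ?_
    rw [hu, map_add, map_mul, map_mul, map_star, map_star, le_add_iff_nonneg_right]
    exact mul_star_self_nonneg _
  have h3 : ‖φ u₁‖ * ‖φ u₁‖ ≤ 1 / L := hsm u₁ u₂ hW
  have h4 : ‖φ u₂‖ * ‖φ u₂‖ ≤ 1 / L := hsm u₂ u₁ (by rw [hW, add_comm])
  obtain ⟨p, hp⟩ : ∃ p : A, p = CFC.sqrt b := ⟨_, rfl⟩
  have hps : star p = p := by
    rw [hp]; exact (IsSelfAdjoint.of_nonneg (CFC.sqrt_nonneg b)).star_eq
  have hpp : p * p = b := by rw [hp]; exact CFC.sqrt_mul_sqrt_self b hb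
  have h5 : ‖φ (p - p * g)‖ * ‖φ (p - p * g)‖ ≤ 1 / L + 5 * ε := by
    rw [norm_map_sq]
    have e1 : star (p - p * g) * (p - p * g) = (b - g * b) - (b - g * b) * g := by
      rw [star_sub, star_mul p g, hps, hgs, ← hpp]; noncomm_ring
    have e2 : φ (star (p - p * g) * (p - p * g)) = φ (star u₁ * u₁) -
        φ (star u₁ * u₁ - ((b - g * b) - (b - g * b) * g)) := by
      rw [e1, ← map_sub]; congr 1; abel
    rw [e2]
    refine norm_sub_le_of_le ?_ ((NonUnitalStarAlgHom.norm_apply_le φ _).trans hu1b)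
    rw [← norm_map_sq]
    exact h3
  have h6 : ‖φ (p * g)‖ * ‖φ (p * g)‖ ≤ 1 / L := by
    refine le_trans ?_ h4
    rw [norm_map_sq, norm_map_sq]
    refine CStarAlgebra.norm_le_norm_of_nonneg_of_le ?_ ?_
    · rw [map_mul, map_star]; exact star_mul_self_nonneg _
    · have e1 : star (p * g) * (p * g) = g * b * g := by
        rw [star_mul, hps, hgs, ← hpp]; simp only [mul_assoc]
      have e2 : star u₂ * u₂ = g * a * g := by
        rw [hu₂, star_mul, hαs, hgs, ← hαα]; simp only [mul_assoc]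
      have e3 : g * b * g ≤ g * a * g := by
        have := star_left_conjugate_le_conjugate hba g
        rwa [hgs] at this
      rw [e1, e2, ← sub_nonneg, ← map_sub]
      exact map_nonneg_aux φ (sub_nonneg.2 e3)
  refine map_ff_zero φ (smul_nonneg (by positivity) hb) ?_
  have h7 : ‖φ b‖ ≤ 4 / L + 10 * ε := by
    have e1 : φ b = star (φ p) * φ p := by rw [← map_star, ← map_mul, hps, hpp]
    have e2 : φ p = φ (p - p * g) + φ (p * g) := by rw [← map_add, sub_add_cancel]
    rw [e1, CStarRing.norm_star_mul_self]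
    have h8 : ‖φ p‖ ≤ ‖φ (p - p * g)‖ + ‖φ (p * g)‖ := by
      rw [e2]; exact norm_add_le _ _
    have h9 : 4 / L = 4 * (1 / L) := by ring
    have h10 : ‖φ p‖ * ‖φ p‖ ≤ (‖φ (p - p * g)‖ + ‖φ (p * g)‖) *
        (‖φ (p - p * g)‖ + ‖φ (p * g)‖) :=
      mul_self_le_mul_self (norm_nonneg _) h8
    rw [h9]
    nlinarith [sq_nonneg (‖φ (p - p * g)‖ - ‖φ (p * g)‖)]
  have e1 : φ ((1 / τ) • b) = (1 / τ) • φ b := by
    rw [← Complex.coe_smul, ← Complex.coe_smul, map_smul]
  rw [e1, norm_smul, Real.norm_of_nonneg (by positivity)]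
  have e2 : 4 / L = τ / 16 := by rw [hL]; field_simp; norm_num
  rw [one_div, inv_mul_le_iff₀ hτ0]
  rw [e2] at h7
  linarith

omit [PartialOrder A] [StarOrderedRing A] in
/-- the rows modulo the kernel of `ψ` -/
theorem ext_rows {B : Type u} [NonUnitalCStarAlgebra B] (ψ : A →⋆ₙₐ[ℂ] B) {n : ℕ} {b : A}
    {S : Fin (n + 1) → A} {F K W : A} {L N ε : ℝ} (hL0 : 0 < L) (hN1 : 1 ≤ N) (hε0 : 0 < ε)
    (hε1 : ε ≤ 1) (hbN : ‖b‖ + 1 ≤ N)
    (hψS : ∀ i j, ‖ψ (star (S i) * S j) - (if i = j then ψ b else 0)‖ ≤ ε)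
    (hF : F = K * (L • W)) (hK : ‖K‖ ≤ 4) (hW : ψ W = ψ (S 0) * star (ψ (S 0)))
    (i j : Fin n) :
    ‖ψ (star (S i.succ - F * S i.succ) * (S j.succ - F * S j.succ)) -
      (if i = j then ψ b else 0)‖ ≤ 25 * ((L + 1) * (L + 1) * N * N) * ε := by
  have hψSn : ∀ i, ‖ψ (S i)‖ ≤ N := by
    intro i
    have h1 := hψS i i
    rw [if_pos rfl] at h1
    have h2 : ‖ψ (S i)‖ * ‖ψ (S i)‖ ≤ N := by
      rw [norm_map_sq]
      have e1 : ψ (star (S i) * S i) = (ψ (star (S i) * S i) - ψ b) + ψ b := by abel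
      rw [e1]
      calc _ ≤ ε + ‖b‖ := norm_add_le_of_le h1 (NonUnitalStarAlgHom.norm_apply_le ψ _)
        _ ≤ N := by linarith
    nlinarith [norm_nonneg (ψ (S i))]
  have hψF : ∀ j : Fin n, ‖ψ (F * S j.succ)‖ ≤ 4 * L * N * ε := by
    intro j
    have e2 : ψ (F * S j.succ) = ψ K * (L • (ψ (S 0) * ψ (star (S 0) * S j.succ))) := by
      rw [hF, mul_assoc, map_mul, smul_mul_assoc, ← Complex.coe_smul, map_smul,
        Complex.coe_smul]
      congr 2
      rw [map_mul, hW, map_mul, map_star, mul_assoc]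
    rw [e2]
    have h1 := hψS 0 j.succ
    rw [if_neg (Fin.succ_ne_zero j).symm, sub_zero] at h1
    calc _ ≤ 4 * (L * (N * ε)) := by
          refine norm_mul_le_of_le ((NonUnitalStarAlgHom.norm_apply_le ψ _).trans hK) ?_
          rw [norm_smul, Real.norm_of_nonneg hL0.le]
          gcongr
          exact norm_mul_le_of_le (hψSn 0) h1
      _ = 4 * L * N * ε := by ring
  obtain ⟨e, he⟩ : ∃ e : ℝ, e = 4 * L * N * ε := ⟨_, rfl⟩
  have he0 : 0 ≤ e := by rw [he]; positivity
  have e1 : ψ (star (S i.succ - F * S i.succ) * (S j.succ - F * S j.succ)) -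
      (if i = j then ψ b else 0) =
      (ψ (star (S i.succ) * S j.succ) - (if i.succ = j.succ then ψ b else 0)) +
      (-(star (ψ (S i.succ)) * ψ (F * S j.succ)) - star (ψ (F * S i.succ)) * ψ (S j.succ) +
        star (ψ (F * S i.succ)) * ψ (F * S j.succ)) := by
    have e2 : star (S i.succ - F * S i.succ) * (S j.succ - F * S j.succ) =
        star (S i.succ) * S j.succ - star (S i.succ) * (F * S j.succ) -
        star (F * S i.succ) * S j.succ + star (F * S i.succ) * (F * S j.succ) := by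
      rw [star_sub]; noncomm_ring
    have e3 : (if i.succ = j.succ then ψ b else 0) = if i = j then ψ b else 0 := by
      by_cases hij : i = j
      · rw [if_pos hij, if_pos (by rw [hij])]
      · rw [if_neg hij, if_neg (fun h => hij (Fin.succ_injective _ h))]
    rw [e3, e2, map_add, map_sub, map_sub, map_mul ψ (star (S i.succ)) (F * S j.succ),
      map_mul ψ (star (F * S i.succ)) (S j.succ),
      map_mul ψ (star (F * S i.succ)) (F * S j.succ), map_star, map_star]
    abel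
  rw [e1]
  have h1 := hψS i.succ j.succ
  have hj : ‖ψ (F * S j.succ)‖ ≤ e := by rw [he]; exact hψF j
  have hi : ‖ψ (F * S i.succ)‖ ≤ e := by rw [he]; exact hψF i
  calc _ ≤ ε + (N * e + e * N + e * e) := by
        refine norm_add_le_of_le h1 ?_
        refine norm_add_le_of_le (norm_sub_le_of_le ?_ ?_) ?_
        · rw [norm_neg]
          exact norm_mul_le_of_le (by rw [norm_star]; exact hψSn _) hj
        · exact norm_mul_le_of_le (by rw [norm_star]; exact hi) (hψSn _)
        · exact norm_mul_le_of_le (by rw [norm_star]; exact hi) hj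
    _ = ε + 8 * L * (N * N) * ε + 16 * (L * L) * (N * N) * (ε * ε) := by rw [he]; ring
    _ ≤ ε + 8 * L * (N * N) * ε + 16 * (L * L) * (N * N) * (ε * 1) := by gcongr
    _ ≤ 25 * ((L + 1) * (L + 1) * N * N) * ε := by
        have hNN : 1 ≤ N * N := by nlinarith
        have h2 : ε ≤ (N * N) * ε := le_mul_of_one_le_left hε0.le hNN
        have h3 : 0 ≤ L * (N * N) * ε := by positivity
        have h4 : 0 ≤ L * L * (N * N) * ε := by positivity
        have h5 : 0 ≤ (N * N) * ε := by positivity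
        have e4 : 25 * ((L + 1) * (L + 1) * N * N) * ε = 25 * (L * L * (N * N) * ε) +
            50 * (L * (N * N) * ε) + 25 * ((N * N) * ε) := by ring
        rw [e4]
        linarith

/-- **Extension by a purely infinite ideal, for one element.** Let every positive element of the
closed ideal `I` be properly infinite, let `0 ≤ b ≤ a`, and let all multiples of `b` be below `a`
modulo `I`. Then all multiples of `b` are below `a`. -/
theorem infB_of_ext {n : ℕ} (hn : WPI A n) {I : Submodule ℂ A} (hI : IsClosedIdeal I)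
    (hpi : ∀ q ∈ I, 0 ≤ q → InfB q q) {a b : A} (ha : 0 ≤ a) (hb : 0 ≤ b) (hba : b ≤ a)
    (hrows : ∀ ε : ℝ, 0 < ε → RowsMod I a b (n + 1) ε) : InfB a b := by
  refine infB_lim hb fun ρ hρ => ?_
  -- the target `v b v`
  obtain ⟨τ, hτ⟩ : ∃ τ : ℝ, τ = ρ / 2 := ⟨_, rfl⟩
  have hτ0 : 0 < τ := by rw [hτ]; positivity
  have hCb0 : 0 ≤ (1 / τ) • b := smul_nonneg (by positivity) hb
  obtain ⟨hvs, -, -, -, -⟩ := fun_data hCb0
  obtain ⟨v, hv⟩ : ∃ v : A, v = cfcₙ ff ((1 / τ) • b) := ⟨_, rfl⟩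
  rw [← hv] at hvs
  have hvn : ‖v‖ ≤ 1 := by
    rw [hv]
    exact norm_cfcₙ_le fun t _ => by
      rw [Real.norm_of_nonneg (ff_nonneg t)]; exact ff_le t
  have hvb : ‖v * b * v - b‖ ≤ τ := by
    have h1 := H216.ff_close hCb0
    rw [← hv] at h1
    have h2 : b = τ • ((1 / τ) • b) := by rw [smul_smul, mul_one_div_cancel hτ0.ne', one_smul]
    have h3 : v * b * v - b = τ • (v * ((1 / τ) • b) * v - (1 / τ) • b) := by
      rw [smul_sub, ← h2, mul_smul_comm, smul_mul_assoc, smul_smul,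
        mul_one_div_cancel hτ0.ne', one_smul]
    rw [h3, norm_smul, Real.norm_of_nonneg hτ0.le]
    nlinarith
  have hb'0 : 0 ≤ v * b * v := by
    have := star_left_conjugate_nonneg hb v
    rwa [hvs] at this
  refine ⟨v * b * v, infB_of_wpi hn hb'0 fun τ' hτ' => ?_, hvb.trans_lt (by rw [hτ]; linarith)⟩
  obtain ⟨ε₁, hε₁, habs⟩ := rows_absorb (n := n) hb'0 hτ'
  -- the constants
  obtain ⟨α, hα⟩ : ∃ α : A, α = CFC.sqrt a := ⟨_, rfl⟩
  have hαs : star α = α := by rw [hα]; exact (IsSelfAdjoint.of_nonneg (CFC.sqrt_nonneg a)).star_eq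
  have hαα : α * α = a := by rw [hα]; exact CFC.sqrt_mul_sqrt_self a ha
  have hαRI : α ∈ RI a := by rw [hα]; exact sqrt_mem_RI ha
  obtain ⟨L, hL⟩ : ∃ L : ℝ, L = 64 / τ := ⟨_, rfl⟩
  have hL0 : 0 < L := by rw [hL]; positivity
  obtain ⟨N, hN⟩ : ∃ N : ℝ, N = ‖b‖ + 2 := ⟨_, rfl⟩
  have hN1 : 1 ≤ N := by have := norm_nonneg b; rw [hN]; linarith
  obtain ⟨M, hM⟩ : ∃ M : ℝ, M = (L + 1) * (L + 1) * N * N := ⟨_, rfl⟩
  have hM1 : 1 ≤ M := by
    have h1 : 1 ≤ (L + 1) * (L + 1) := by nlinarith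
    have h2 : 1 ≤ N * N := by nlinarith
    rw [hM, mul_assoc]
    nlinarith
  obtain ⟨ε, hε0, hε1, hε2, hε3⟩ : ∃ ε : ℝ, 0 < ε ∧ ε ≤ 1 ∧ ε ≤ τ / 256 ∧
      ε * (64 * M) ≤ ε₁ := by
    refine ⟨min (min 1 (τ / 256)) (ε₁ / (64 * M)), by positivity,
      (min_le_left _ _).trans (min_le_left _ _), (min_le_left _ _).trans (min_le_right _ _), ?_⟩
    rw [← le_div_iff₀ (by positivity)]
    exact min_le_right _ _
  -- the rows modulo `I`
  obtain ⟨s, z, hz, hs⟩ := hrows ε hε0
  obtain ⟨S, hS⟩ : ∃ S : Fin (n + 1) → A, S = fun i => α * s i := ⟨_, rfl⟩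
  have hSS : ∀ i j, star (S i) * S j = star (s i) * a * s j := fun i j => by
    simp only [hS, star_mul, hαs, ← hαα, mul_assoc]
  -- a unit for the errors
  obtain ⟨g, hg0, hg1, hgI, hgz⟩ := unit_ideal hI (fun _ : Unit => z 0 0) (fun _ => hz 0 0) hε0
  have hgs : star g = g := (IsSelfAdjoint.of_nonneg hg0).star_eq
  obtain ⟨u₁, hu₁⟩ : ∃ u : A, u = S 0 - S 0 * g := ⟨_, rfl⟩
  obtain ⟨W, hW⟩ : ∃ W : A, W = u₁ * star u₁ + α * g * star (α * g) := ⟨_, rfl⟩
  have hW0 : 0 ≤ W := by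
    rw [hW]; exact add_nonneg (mul_star_self_nonneg _) (mul_star_self_nonneg _)
  have hWRI : W ∈ RI a := by
    rw [hW]
    refine RI.add (RI.mul ?_ _) (RI.mul (RI.mul hαRI _) _)
    have e1 : u₁ = α * (s 0 - s 0 * g) := by rw [hu₁, hS]; noncomm_ring
    rw [e1]; exact RI.mul hαRI _
  have hu1b : ‖star u₁ * u₁ - ((b - g * b) - (b - g * b) * g)‖ ≤ 5 * ε := by
    obtain ⟨x₀, hx₀⟩ : ∃ x : A, x = star (s 0) * a * s 0 -
        (if (0 : Fin (n + 1)) = 0 then b else 0) - z 0 0 := ⟨_, rfl⟩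
    have hx₀n : ‖x₀‖ ≤ ε := by rw [hx₀]; exact (hs 0 0).le
    have hu1 : star u₁ * u₁ = ((b - g * b) - (b - g * b) * g) +
        (((x₀ - g * x₀) - (x₀ - g * x₀) * g) +
          ((z 0 0 - g * z 0 0) - (z 0 0 - g * z 0 0) * g)) := by
      have e1 : star u₁ * u₁ = (star (S 0) * S 0 - g * (star (S 0) * S 0)) -
          (star (S 0) * S 0 - g * (star (S 0) * S 0)) * g := by
        rw [hu₁, star_sub, star_mul (S 0) g, hgs]; noncomm_ring
      rw [e1, hSS, hx₀, if_pos rfl]
      noncomm_ring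
    have h1 : ‖x₀ - g * x₀‖ ≤ 2 * ε := by
      calc _ ≤ ‖x₀‖ + ‖g * x₀‖ := norm_sub_le _ _
        _ ≤ ε + 1 * ε := add_le_add hx₀n (norm_mul_le_of_le hg1 hx₀n)
        _ = 2 * ε := by ring
    have h2 : ‖(x₀ - g * x₀) - (x₀ - g * x₀) * g‖ ≤ 4 * ε := by
      calc _ ≤ ‖x₀ - g * x₀‖ + ‖(x₀ - g * x₀) * g‖ := norm_sub_le _ _
        _ ≤ 2 * ε + 2 * ε * 1 := add_le_add h1 (norm_mul_le_of_le h1 hg1)
        _ = 4 * ε := by ring
    rw [hu1, add_sub_cancel_left]
    calc _ ≤ 4 * ε + ε := norm_add_le_of_le h2 (hgz ())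
      _ = 5 * ε := by ring
  -- the functions of `W`
  obtain ⟨X, hX⟩ : ∃ X : A, X = L • W := ⟨_, rfl⟩
  have hX0 : 0 ≤ X := by rw [hX]; exact smul_nonneg hL0.le hW0
  have hXRI : X ∈ RI a := by rw [hX]; exact ri_smul hWRI L
  obtain ⟨hFs, hFG, hFK, hKn, hG0⟩ := fun_data hX0
  obtain ⟨F, hF⟩ : ∃ F : A, F = cfcₙ ff X := ⟨_, rfl⟩
  obtain ⟨y, hy⟩ : ∃ y : A, y = cfcₙ gg X := ⟨_, rfl⟩
  obtain ⟨K₁, hK₁⟩ : ∃ K : A, K = cfcₙ kk X := ⟨_, rfl⟩
  rw [← hF] at hFs hFG hFK
  rw [← hy] at hFG hG0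
  rw [← hK₁] at hFK hKn
  have hFRI : F ∈ RI a := by rw [← hFK]; exact RI.mul hXRI _
  have hyRI : y ∈ RI a := by rw [← hFG]; exact RI.mul hFRI _
  obtain ⟨Y, hY, hY'⟩ := isClosedIdeal_inId y
  -- `v` is in the ideal of `y`
  have hvY : v ∈ Y := by
    obtain ⟨B, i1, i2, i3, φ, hφ, hk⟩ := hY.quot
    have hφy : φ y = 0 := (hk y).2 ((hY' y).2 (InId.refl y))
    rw [hy, hX, hL, hW] at hφy
    refine (hk v).1 ?_
    rw [hv]
    exact ext_v φ hb hba hαs hαα hgs hτ0 hε2 hu1b hφy
  -- the orthogonal elements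
  obtain ⟨h, hh⟩ : ∃ h : A, h = star (α - α * F) * (α - α * F) := ⟨_, rfl⟩
  have hh0 : 0 ≤ h := by rw [hh]; exact star_mul_self_nonneg _
  have hhy : h * y = 0 := by
    have h1 : (α - α * F) * y = 0 := by rw [sub_mul, mul_assoc, hFG, sub_self]
    rw [hh, mul_assoc, h1, mul_zero]
  have hhRI : h ∈ RI a := by
    have haRI : a ∈ RI a := self_mem_RI ha
    have he : h = a - a * F - F * a + F * a * F := by
      rw [hh, star_sub, star_mul α F, hαs, hFs, ← hαα]
      noncomm_ring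
    rw [he]
    exact RI.add (H216.ri_sub (H216.ri_sub haRI (RI.mul haRI _)) (RI.mul hFRI _))
      (RI.mul (RI.mul hFRI _) _)
  -- the rows below `h`
  have hVh : ∀ i : Fin n, S i.succ - F * S i.succ ∈ RI h := fun i => by
    have e1 : S i.succ - F * S i.succ = (α - F * α) * s i.succ := by
      rw [hS]; noncomm_ring
    have e2 : (α - F * α) * star (α - F * α) = h := by
      rw [hh, star_sub, star_sub, star_mul, star_mul α F, hαs, hFs]
    rw [e1, ← e2]
    exact RI.mul (mem_RI_mul_star _) _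
  obtain ⟨T, hT⟩ := rows_of_vectors hh0 (fun i : Fin n => S i.succ - F * S i.succ) hVh hε0
  -- the rows modulo `I`
  obtain ⟨B, i1, i2, i3, ψ, hψ, hk⟩ := hI.quot
  have hψg : ψ g = 0 := (hk _).2 hgI
  have hψS : ∀ i j, ‖ψ (star (S i) * S j) - (if i = j then ψ b else 0)‖ ≤ ε := by
    intro i j
    have e1 : ψ (star (S i) * S j) - (if i = j then ψ b else 0) =
        ψ (star (s i) * a * s j - (if i = j then b else 0) - z i j) := by
      rw [hSS, map_sub, map_sub, (hk _).2 (hz i j), sub_zero]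
      split_ifs
      · rfl
      · rw [map_zero]
    rw [e1]
    exact (NonUnitalStarAlgHom.norm_apply_le ψ _).trans (hs i j).le
  have hψW : ψ W = ψ (S 0) * star (ψ (S 0)) := by
    rw [hW, hu₁]
    simp only [map_add, map_mul, map_sub, map_star, hψg, mul_zero, sub_zero, zero_mul, add_zero]
  have hrow := ext_rows ψ (b := b) hL0 hN1 hε0 hε1 (by rw [hN]; linarith) hψS
    (F := F) (K := star K₁) (W := W) (by
      rw [← hFs, ← hFK, star_mul, (IsSelfAdjoint.of_nonneg hX0).star_eq, hX])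
    (by rw [norm_star]; exact hKn) hψW
  have hE0 : 0 < 26 * M * ε := by positivity
  have hEε : 26 * M * ε < ε₁ := by
    refine lt_of_lt_of_le ?_ hε3
    have : 0 < M * ε := by positivity
    nlinarith
  have key : ∀ i j, ∃ x : A, ψ x = ψ (star (T i) * h * T j - (if i = j then b else 0)) ∧
      ‖x‖ ≤ 26 * M * ε := by
    intro i j
    refine exists_lift ψ _ hE0 ?_
    have e1 : ψ (star (T i) * h * T j - (if i = j then b else 0)) =
        ψ (star (T i) * h * T j - star (S i.succ - F * S i.succ) * (S j.succ - F * S j.succ)) +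
        (ψ (star (S i.succ - F * S i.succ) * (S j.succ - F * S j.succ)) -
          (if i = j then ψ b else 0)) := by
      rw [map_sub, map_sub]
      split_ifs
      · abel
      · rw [map_zero]; abel
    rw [e1]
    have h1 := hrow i j
    rw [← hM] at h1
    calc _ ≤ ε + 25 * M * ε := norm_add_le_of_le
          ((NonUnitalStarAlgHom.norm_apply_le ψ _).trans (hT i j)) h1
      _ ≤ 26 * M * ε := by nlinarith
  choose x hx hxn using key
  obtain ⟨T', hT'⟩ := habs ha hh0 hG0 hhy hhRI hyRI (isClosedIdeal_inf' hI hY)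
    (fun c hc => infB_of_piIdeal hI hpi hG0 (star_mul_self_nonneg c)
      (hI.2 _ _ hc.1).1 ((hY' _).1 (hY.2 _ _ hc.2).1))
    (fun i => T i * v)
    (fun i j => v * (star (T i) * h * T j - (if i = j then b else 0) - x i j) * v)
    (fun i j => by
      have h1 : star (T i) * h * T j - (if i = j then b else 0) - x i j ∈ I :=
        (hk _).1 (by rw [map_sub, hx, sub_self])
      exact ⟨(hI.2 _ _ (hI.2 _ _ h1).1).2, (hY.2 _ _ hvY).1⟩)
    (fun i j => by
      have e1 : star (T i * v) * h * (T j * v) - (if i = j then v * b * v else 0) -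
          v * (star (T i) * h * T j - (if i = j then b else 0) - x i j) * v = v * x i j * v := by
        rw [star_mul, hvs]
        split_ifs <;> noncomm_ring
      rw [e1]
      calc _ ≤ 1 * (26 * M * ε) * 1 := norm_mul_le_of_le (norm_mul_le_of_le hvn (hxn i j)) hvn
        _ < ε₁ := by linarith)
  exact ⟨T', hT'⟩

end

end Vale.Agent.P133.H512
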