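import Vale.Agent.P133.H512.Clause
import Vale.Agent.P133.H779.Sigma

/-!
P133 (helper512): the criterion with countable closed covers of the primitive ideal space.
-/

open scoped ComplexOrder

namespace Vale.Agent.P133.H512

open Vale.Agent.P133 Vale.Agent.P133.Statement Vale.Agent.P133.H832 Vale.Agent.P133F
  Vale.Agent.P133.H681 Vale.Agent.P133.R2.H28

universe u

/-- The criterion with countable closed covers. -/
theorem pi_iff_cover {A : Type u} [NonUnitalCStarAlgebra A] [PartialOrder A] [StarOrderedRing A]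
    (hW : WeaklyPurelyInfinite A) {J : ℕ → Submodule ℂ A} (hJ : ∀ k, IsClosedIdeal (J k))
    (hP : ∀ P : Submodule ℂ A, H779.IsPrimeC P → ∃ k, J k ≤ P) :
    PurelyInfinite A ↔ ∀ k, PiQuot (J k) := by
  constructor
  · intro hA k
    exact piQuot_of_pi hA (by rw [closure_of_closedIdeal (hJ k)]; exact hJ k)
  · intro H
    obtain ⟨n, hn⟩ := wpi_elementwise hW
    refine pi_of_eltPI (H779.eltPI_of_cover hn hJ hP fun k B _ _ _ φ hφ hk => ?_)
    refine piQuot_elt hφ (H k) fun x hx => ?_
    rw [closure_of_closedIdeal (hJ k)] at hx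
    exact (hk x).2 hx

end Vale.Agent.P133.H512
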