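import Vale.Agent.P133.H330.TopDefs
import Mathlib.Topology.Sober

/-!
P133 (helper512): the game argument for a predicate on locally closed sets.
-/

namespace Vale.Agent.P133.H512.Game

open Vale.Agent.P133.H330 TopologicalSpace

universe u

variable {X : Type u} [TopologicalSpace X] {H : Set X → Set X → Prop}

/-- `V` is way below `U` -/
def WayB (V U : Set X) : Prop :=
  ∀ F : Set (Set X), F.Nonempty → DirectedOn (· ⊆ ·) F → (∀ W ∈ F, IsOpen W) → U ⊆ ⋃₀ F →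
    ∃ W ∈ F, V ⊆ W

/-- the locally closed set `U ∩ Y` is not empty and nowhere good -/
def NW (H : Set X → Set X → Prop) (Y U : Set X) : Prop :=
  IsClosed Y ∧ IsOpen U ∧ (U ∩ Y).Nonempty ∧
    ∀ U' : Set X, IsOpen U' → U' ⊆ U → (U' ∩ Y).Nonempty → ¬ H Y U'

/-- the inductive step -/
def IndStep (H : Set X → Set X → Prop) : Prop :=
  ∀ Y U : Set X, IsClosed Y → IsOpen U →
    (∀ Z W : Set X, IsClosed Z → Z ⊆ Y → IsOpen W → W ⊆ U → (W ∩ Z).Nonempty →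
      ∃ O : Set X, IsOpen O ∧ O ⊆ W ∧ (O ∩ Z).Nonempty ∧
        (H Z O ∨ H (closure (O ∩ Z) \ O) U)) → H Y U

/-- monotonicity -/
def Mono (H : Set X → Set X → Prop) : Prop :=
  ∀ F O Y U : Set X, IsClosed F → IsOpen O → IsClosed Y → IsOpen U → H F O → U ⊆ O →
    U ∩ Y ⊆ F → H Y U

theorem exists_nw (hI : IndStep H) {Y U : Set X} (hY : IsClosed Y) (hU : IsOpen U)
    (h : ¬ H Y U) : ∃ Y' U' : Set X, Y' ⊆ Y ∧ U' ⊆ U ∧ NW H Y' U' := by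
  by_contra hno
  push Not at hno
  refine h (hI Y U hY hU fun Z W hZ hZY hW hWU hne => ?_)
  by_contra hcon
  push Not at hcon
  exact hno Z W hZY hWU ⟨hZ, hW, hne, fun U' h1 h2 h3 => (hcon U' h1 h2 h3).1⟩

/-- below every locally closed set nowhere good there is one that misses `S` -/
def Neg (H : Set X → Set X → Prop) (S : Set X) : Prop :=
  ∀ Y U : Set X, NW H Y U → ∃ Y' U' : Set X, NW H Y' U' ∧ Y' ⊆ Y ∧ U' ⊆ U ∧
    ∀ x ∈ S, ¬ (x ∈ U' ∧ x ∈ Y')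

/-- subspaces of small transfinite inductive dimension -/
theorem neg_of_tInd (hI : IndStep H) {Z : Type u} [TopologicalSpace Z] (hZ : TInd Z) :
    ∀ f : Z → X, Topology.IsInducing f → Neg H (Set.range f) := by
  induction hZ with
  | intro Z K L h hL ih =>
    intro f hf Y U hN
    by_contra hno
    have hstar : ∀ Y' U' : Set X, IsClosed Y' → IsOpen U' → Y' ⊆ Y → U' ⊆ U →
        (∀ x ∈ Set.range f, ¬ (x ∈ U' ∧ x ∈ Y')) → H Y' U' := by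
      intro Y' U' hY' hU' h1 h2 h3
      by_contra h4
      obtain ⟨Y'', U'', h5, h6, h7⟩ := exists_nw hI hY' hU' h4
      exact hno ⟨Y'', U'', h7, h5.trans h1, h6.trans h2, fun x hx h8 => h3 x hx
        ⟨h6 h8.1, h5 h8.2⟩⟩
    refine hN.2.2.2 U hN.2.1 Set.Subset.rfl hN.2.2.1 (hI Y U hN.1 hN.2.1
      fun Z' W hZ' hZY hW hWU hne => ?_)
    by_cases hd : ∃ W' : Set X, IsOpen W' ∧ W' ⊆ W ∧ (W' ∩ Z').Nonempty ∧
        ∀ x ∈ Set.range f, ¬ (x ∈ W' ∧ x ∈ Z')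
    · obtain ⟨W', hW', h1, h2, h3⟩ := hd
      exact ⟨W', hW', h1, h2, Or.inl (hstar _ _ hZ' hW' hZY (h1.trans hWU) h3)⟩
    · push Not at hd
      obtain ⟨_, ⟨z, rfl⟩, hzW, hzZ⟩ := hd W hW Set.Subset.rfl hne
      obtain ⟨k, O', hO', hzO, hOV, hfr⟩ := h z (f ⁻¹' W) (hW.preimage hf.continuous) hzW
      obtain ⟨O₀, hO₀, rfl⟩ := hf.isOpen_iff.1 hO'
      obtain ⟨O, hOdef⟩ : ∃ O : Set X, O = O₀ ∩ W := ⟨_, rfl⟩
      have hO : IsOpen O := by rw [hOdef]; exact hO₀.inter hW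
      have hOW : O ⊆ W := by rw [hOdef]; exact Set.inter_subset_right
      have hOO : O ⊆ O₀ := by rw [hOdef]; exact Set.inter_subset_left
      have hmO : ∀ w, f w ∈ O₀ → f w ∈ O := fun w hw => by rw [hOdef]; exact ⟨hw, hOV hw⟩
      have hDY : closure (O ∩ Z') \ O ⊆ Y := fun y hy =>
        hZY (closure_minimal Set.inter_subset_right hZ' hy.1)
      refine ⟨O, hO, hOW, ⟨f z, hmO z hzO, hzZ⟩, Or.inr ?_⟩
      by_contra hDn
      obtain ⟨Y1, U1, hY1, hU1, hN1⟩ := exists_nw hI (isClosed_closure.sdiff hO) hN.2.1 hDn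
      obtain ⟨Y2, U2, hN2, hY2, hU2, hmiss⟩ := ih k (fun x => f x.1)
        (hf.comp Topology.IsInducing.subtypeVal) Y1 U1 hN1
      refine hno ⟨Y2, U2, hN2, (hY2.trans hY1).trans hDY, hU2.trans hU1, ?_⟩
      rintro _ ⟨w, rfl⟩ ⟨hwU, hwY⟩
      have hw := hY1 (hY2 hwY)
      refine hmiss (f w) ⟨⟨w, ?_⟩, rfl⟩ ⟨hwU, hwY⟩
      rw [← hfr, hO'.frontier_eq]
      refine ⟨?_, fun hwO => hw.2 (hmO w hwO)⟩
      rw [hf.closure_eq_preimage_closure_image]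
      refine closure_minimal (fun y hy => ?_) isClosed_closure hw.1
      rw [mem_closure_iff]
      intro G hG hyG
      obtain ⟨_, ⟨v, rfl⟩, hv, -⟩ := hd (G ∩ O) (hG.inter hO)
        (Set.inter_subset_right.trans hOW) ⟨y, ⟨hyG, hy.1⟩, hy.2⟩
      exact ⟨f v, hv.1, v, hOO hv.2, rfl⟩

/-- good locally closed sets -/
theorem neg_of_good (hM : Mono H) {F O : Set X} (hF : IsClosed F) (hO : IsOpen O)
    (h : H F O) : Neg H (O ∩ F) := by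
  intro Y U hN
  by_cases hne : (U ∩ O ∩ Y).Nonempty
  swap
  · exact ⟨Y, U, hN, Set.Subset.rfl, Set.Subset.rfl, fun x hx hx' =>
      hne ⟨x, ⟨hx'.1, hx.1⟩, hx'.2⟩⟩
  by_cases hA : U ∩ O ∩ Y ⊆ F
  · exact absurd (hM F O Y (U ∩ O) hF hO hN.1 (hN.2.1.inter hO) h Set.inter_subset_right hA)
      (hN.2.2.2 (U ∩ O) (hN.2.1.inter hO) Set.inter_subset_left hne)
  · obtain ⟨y, hy, hyF⟩ := Set.not_subset.1 hA
    refine ⟨Y, U ∩ O ∩ Fᶜ, ⟨hN.1, (hN.2.1.inter hO).inter hF.isOpen_compl, ⟨y, ⟨hy.1, hyF⟩, hy.2⟩,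
      fun U' h1 h2 h3 => hN.2.2.2 U' h1 (h2.trans (Set.inter_subset_left.trans
        Set.inter_subset_left)) h3⟩, Set.Subset.rfl,
      Set.inter_subset_left.trans Set.inter_subset_left, fun x hx hx' => hx'.1.2 hx.2⟩

/-- **The game argument.** -/
theorem good_of_neg [QuasiSober X] (hI : IndStep H)
    (hcc : ∀ (x : X) (U : Set X), IsOpen U → x ∈ U → ∃ V : Set X, IsOpen V ∧ x ∈ V ∧ V ⊆ U ∧
      ∀ F : Set (Set X), F.Nonempty → DirectedOn (· ⊆ ·) F → (∀ W ∈ F, IsOpen W) → U ⊆ ⋃₀ F →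
        ∃ W ∈ F, V ⊆ W) {S : ℕ → Set X} (hS : ∀ k, Neg H (S k)) (hSX : ⋃ k, S k = Set.univ) :
    H Set.univ Set.univ := by
  by_contra hX
  obtain ⟨Y0, U0, -, -, h0⟩ := exists_nw hI isClosed_univ isOpen_univ hX
  have hstep : ∀ (q : {q : Set X × Set X // NW H q.1 q.2}) (k : ℕ),
      ∃ q' : {q : Set X × Set X // NW H q.1 q.2}, q'.1.1 ⊆ q.1.1 ∧ q'.1.2 ⊆ q.1.2 ∧
        WayB q'.1.2 q.1.2 ∧ ∀ x ∈ S k, ¬ (x ∈ q'.1.2 ∧ x ∈ q'.1.1) := by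
    rintro ⟨⟨Y, U⟩, hq⟩ k
    obtain ⟨hY, hU, ⟨x, hxU, hxY⟩, hno⟩ := id hq
    obtain ⟨V, hV, hxV, hVU, hVU'⟩ := hcc x U hU hxU
    have hNV : NW H Y V := ⟨hY, hV, ⟨x, hxV, hxY⟩, fun U' h1 h2 h3 => hno U' h1 (h2.trans hVU) h3⟩
    obtain ⟨Y', U', h1, h2, h3, h4⟩ := hS k Y V hNV
    refine ⟨⟨(Y', U'), h1⟩, h2, h3.trans hVU, fun F f1 f2 f3 f4 => ?_, h4⟩
    obtain ⟨W, hW, hVW⟩ := hVU' F f1 f2 f3 f4
    exact ⟨W, hW, h3.trans hVW⟩
  choose nxt n1 n2 n3 n4 using hstep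
  let s : ℕ → {q : Set X × Set X // NW H q.1 q.2} := fun n =>
    Nat.rec ⟨(Y0, U0), h0⟩ (fun k q => nxt q k) n
  have hs : ∀ k, s (k + 1) = nxt (s k) k := fun k => rfl
  have hYd : Antitone fun k => (s k).1.1 := antitone_nat_of_succ_le fun k => by
    rw [hs]; exact n1 _ _
  have hUd : Antitone fun k => (s k).1.2 := antitone_nat_of_succ_le fun k => by
    rw [hs]; exact n2 _ _
  have hW : ∀ k, WayB (s (k + 1)).1.2 (s k).1.2 := fun k => by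
    rw [hs]; exact n3 _ _
  have hpk : ∀ k, ∀ x ∈ S k, ¬ (x ∈ (s (k + 1)).1.2 ∧ x ∈ (s (k + 1)).1.1) := fun k => by
    rw [hs]; exact n4 _ _
  have key : ∀ 𝒞 : Set (Set X), 𝒞.Nonempty → DirectedOn (· ⊇ ·) 𝒞 → (∀ C ∈ 𝒞, IsClosed C) →
      (∀ C ∈ 𝒞, ∀ j, (C ∩ (s j).1.2).Nonempty) → ∀ j, (⋂₀ 𝒞 ∩ (s j).1.2).Nonempty := by
    intro 𝒞 hne hd hc h j
    by_contra hemp
    obtain ⟨W, ⟨C, hC, rfl⟩, hW'⟩ := hW j (compl '' 𝒞) (hne.image _) (by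
      rintro _ ⟨C1, h1, rfl⟩ _ ⟨C2, h2, rfl⟩
      obtain ⟨C3, h3, h31, h32⟩ := hd C1 h1 C2 h2
      exact ⟨_, ⟨C3, h3, rfl⟩, Set.compl_subset_compl.2 h31, Set.compl_subset_compl.2 h32⟩) (by
      rintro _ ⟨C, hC, rfl⟩
      exact (hc C hC).isOpen_compl) (by
      intro x hx
      by_contra hx'
      refine hemp ⟨x, fun C hC => ?_, hx⟩
      by_contra hxC
      exact hx' ⟨Cᶜ, ⟨C, hC, rfl⟩, hxC⟩)
    obtain ⟨x, hx1, hx2⟩ := h C hC (j + 1)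
    exact hW' hx2 hx1
  have hYU : ∀ k j, ((s k).1.1 ∩ (s j).1.2).Nonempty := by
    intro k j
    obtain ⟨x, hxU, hxY⟩ := (s (max k j)).2.2.2.1
    exact ⟨x, hYd (le_max_left k j) hxY, hUd (le_max_right k j) hxU⟩
  let 𝒮 : Set (Set X) := {C | IsClosed C ∧ (∀ k, C ⊆ (s k).1.1) ∧ ∀ j, (C ∩ (s j).1.2).Nonempty}
  have hC0 : ⋂₀ (Set.range fun k => (s k).1.1) ∈ 𝒮 := by
    refine ⟨isClosed_sInter ?_, fun k => Set.sInter_subset_of_mem ⟨k, rfl⟩,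
      key _ ⟨_, ⟨0, rfl⟩⟩ ?_ ?_ ?_⟩
    · rintro _ ⟨k, rfl⟩; exact (s k).2.1
    · rintro _ ⟨k, rfl⟩ _ ⟨l, rfl⟩
      exact ⟨_, ⟨max k l, rfl⟩, hYd (le_max_left k l), hYd (le_max_right k l)⟩
    · rintro _ ⟨k, rfl⟩; exact (s k).2.1
    · rintro _ ⟨k, rfl⟩ j; exact hYU k j
  obtain ⟨M, -, hM⟩ := zorn_superset_nonempty 𝒮 (by
    intro c hc hch hcn
    refine ⟨⋂₀ c, ⟨isClosed_sInter fun C hC => (hc hC).1, fun k => ?_,
      key c hcn ?_ (fun C hC => (hc hC).1) fun C hC => (hc hC).2.2⟩,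
      fun C hC => Set.sInter_subset_of_mem hC⟩
    · obtain ⟨C, hC⟩ := hcn
      exact (Set.sInter_subset_of_mem hC).trans ((hc hC).2.1 k)
    · intro C1 h1 C2 h2
      rcases hch.total h1 h2 with h3 | h3
      · exact ⟨C1, h1, Set.Subset.rfl, h3⟩
      · exact ⟨C2, h2, h3, Set.Subset.rfl⟩) _ hC0
  obtain ⟨hMc, hMY, hMU⟩ := hM.prop
  have hirr : IsIrreducible M := by
    refine ⟨⟨(hMU 0).some, (hMU 0).some_mem.1⟩, ?_⟩
    rw [isPreirreducible_iff_isClosed_union_isClosed]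
    intro C1 C2 h1 h2 h12
    by_contra hcon
    push Not at hcon
    have hbad : ∀ C : Set X, IsClosed C → ¬ M ⊆ C → ∃ j, ¬ (M ∩ C ∩ (s j).1.2).Nonempty := by
      intro C hC hMC
      by_contra hall
      push Not at hall
      refine hMC ((hM.le_of_le (y := M ∩ C) ⟨hMc.inter hC, fun k =>
        Set.inter_subset_left.trans (hMY k), hall⟩ Set.inter_subset_left).trans
          Set.inter_subset_right)
    obtain ⟨j1, hj1⟩ := hbad C1 h1 hcon.1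
    obtain ⟨j2, hj2⟩ := hbad C2 h2 hcon.2
    obtain ⟨x, hxM, hxU⟩ := hMU (max j1 j2)
    rcases h12 hxM with h3 | h3
    · exact hj1 ⟨x, ⟨hxM, h3⟩, hUd (le_max_left j1 j2) hxU⟩
    · exact hj2 ⟨x, ⟨hxM, h3⟩, hUd (le_max_right j1 j2) hxU⟩
  obtain ⟨q, hq⟩ := QuasiSober.sober hirr hMc
  obtain ⟨k, hk⟩ := Set.mem_iUnion.1 (show q ∈ ⋃ k, S k by rw [hSX]; exact Set.mem_univ q)
  refine hpk k q hk ⟨?_, hMY (k + 1) (hq.mem)⟩
  obtain ⟨x, hxM, hxU⟩ := hMU (k + 1)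
  exact (hq.specializes hxM).mem_open (s (k + 1)).2.2.1 hxU

end Vale.Agent.P133.H512.Game
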