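import Vale.Agent.P133.H779.Local
import Vale.Agent.P133.H512.Game
import Vale.Agent.P133.H330.WayBelow

/-!
P133 (helper512): countable unions of subspaces of the space of closed ideals of a weakly purely
infinite C*-algebra.
-/

open scoped ComplexOrder

namespace Vale.Agent.P133.H512

open Vale.Agent.P133 Vale.Agent.P133.Statement Vale.Agent.P133.H832 Vale.Agent.P133F
  Vale.Agent.P133.H681 Vale.Agent.P133.R2 Vale.Agent.P133.R2.H28 Vale.Agent.P133.R2.H474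
  Vale.Agent.P133.H330 TopologicalSpace

universe u

/-- transfer of pure infiniteness between subquotients of an algebra and of its subquotient -/
theorem piBetween_lift {A C D : Type u} [NonUnitalCStarAlgebra A] [PartialOrder A]
    [StarOrderedRing A] [NonUnitalCStarAlgebra C] [PartialOrder C] [StarOrderedRing C]
    [NonUnitalCStarAlgebra D] (φ : A →⋆ₙₐ[ℂ] D) (ι : C →⋆ₙₐ[ℂ] D) (hι : Function.Injective ι)
    {P I : Submodule ℂ C} (hP : IsClosedIdeal P) (hI : IsClosedIdeal I) (hPI : P ≤ I)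
    {P' I' : Submodule ℂ A} (hI' : IsClosedIdeal I') (h : PiBetween P' I')
    (h1 : ∀ a ∈ P', ∀ c, ι c = φ a → c ∈ P) (h2 : ∀ a ∈ I', ∃ c ∈ I, ι c = φ a)
    (h3 : ∀ c ∈ I, ∃ a ∈ I', φ a = ι c) : PiBetween P I := by
  obtain ⟨E, C', i1, i2, i3, i4, κ, ρ, hκ, hr, hρ, hρk, hC⟩ := piSub_of_piBetween hI' h
  refine piBetween_of hP hI hPI fun B _ _ _ ψ hψ hk F _ _ _ ν hν hνr => ?_
  have hr' : ∀ x, x ∈ I' ↔ ∃ d, κ d = x := hr
  obtain ⟨μ, hμ⟩ := H779.exists_restrict ι hι (φ.comp κ) fun f => by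
    obtain ⟨c, -, hc⟩ := h2 (κ f) ((hr' _).2 ⟨f, rfl⟩)
    exact ⟨c, hc⟩
  have hμ' : ∀ f, ι (μ f) = φ (κ f) := hμ
  have hμI : ∀ f, μ f ∈ I := fun f => by
    obtain ⟨c, hcI, hc⟩ := h2 (κ f) ((hr' _).2 ⟨f, rfl⟩)
    rwa [hι ((hμ' f).trans hc.symm)]
  obtain ⟨β, hβ⟩ := H779.exists_restrict ν hν (ψ.comp μ) fun f =>
    (hνr _).2 ⟨μ f, hμI f, rfl⟩
  have hβ' : ∀ f, ν (β f) = ψ (μ f) := hβ
  obtain ⟨α, hα⟩ := Vale.Agent.P133.H486.exists_factor ρ hρ β fun f hf => hν (by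
    rw [hβ', map_zero]
    exact (hk _).2 (h1 (κ f) ((hρk f).1 hf) _ (hμ' f)))
  have hαs : Function.Surjective α := by
    intro d
    obtain ⟨c, hc, hcd⟩ := (hνr (ν d)).1 ⟨d, rfl⟩
    obtain ⟨a, ha, hac⟩ := h3 c hc
    obtain ⟨f, rfl⟩ := (hr' a).1 ha
    have h4 : μ f = c := hι ((hμ' f).trans hac)
    exact ⟨ρ f, hν (by rw [hα, hβ', h4, hcd])⟩
  exact eltPI_of_wpi1 (wpiE_of_surj (wpi1_of_pi hC) α hαs)

section

variable {A : Type u} [NonUnitalCStarAlgebra A] [PartialOrder A] [StarOrderedRing A]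
  {X : Type u} [TopologicalSpace X]

/-- the subquotient of `A` for the locally closed set `U ∩ Y` is purely infinite -/
def HP (e : Opens X → Submodule ℂ A) (Y U : Set X) : Prop :=
  ∀ O V : Opens X, (O : Set X) = Yᶜ → (V : Set X) = Yᶜ ∪ U → PiBetween (e O) (e V)

theorem mono_HP {e : Opens X → Submodule ℂ A} (he : ∀ O, IsClosedIdeal (e O))
    (hs : ∀ I, IsClosedIdeal I → ∃ O, e O = I) (hle : ∀ O O', e O ≤ e O' ↔ O ≤ O') :
    Game.Mono (HP e) := by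
  intro F O Y U hF hO hY hU h hUO hUY P I hP hI
  have h1 := h ⟨Fᶜ, hF.isOpen_compl⟩ ⟨Fᶜ ∪ O, hF.isOpen_compl.union hO⟩ rfl rfl
  have hPI : P ≤ I := by
    intro x hx
    show x ∈ (I : Set X)
    rw [hI]
    exact Or.inl (hP ▸ hx)
  refine H779.piBetween_transfer (he _) (he _) (he _) (he _) ((hle _ _).2 hPI) h1 ?_ ?_
  · obtain ⟨O', hO'⟩ := hs _ (isClosedIdeal_inf (he I) (he ⟨Fᶜ, hF.isOpen_compl⟩))
    rw [← hO', hle]
    have h2 : O' ≤ I := by rw [← hle, hO']; exact inf_le_left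
    have h3 : O' ≤ ⟨Fᶜ, hF.isOpen_compl⟩ := by rw [← hle, hO']; exact inf_le_right
    intro x hx
    show x ∈ (P : Set X)
    rw [hP]
    have h4 : x ∈ (I : Set X) := h2 hx
    rw [hI] at h4
    rcases h4 with h4 | h4
    · exact h4
    · exact fun hxY => (h3 hx : x ∈ Fᶜ) (hUY ⟨h4, hxY⟩)
  · obtain ⟨O', hO'⟩ := hs _ (H779.isClosedIdeal_sup (he P)
      (he ⟨Fᶜ ∪ O, hF.isOpen_compl.union hO⟩))
    rw [← hO', hle]
    have h2 : P ≤ O' := by
      rw [← hle, hO']; exact le_sup_left.trans (Submodule.le_topologicalClosure _)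
    have h3 : (⟨Fᶜ ∪ O, hF.isOpen_compl.union hO⟩ : Opens X) ≤ O' := by
      rw [← hle, hO']; exact le_sup_right.trans (Submodule.le_topologicalClosure _)
    intro x hx
    have h4 : x ∈ (I : Set X) := hx
    rw [hI] at h4
    rcases h4 with h4 | h4
    · exact h2 (by show x ∈ (P : Set X); rw [hP]; exact h4)
    · exact h3 (Or.inr (hUO h4))

theorem indStep_HP {n : ℕ} (hn : WPI A n) {e : Opens X → Submodule ℂ A}
    (he : ∀ O, IsClosedIdeal (e O)) (hs : ∀ I, IsClosedIdeal I → ∃ O, e O = I)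
    (hle : ∀ O O', e O ≤ e O' ↔ O ≤ O') : Game.IndStep (HP e) := by
  intro Y U hY hU H O₀ V₀ hO₀ hV₀
  have hOV : O₀ ≤ V₀ := by
    intro x hx
    show x ∈ (V₀ : Set X)
    rw [hV₀]
    exact Or.inl (hO₀ ▸ hx)
  refine piBetween_of (he _) (he _) ((hle _ _).2 hOV) fun B _ _ _ φ hφ hk D _ _ _ κ hκ hκr => ?_
  have hker : ∀ W : Opens X, O₀ ≤ W → ∀ x, φ x = 0 → x ∈ e W := fun W hW x hx =>
    (hle _ _).2 hW ((hk x).1 hx)
  have hIm : IsClosedIdeal (img φ (e V₀)) := isClosedIdeal_img hφ (he _) (hker _ hOV)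
  have hr : ∀ x, (∃ d, κ d = x) ↔ x ∈ img φ (e V₀) := hκr
  have hD : WPI D n := wpi_sub hn hφ hIm hκ hr
  -- preimages of closed ideals
  have hup : ∀ J : Submodule ℂ D, IsClosedIdeal J → ∃ W : Opens X, e W = pre φ (img κ J) ∧
      O₀ ≤ W ∧ W ≤ V₀ := by
    intro J hJ
    obtain ⟨W, hW⟩ := hs _ (isClosedIdeal_pre φ (isClosedIdeal_img_ideal hIm hκ hr hJ))
    refine ⟨W, hW, ?_, ?_⟩
    · rw [← hle, hW]
      intro x hx
      rw [mem_pre, (hk x).2 hx]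
      exact (img κ J).zero_mem
    · rw [← hle, hW]
      rintro x ⟨d, -, hd⟩
      exact (map_mem_img_iff (hker _ hOV)).1 ((hr _).1 ⟨d, hd⟩)
  have hmem : ∀ (J : Submodule ℂ D) (W : Opens X), e W = pre φ (img κ J) → ∀ (a : A) (d : D),
      κ d = φ a → (a ∈ e W ↔ d ∈ J) := by
    intro J W hW a d had
    rw [hW, mem_pre]
    constructor
    · rintro ⟨d', hd', h⟩
      rwa [← hκ (h.trans had.symm)]
    · exact fun h => ⟨d, h, had⟩
  have hlift : ∀ W : Opens X, W ≤ V₀ → ∀ a ∈ e W, ∃ d, κ d = φ a := fun W hW a ha =>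
    (hr _).2 ⟨a, (hle _ _).2 hW ha, rfl⟩
  -- closed ideals of `D`
  have hdn : ∀ W : Opens X, O₀ ≤ W → W ≤ V₀ → ∃ J : Submodule ℂ D, IsClosedIdeal J ∧
      ∀ (a : A) (d : D), κ d = φ a → (a ∈ e W ↔ d ∈ J) := by
    intro W h1 h2
    refine ⟨pre κ (img φ (e W)), isClosedIdeal_pre κ (isClosedIdeal_img hφ (he _) (hker _ h1)),
      fun a d had => ?_⟩
    rw [mem_pre, had, map_mem_img_iff (hker _ h1)]
  refine eltPI_of D ((pi_iff_ind3 (wpi_of_elt hD)).2 fun P Q hP hQ hPQ => ?_)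
  obtain ⟨P', hP', hP1, hP2⟩ := hup P hP
  obtain ⟨Q', hQ', hQ1, hQ2⟩ := hup Q hQ
  have hPQ' : P' ≤ Q' := by
    rw [← hle, hP', hQ']
    rintro x ⟨d, hd, hdx⟩
    exact ⟨d, hPQ.le hd, hdx⟩
  obtain ⟨d, hdQ, hdP⟩ := SetLike.exists_of_lt hPQ
  obtain ⟨a, -, had⟩ := (hκr (κ d)).1 ⟨d, rfl⟩
  obtain ⟨x, hxQ, hxP⟩ : ∃ x, x ∈ Q' ∧ x ∉ P' := by
    by_contra hno
    push Not at hno
    exact hdP ((hmem P P' hP' a d had.symm).1 ((hle _ _).2 hno
      ((hmem Q Q' hQ' a d had.symm).2 hdQ)))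
  have hV₀' : ∀ y, y ∈ V₀ → y ∉ O₀ → y ∈ U := by
    intro y hy hy'
    have h1 : y ∈ (V₀ : Set X) := hy
    rw [hV₀, ← hO₀] at h1
    exact h1.resolve_left hy'
  obtain ⟨O, hO, hOW, ⟨y, hyO, hyZ⟩, hcase⟩ := H (P' : Set X)ᶜ ((Q' : Set X) ∩ U)
    P'.2.isClosed_compl (by
      have h1 : (O₀ : Set X) ⊆ P' := hP1
      rw [hO₀] at h1
      exact Set.compl_subset_comm.1 h1) (Q'.2.inter hU) Set.inter_subset_right
    ⟨x, ⟨hxQ, hV₀' x (hQ2 hxQ) fun h => hxP (hP1 h)⟩, hxP⟩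
  set I' : Opens X := P' ⊔ ⟨O, hO⟩ with hI'
  have hOQ : (⟨O, hO⟩ : Opens X) ≤ Q' := fun z hz => (hOW hz).1
  have hIQ : I' ≤ Q' := sup_le hPQ' hOQ
  obtain ⟨I, hI, hImem⟩ := hdn I' (hP1.trans le_sup_left) (hIQ.trans hQ2)
  have hPI : P < I := by
    refine lt_of_le_of_ne (fun c hc => ?_) fun heq => ?_
    · obtain ⟨b, -, hb⟩ := (hκr (κ c)).1 ⟨c, rfl⟩
      exact (hImem b c hb.symm).1 ((hle _ _).2 le_sup_left ((hmem P P' hP' b c hb.symm).2 hc))
    · have h1 : I' ≤ P' := by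
        rw [← hle]
        intro b hb
        obtain ⟨c, hc⟩ := hlift I' (hIQ.trans hQ2) b hb
        refine (hmem P P' hP' b c hc).2 ?_
        rw [heq]
        exact (hImem b c hc).1 hb
      exact hyZ (h1 (Or.inr hyO))
  have hIQ' : I ≤ Q := by
    intro c hc
    obtain ⟨b, -, hb⟩ := (hκr (κ c)).1 ⟨c, rfl⟩
    exact (hmem Q Q' hQ' b c hb.symm).1 ((hle _ _).2 hIQ ((hImem b c hb.symm).2 hc))
  refine ⟨I, hI, hPI, hIQ', ?_⟩
  rcases hcase with hc | hc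
  · left
    have h1 : PiBetween (e P') (e I') := hc P' I' (by rw [compl_compl]) (by
      rw [compl_compl]; rfl)
    refine piBetween_lift φ κ hκ hP hI hPI.le (he _) h1 (fun a ha c hca =>
      (hmem P P' hP' a c hca).1 ha) (fun a ha => ?_) fun c hc => ?_
    · obtain ⟨c, hc⟩ := hlift I' (hIQ.trans hQ2) a ha
      exact ⟨c, (hImem a c hc).1 ha, hc⟩
    · obtain ⟨b, -, hb⟩ := (hκr (κ c)).1 ⟨c, rfl⟩
      exact ⟨b, (hImem b c hb.symm).2 hc, hb⟩
  · right; right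
    set G : Set X := closure (O ∩ (P' : Set X)ᶜ) with hG
    have hGc : IsClosed G := isClosed_closure
    set L' : Opens X := P' ⊔ (⟨Gᶜ, hGc.isOpen_compl⟩ ⊓ V₀) with hL'
    have hLV : L' ≤ V₀ := sup_le hP2 inf_le_right
    obtain ⟨L, hL, hLmem⟩ := hdn L' (hP1.trans le_sup_left) hLV
    have hIL' : I' ⊓ L' ≤ P' := by
      rintro z ⟨hz1 | hz1, hz2 | hz2⟩
      · exact hz1
      · exact hz1
      · exact hz2
      · by_contra hzP
        exact hz2.1 (subset_closure ⟨hz1, hzP⟩)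
    refine ⟨L, hL, ?_, ?_⟩
    · rintro c ⟨hcI, hcL⟩
      obtain ⟨b, -, hb⟩ := (hκr (κ c)).1 ⟨c, rfl⟩
      have h1 : b ∈ e I' ⊓ e L' := ⟨(hImem b c hb.symm).2 hcI, (hLmem b c hb.symm).2 hcL⟩
      obtain ⟨N, hN⟩ := hs _ (isClosedIdeal_inf (he I') (he L'))
      have h2 : N ≤ P' := by
        refine le_trans (le_inf ?_ ?_) hIL'
        · rw [← hle, hN]; exact inf_le_left
        · rw [← hle, hN]; exact inf_le_right
      rw [← hN] at h1
      exact (hmem P P' hP' b c hb.symm).1 ((hle _ _).2 h2 h1)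
    · have hIL : IsClosedIdeal (I ⊔ L).topologicalClosure := H779.isClosedIdeal_sup hI hL
      obtain ⟨M, hM, hM1, hM2⟩ := hup _ hIL
      have hIM : I' ≤ M := by
        rw [← hle]
        intro b hb
        obtain ⟨c, hc⟩ := hlift I' (hIQ.trans hQ2) b hb
        exact (hmem _ M hM b c hc).2 (Submodule.le_topologicalClosure _
          (Submodule.mem_sup_left ((hImem b c hc).1 hb)))
      have hLM : L' ≤ M := by
        rw [← hle]
        intro b hb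
        obtain ⟨c, hc⟩ := hlift L' hLV b hb
        exact (hmem _ M hM b c hc).2 (Submodule.le_topologicalClosure _
          (Submodule.mem_sup_right ((hLmem b c hc).1 hb)))
      have hGU : HP e ((M : Set X)ᶜ) U := by
        refine mono_HP he hs hle (closure (O ∩ (P' : Set X)ᶜ) \ O) U _ U
          (isClosed_closure.sdiff hO) hU M.2.isClosed_compl hU hc Set.Subset.rfl ?_
        rintro z ⟨hzU, hzM⟩
        refine ⟨?_, fun hzO => hzM (hIM (Or.inr hzO))⟩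
        by_contra hzG
        refine hzM (hLM (Or.inr ⟨hzG, ?_⟩))
        show z ∈ (V₀ : Set X)
        rw [hV₀]
        exact Or.inr hzU
      have h1 : PiBetween (e M) (e V₀) := by
        refine hGU M V₀ (by rw [compl_compl]) ?_
        rw [compl_compl]
        apply Set.Subset.antisymm
        · intro z hz
          by_cases hzO : z ∈ O₀
          · exact Or.inl (hM1 hzO)
          · exact Or.inr (hV₀' z hz hzO)
        · rintro z (hz | hz)
          · exact hM2 hz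
          · rw [hV₀]; exact Or.inr hz
      refine piBetween_lift φ κ hκ hIL isClosedIdeal_top le_top (he _) h1 (fun a ha c hca =>
        (hmem _ M hM a c hca).1 ha) (fun a ha => ?_) fun c _ => ?_
      · obtain ⟨c, hc⟩ := hlift V₀ le_rfl a ha
        exact ⟨c, Submodule.mem_top, hc⟩
      · obtain ⟨b, hb, hbc⟩ := (hκr (κ c)).1 ⟨c, rfl⟩
        exact ⟨b, hb, hbc⟩

end

end Vale.Agent.P133.H512
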