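import Vale.Agent.P133.H512.Stage

/-!
P133 (helper512): gluing: `I₁ ∩ I₂ = 0`, `A / (I₁ + I₂)` purely infinite, all multiples of `b` below
`a` modulo `I₁` and modulo `I₂`; then all multiples of `b` are below `a`.
-/

open scoped ComplexOrder

namespace Vale.Agent.P133.H512

open Vale.Agent.P133 Vale.Agent.P133.H832 Vale.Agent.P133F Vale.Agent.P133.Statement

universe u

section

variable {A : Type u} [NonUnitalCStarAlgebra A] [PartialOrder A] [StarOrderedRing A]

omit [PartialOrder A] [StarOrderedRing A] in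
/-- lifting of the rows -/
theorem lift_rows {B : Type u} [NonUnitalCStarAlgebra B] [PartialOrder B] [StarOrderedRing B]
    {φ : A →⋆ₙₐ[ℂ] B} (hφ : Function.Surjective φ) {a b : A} (h : InfB (φ a) (φ b)) (m : ℕ)
    {η : ℝ} (hη : 0 < η) : ∃ (s : Fin m → A) (z : Fin m → Fin m → A), (∀ i j, φ (z i j) = 0) ∧
      ∀ i j, ‖star (s i) * a * s j - (if i = j then b else 0) - z i j‖ ≤ η := by
  obtain ⟨r, hr⟩ := h.2 m η hη
  choose s hs using fun i => hφ (r i)
  have key : ∀ i j, ∃ v : A, φ v = 0 ∧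
      ‖star (s i) * a * s j - (if i = j then b else 0) - v‖ ≤ η := by
    intro i j
    refine lift_small' φ hη ?_
    have h1 : φ (star (s i) * a * s j - (if i = j then b else 0)) =
        star (r i) * φ a * r j - (if i = j then φ b else 0) := by
      rw [map_sub, map_mul, map_mul, map_star, hs, hs]
      split_ifs
      · rfl
      · rw [map_zero]
    rw [h1]
    exact (hr i j).le
  choose z hz hz' using key
  exact ⟨s, z, hz, hz'⟩

/-- Gluing. -/
theorem glueG {n : ℕ} (hn : WPI A n) {a b : A} (ha : 0 ≤ a) (hb : 0 ≤ b)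
    {I₁ I₂ : Submodule ℂ A} (hI₁ : IsClosedIdeal I₁) (hI₂ : IsClosedIdeal I₂)
    (h0 : ∀ z ∈ I₁, z ∈ I₂ → z = 0)
    {B₁ : Type u} [NonUnitalCStarAlgebra B₁] [PartialOrder B₁] [StarOrderedRing B₁]
    {φ₁ : A →⋆ₙₐ[ℂ] B₁} (hφ₁ : Function.Surjective φ₁) (hk₁ : ∀ z, φ₁ z = 0 → z ∈ I₁)
    {B₂ : Type u} [NonUnitalCStarAlgebra B₂] [PartialOrder B₂] [StarOrderedRing B₂]
    {φ₂ : A →⋆ₙₐ[ℂ] B₂} (hφ₂ : Function.Surjective φ₂) (hk₂ : ∀ z, φ₂ z = 0 → z ∈ I₂)
    (hx : InfB (φ₁ a) (φ₁ b)) (hy : InfB (φ₂ a) (φ₂ b))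
    {B : Type u} [NonUnitalCStarAlgebra B] {φ : A →⋆ₙₐ[ℂ] B}
    (hφ : Function.Surjective φ) (hk : ∀ z, φ z = 0 ↔ z ∈ (I₁ ⊔ I₂).topologicalClosure)
    (hB : Diag B) : InfB a b := by
  refine infB_of_wpi hn hb fun δ hδ => ?_
  set η : ℝ := δ / 5000 with hη
  have hη0 : 0 < η := by positivity
  obtain ⟨r, zr, hzr, hr⟩ := lift_rows hφ₁ hx (n + n) hη0
  obtain ⟨s, zs, hzs, hs⟩ := lift_rows hφ₂ hy (n + n) hη0
  set α : A := CFC.sqrt a with hα
  have hαα : α * α = a := CFC.sqrt_mul_sqrt_self a ha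
  have hαs : star α = α := (IsSelfAdjoint.of_nonneg (CFC.sqrt_nonneg a)).star_eq
  obtain ⟨D, hD1, hD⟩ := hB (n + n) (Fin.append (fun i => φ (α * r (Fin.natAdd n i)))
    (fun i => φ (α * s (Fin.natAdd n i)))) η hη0
  have hdl : ∀ k, ∃ d : A, ‖d‖ ≤ 1 ∧ φ d = D k := fun k => lift_contr' φ hφ (hD1 k)
  choose d hd1 hd using hdl
  have hφ0 : ∀ z ∈ I₁, φ z = 0 := fun z hz => (hk z).2
    (Submodule.le_topologicalClosure _ (Submodule.mem_sup_left hz))
  have hφ0' : ∀ z ∈ I₂, φ z = 0 := fun z hz => (hk z).2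
    (Submodule.le_topologicalClosure _ (Submodule.mem_sup_right hz))
  -- the new families
  set r' : Fin n → A := fun i => r (Fin.natAdd n i) * d (Fin.castAdd n i) with hr'
  set s' : Fin n → A := fun i => s (Fin.natAdd n i) * d (Fin.natAdd n i) with hs'
  have hφr : ∀ i j, φ (star (r' i) * a * r' j) =
      star (φ (α * r (Fin.natAdd n i)) * D (Fin.castAdd n i)) *
        (φ (α * r (Fin.natAdd n j)) * D (Fin.castAdd n j)) := by
    intro i j
    rw [← hd, ← hd, ← map_mul, ← map_mul, ← map_star, ← map_mul]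
    congr 1
    simp only [hr', star_mul, hαs, ← hαα, mul_assoc]
  have hφs : ∀ i j, φ (star (s' i) * a * s' j) =
      star (φ (α * s (Fin.natAdd n i)) * D (Fin.natAdd n i)) *
        (φ (α * s (Fin.natAdd n j)) * D (Fin.natAdd n j)) := by
    intro i j
    rw [← hd, ← hd, ← map_mul, ← map_mul, ← map_star, ← map_mul]
    congr 1
    simp only [hs', star_mul, hαs, ← hαα, mul_assoc]
  have hφrs : ∀ i j, φ (star (r' i) * a * s' j) =
      star (φ (α * r (Fin.natAdd n i)) * D (Fin.castAdd n i)) *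
        (φ (α * s (Fin.natAdd n j)) * D (Fin.natAdd n j)) := by
    intro i j
    rw [← hd, ← hd, ← map_mul, ← map_mul, ← map_star, ← map_mul]
    congr 1
    simp only [hr', hs', star_mul, hαs, ← hαα, mul_assoc]
  have hdr : ∀ (w : A), star (φ (α * w)) * φ (α * w) = φ (star w * a * w) := by
    intro w
    rw [← map_star, ← map_mul]
    congr 1
    simp only [star_mul, hαs, ← hαα, mul_assoc]
  have T1 : ∀ i j, ‖φ (star (r' i) * a * r' j - (if i = j then b else 0))‖ ≤ 2 * η := by
    intro i j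
    have h1 := hD (Fin.castAdd n i) (Fin.castAdd n j)
    simp only [Fin.append_left, (Fin.castAdd_injective n n).eq_iff] at h1
    rw [← hφr, hdr] at h1
    split_ifs at h1 ⊢ with hij
    · have h2 := hr (Fin.natAdd n i) (Fin.natAdd n i)
      rw [if_pos rfl] at h2
      have h3 : ‖φ (star (r (Fin.natAdd n i)) * a * r (Fin.natAdd n i) - b)‖ ≤ η := by
        have h5 := (NonUnitalStarAlgHom.norm_apply_le φ _).trans h2
        rwa [map_sub, hφ0 _ (hk₁ _ (hzr _ _)), sub_zero] at h5
      have h4 : φ (star (r' i) * a * r' j - b) =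
          (φ (star (r' i) * a * r' j) - φ (star (r (Fin.natAdd n i)) * a * r (Fin.natAdd n i))) +
            φ (star (r (Fin.natAdd n i)) * a * r (Fin.natAdd n i) - b) := by
        rw [map_sub, map_sub, sub_add_sub_cancel]
      rw [h4]
      exact (norm_add_le _ _).trans (by linarith)
    · rw [sub_zero] at h1 ⊢
      linarith
  have T2 : ∀ i j, ‖φ (star (s' i) * a * s' j - (if i = j then b else 0))‖ ≤ 2 * η := by
    intro i j
    have h1 := hD (Fin.natAdd n i) (Fin.natAdd n j)
    simp only [Fin.append_right, (Fin.natAdd_injective n n).eq_iff] at h1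
    rw [← hφs, hdr] at h1
    split_ifs at h1 ⊢ with hij
    · have h2 := hs (Fin.natAdd n i) (Fin.natAdd n i)
      rw [if_pos rfl] at h2
      have h3 : ‖φ (star (s (Fin.natAdd n i)) * a * s (Fin.natAdd n i) - b)‖ ≤ η := by
        have h5 := (NonUnitalStarAlgHom.norm_apply_le φ _).trans h2
        rwa [map_sub, hφ0' _ (hk₂ _ (hzs _ _)), sub_zero] at h5
      have h4 : φ (star (s' i) * a * s' j - b) =
          (φ (star (s' i) * a * s' j) - φ (star (s (Fin.natAdd n i)) * a * s (Fin.natAdd n i))) +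
            φ (star (s (Fin.natAdd n i)) * a * s (Fin.natAdd n i) - b) := by
        rw [map_sub, map_sub, sub_add_sub_cancel]
      rw [h4]
      exact (norm_add_le _ _).trans (by linarith)
    · rw [sub_zero] at h1 ⊢
      linarith
  have hne : ∀ i j : Fin n, Fin.castAdd n i ≠ Fin.natAdd n j := by
    intro i j h
    have := congrArg Fin.val h
    simp only [Fin.val_castAdd, Fin.val_natAdd] at this
    omega
  have T3 : ∀ i j, ‖φ (star (r' i) * a * s' j)‖ ≤ 2 * η := by
    intro i j
    have h1 := hD (Fin.castAdd n i) (Fin.natAdd n j)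
    simp only [Fin.append_left, Fin.append_right, if_neg (hne i j), sub_zero] at h1
    rw [← hφrs] at h1
    linarith
  choose zt1 hzt1 zt2 hzt2 hzt using fun i j => near_sum hk (by positivity : 0 < 2 * η) (T1 i j)
  choose zs1 hzs1 zs2 hzs2 hzs' using fun i j => near_sum hk (by positivity : 0 < 2 * η) (T2 i j)
  choose zc1 hzc1 zc2 hzc2 hzc using fun i j => near_sum hk (by positivity : 0 < 2 * η) (T3 i j)
  -- pass to the unitization
  have h0c : ∀ z, z ∈ hI₁.toC → z ∈ hI₂.toC → z = 0 := by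
    intro z hz1 hz2
    obtain ⟨w, hw, rfl⟩ := hI₁.exists_of_mem hz1
    rw [h0 w hw (hI₂.mem_toC.1 hz2), Unitization.inr_zero]
  have hac : star (a : Unitization ℂ A) = (a : Unitization ℂ A) := by
    rw [← Unitization.inr_star, (IsSelfAdjoint.of_nonneg ha).star_eq]
  have hcast : ∀ (c : A) (i j : Fin n), ((if i = j then c else 0 : A) : Unitization ℂ A) =
      if i = j then (c : Unitization ℂ A) else 0 := by
    intro c i j
    split_ifs
    · rfl
    · exact Unitization.inr_zero ℂ
  have hcn : ∀ (p q c w : A) (i j : Fin n), ‖star (p : Unitization ℂ A) * (a : Unitization ℂ A) *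
      (q : Unitization ℂ A) - (if i = j then (c : Unitization ℂ A) else 0) -
        (w : Unitization ℂ A)‖ = ‖star p * a * q - (if i = j then c else 0) - w‖ := by
    intro p q c w i j
    rw [← hcast, ← Unitization.inr_star, ← Unitization.inr_mul, ← Unitization.inr_mul,
      ← Unitization.inr_sub, ← Unitization.inr_sub, final_norm]
  have hcn0 : ∀ (p q w : A), ‖star (p : Unitization ℂ A) * (a : Unitization ℂ A) *
      (q : Unitization ℂ A) - (w : Unitization ℂ A)‖ = ‖star p * a * q - w‖ := by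
    intro p q w
    rw [← Unitization.inr_star, ← Unitization.inr_mul, ← Unitization.inr_mul,
      ← Unitization.inr_sub, final_norm]
  obtain ⟨p1, p2, p3, p4, hp1, hp2, hp3, hp4, hsum, hT⟩ := stage4 (n := n) hI₁.toC hI₂.toC h0c
    (a := (a : Unitization ℂ A)) (b := (b : Unitization ℂ A)) hac
    (fun i => (r (Fin.castAdd n i) : Unitization ℂ A)) (fun i => (r' i : Unitization ℂ A))
    (fun i => (s' i : Unitization ℂ A)) (fun i => (s (Fin.castAdd n i) : Unitization ℂ A))
    (fun i j => (zr (Fin.castAdd n i) (Fin.castAdd n j) : Unitization ℂ A))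
    (fun i j => ((zr (Fin.castAdd n i) (Fin.natAdd n j) * d (Fin.castAdd n j) : A) :
      Unitization ℂ A))
    (fun i j => (zt1 i j : Unitization ℂ A)) (fun i j => (zt2 i j : Unitization ℂ A))
    (fun i j => (zc1 i j : Unitization ℂ A)) (fun i j => (zc2 i j : Unitization ℂ A))
    (fun i j => (zs1 i j : Unitization ℂ A)) (fun i j => (zs2 i j : Unitization ℂ A))
    (fun i j => ((star (d (Fin.natAdd n i)) * zs (Fin.natAdd n i) (Fin.castAdd n j) : A) :
      Unitization ℂ A))
    (fun i j => (zs (Fin.castAdd n i) (Fin.castAdd n j) : Unitization ℂ A))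
    (fun i j => hI₁.mem_toC.2 (hk₁ _ (hzr _ _)))
    (fun i j => hI₁.mem_toC.2 (hI₁.2 _ _ (hk₁ _ (hzr _ _))).2)
    (fun i j => hI₁.mem_toC.2 (hzt1 i j)) (fun i j => hI₂.mem_toC.2 (hzt2 i j))
    (fun i j => hI₁.mem_toC.2 (hzc1 i j)) (fun i j => hI₂.mem_toC.2 (hzc2 i j))
    (fun i j => hI₁.mem_toC.2 (hzs1 i j)) (fun i j => hI₂.mem_toC.2 (hzs2 i j))
    (fun i j => hI₂.mem_toC.2 (hI₂.2 _ _ (hk₂ _ (hzs _ _))).1)
    (fun i j => hI₂.mem_toC.2 (hk₂ _ (hzs _ _)))
    (by positivity : 0 < 4 * η)
    (by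
      intro i j
      have h1 := hr (Fin.castAdd n i) (Fin.castAdd n j)
      simp only [(Fin.castAdd_injective n n).eq_iff] at h1
      rw [hcn]; linarith)
    (by
      intro i j
      have h1 := hr (Fin.castAdd n i) (Fin.natAdd n j)
      rw [if_neg (hne i j), sub_zero] at h1
      rw [hcn0]
      have h2 : star (r (Fin.castAdd n i)) * a * r' j -
          zr (Fin.castAdd n i) (Fin.natAdd n j) * d (Fin.castAdd n j) =
          (star (r (Fin.castAdd n i)) * a * r (Fin.natAdd n j) -
            zr (Fin.castAdd n i) (Fin.natAdd n j)) * d (Fin.castAdd n j) := by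
        simp only [hr', mul_assoc, sub_mul]
      rw [h2]
      calc _ ≤ η * 1 := norm_mul_le_of_le h1 (hd1 _)
        _ ≤ 4 * η := by linarith)
    (by
      intro i j
      have h2 := hcn (r' i) (r' j) b (zt1 i j + zt2 i j) i j
      rw [Unitization.inr_add] at h2
      rw [h2]
      have := hzt i j
      linarith)
    (by
      intro i j
      have h2 := hcn0 (r' i) (s' j) (zc1 i j + zc2 i j)
      rw [Unitization.inr_add] at h2
      rw [h2]
      have := hzc i j
      linarith)
    (by
      intro i j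
      have h2 := hcn (s' i) (s' j) b (zs1 i j + zs2 i j) i j
      rw [Unitization.inr_add] at h2
      rw [h2]
      have := hzs' i j
      linarith)
    (by
      intro i j
      have h1 := hs (Fin.natAdd n i) (Fin.castAdd n j)
      rw [if_neg (hne j i).symm, sub_zero] at h1
      rw [hcn0]
      have h2 : star (s' i) * a * s (Fin.castAdd n j) -
          star (d (Fin.natAdd n i)) * zs (Fin.natAdd n i) (Fin.castAdd n j) =
          star (d (Fin.natAdd n i)) * (star (s (Fin.natAdd n i)) * a * s (Fin.castAdd n j) -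
            zs (Fin.natAdd n i) (Fin.castAdd n j)) := by
        simp only [hs', star_mul, mul_assoc, mul_sub]
      rw [h2]
      calc _ ≤ 1 * η := norm_mul_le_of_le (by rw [norm_star]; exact hd1 _) h1
        _ ≤ 4 * η := by linarith)
    (by
      intro i j
      have h1 := hs (Fin.castAdd n i) (Fin.castAdd n j)
      simp only [(Fin.castAdd_injective n n).eq_iff] at h1
      rw [hcn]; linarith)
  -- back to `A`
  set b' : Unitization ℂ A := (b : Unitization ℂ A) with hb'
  set a' : Unitization ℂ A := (a : Unitization ℂ A) with ha'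
  have hmA : ∀ z : A, (z : Unitization ℂ A) ∈ final_ideal A := fun z => final_mem_iff.2 ⟨z, rfl⟩
  have hTA : ∀ i, ∃ T : A, (r (Fin.castAdd n i) : Unitization ℂ A) * p1 +
      (r' i : Unitization ℂ A) * p2 + (s' i : Unitization ℂ A) * p3 +
      (s (Fin.castAdd n i) : Unitization ℂ A) * p4 = (T : Unitization ℂ A) := by
    intro i
    refine final_mem_iff.1 ?_
    exact (final_ideal A).add_mem ((final_ideal A).add_mem ((final_ideal A).add_mem
      ((final_ideal A).right_mem (hmA _) _) ((final_ideal A).right_mem (hmA _) _))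
      ((final_ideal A).right_mem (hmA _) _)) ((final_ideal A).right_mem (hmA _) _)
  choose T hTT using hTA
  obtain ⟨Q, hQ⟩ : ∃ Q : A, p1 * b' * p1 + p2 * b' * p2 + p3 * b' * p3 + p4 * b' * p4 =
      (Q : Unitization ℂ A) := by
    refine final_mem_iff.1 ?_
    have hm : ∀ p q : Unitization ℂ A, p * b' * q ∈ final_ideal A := fun p q =>
      (final_ideal A).right_mem ((final_ideal A).left_mem _ (hmA b)) _
    exact (final_ideal A).add_mem ((final_ideal A).add_mem ((final_ideal A).add_mem
      (hm _ _) (hm _ _)) (hm _ _)) (hm _ _)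
  have hb0 : 0 ≤ b' := by rw [hb', Unitization.inr_nonneg_iff]; exact hb
  have hconj : ∀ (p z : Unitization ℂ A), star p = p → 0 ≤ z → 0 ≤ p * z * p := by
    intro p z hp hz
    have := star_left_conjugate_nonneg hz p
    rwa [hp] at this
  have hbQ : b ≤ (4 : ℝ) • Q := by
    rw [← sub_nonneg, ← Unitization.inr_nonneg_iff, Unitization.inr_sub, Unitization.inr_smul,
      ← hQ, ← hb']
    have e1 : (4 : ℝ) • (p1 * b' * p1 + p2 * b' * p2 + p3 * b' * p3 + p4 * b' * p4) - b' =
        ((p1 - p2) * b' * (p1 - p2) + (p1 - p3) * b' * (p1 - p3) +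
          (p1 - p4) * b' * (p1 - p4)) + ((p2 - p3) * b' * (p2 - p3) +
          (p2 - p4) * b' * (p2 - p4) + (p3 - p4) * b' * (p3 - p4)) := by
      have e2 : b' = (p1 + p2 + p3 + p4) * b' * (p1 + p2 + p3 + p4) := by
        rw [hsum, one_mul, mul_one]
      conv_lhs => rw [show (4 : ℝ) = 1 + 1 + 1 + 1 by norm_num]
      conv_lhs => arg 2; rw [e2]
      simp only [add_smul, one_smul, mul_add, add_mul, mul_sub, sub_mul]
      abel
    rw [e1]
    have hsub : ∀ p q : Unitization ℂ A, star p = p → star q = q →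
        0 ≤ (p - q) * b' * (p - q) := fun p q hp hq =>
      hconj _ _ (by rw [star_sub, hp, hq]) hb0
    exact add_nonneg (add_nonneg (add_nonneg (hsub _ _ hp1 hp2) (hsub _ _ hp1 hp3))
      (hsub _ _ hp1 hp4)) (add_nonneg (add_nonneg (hsub _ _ hp2 hp3) (hsub _ _ hp2 hp4))
      (hsub _ _ hp3 hp4))
  obtain ⟨d0, hd01, hd0⟩ := order_factor_c hb hbQ (half_pos hδ)
  refine ⟨fun i => T i * ((2 : ℝ) • d0), fun i j => ?_⟩
  have hTn : ‖star (T i) * a * T j - (if i = j then Q else 0)‖ ≤ 55 * (4 * η) := by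
    have h1 := hT i j
    rw [hTT i, hTT j, hQ] at h1
    have h2 : ((star (T i) * a * T j - (if i = j then Q else 0) : A) : Unitization ℂ A) =
        star (T i : Unitization ℂ A) * a' * (T j : Unitization ℂ A) -
          (if i = j then (Q : Unitization ℂ A) else 0) := by
      rw [Unitization.inr_sub, hcast, Unitization.inr_mul, Unitization.inr_mul,
        Unitization.inr_star]
    rw [← final_norm, h2]
    exact h1
  have key : star (T i * ((2 : ℝ) • d0)) * a * (T j * ((2 : ℝ) • d0)) -
      (if i = j then b else 0) =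
      (4 : ℝ) • (star d0 * (star (T i) * a * T j - (if i = j then Q else 0)) * d0) +
        (if i = j then star d0 * ((4 : ℝ) • Q) * d0 - b else 0) := by
    have e4 : star (T i * ((2 : ℝ) • d0)) * a * (T j * ((2 : ℝ) • d0)) =
        (4 : ℝ) • (star d0 * (star (T i) * a * T j) * d0) := by
      rw [star_mul, star_smul, star_trivial]
      simp only [smul_mul_assoc, mul_smul_comm, smul_smul, mul_assoc]
      norm_num
    rw [e4]
    split_ifs with hij
    · rw [mul_sub, sub_mul, smul_sub, mul_smul_comm, smul_mul_assoc]; abel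
    · rw [sub_zero, sub_zero, add_zero]
  have hlast : ‖(if i = j then star d0 * ((4 : ℝ) • Q) * d0 - b else 0 : A)‖ ≤ δ / 2 := by
    split_ifs
    · exact hd0
    · rw [norm_zero]; exact (half_pos hδ).le
  have hds : ‖star d0‖ ≤ 1 := by rw [norm_star]; exact hd01
  rw [key]
  calc _ ≤ ‖(4 : ℝ) • (star d0 * (star (T i) * a * T j - (if i = j then Q else 0)) * d0)‖ +
        ‖(if i = j then star d0 * ((4 : ℝ) • Q) * d0 - b else 0 : A)‖ := norm_add_le _ _
    _ ≤ 4 * (1 * (55 * (4 * η)) * 1) + δ / 2 := by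
        refine add_le_add ?_ hlast
        rw [norm_smul, Real.norm_of_nonneg (by norm_num)]
        exact mul_le_mul_of_nonneg_left
          (norm_mul_le_of_le (norm_mul_le_of_le hds hTn) hd01) (by norm_num)
    _ ≤ δ := by rw [hη]; linarith

end

end Vale.Agent.P133.H512
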