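import Vale.Agent.P133.SDefs
import Vale.Agent.P133.H832.TameDef

/-!
P133 (helper512): purely infinite subquotients.
-/

open scoped ComplexOrder

namespace Vale.Agent.P133.H512

open Vale.Agent.P133.Statement

universe u

/-- For closed ideals `P ≤ I` of `A`: the ideal `I / P` of `A / P` is a purely infinite
C*-algebra. Here `D` is the quotient `A / P` and `J` is isomorphic to the ideal `I / P` of `D`. -/
def PiBetween {A : Type u} [NonUnitalCStarAlgebra A] (P I : Submodule ℂ A) : Prop :=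
  ∃ (D J : Type u) (_ : NonUnitalCStarAlgebra D) (_ : NonUnitalCStarAlgebra J)
    (_ : PartialOrder J) (_ : StarOrderedRing J) (φ : A →⋆ₙₐ[ℂ] D) (ι : J →⋆ₙₐ[ℂ] D),
    Function.Surjective φ ∧ (∀ x, φ x = 0 ↔ x ∈ P) ∧ Function.Injective ι ∧
      (∀ x, x ∈ I ↔ ∃ y, ι y = φ x) ∧ PurelyInfinite J

end Vale.Agent.P133.H512
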