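import Vale.Agent.P133.H512.Ext
import Vale.Agent.P133.H512.PiDef
import Vale.Agent.P133.H330.TopBase

/-!
P133 (helper512): the inductive theorem with purely infinite ideals, compact ideals and purely
infinite boundaries.
-/

open scoped ComplexOrder

namespace Vale.Agent.P133.H512

open Vale.Agent.P133 Vale.Agent.P133.Statement Vale.Agent.P133.H832 Vale.Agent.P133F
  Vale.Agent.P133.H681 Vale.Agent.P133.R2 Vale.Agent.P133.R2.H28 Vale.Agent.P133.H779
  Vale.Agent.P133.H330 Vale.Agent.P133.H216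

universe u

section

variable {A : Type u} [NonUnitalCStarAlgebra A] [PartialOrder A] [StarOrderedRing A]

/-- if `I / K` is purely infinite, all positive elements of the ideal `I / K` of `A / K` are
properly infinite -/
theorem infB_of_piBetween {D : Type u} [NonUnitalCStarAlgebra D] [PartialOrder D]
    [StarOrderedRing D] {φ : A →⋆ₙₐ[ℂ] D} (hφ : Function.Surjective φ)
    {K I : Submodule ℂ A} (hk : ∀ x, φ x = 0 ↔ x ∈ K) (hI : IsClosedIdeal I) (hKI : K ≤ I)
    (h : PiBetween K I) : ∀ q ∈ I.map (φ : A →ₗ[ℂ] D), 0 ≤ q → InfB q q := by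
  obtain ⟨D₂, J, i1, i2, i3, i4, φ₂, ι, hφ₂, hk₂, hι, hιI, hJ⟩ := h
  intro q hq q0
  have hI' : IsClosedIdeal (I.map (φ : A →ₗ[ℂ] D)) :=
    isClosedIdeal_map φ hφ hI fun x hx => hKI ((hk x).1 hx)
  have hsq : CFC.sqrt q ∈ I.map (φ : A →ₗ[ℂ] D) := by
    refine hI'.of_star_mul_self ?_
    rwa [(IsSelfAdjoint.of_nonneg (CFC.sqrt_nonneg q)).star_eq, CFC.sqrt_mul_sqrt_self q q0]
  obtain ⟨x, hx, hxq⟩ := hsq
  have hxq' : φ x = CFC.sqrt q := hxq
  have e1 : φ (star x * x) = q := by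
    rw [map_mul, map_star, hxq', (IsSelfAdjoint.of_nonneg (CFC.sqrt_nonneg q)).star_eq,
      CFC.sqrt_mul_sqrt_self q q0]
  obtain ⟨j, hj⟩ := (hιI x).1 hx
  refine ⟨q0, fun m ε hε => ?_⟩
  obtain ⟨r, hr⟩ := (infB_self_of_eltPI (eltPI_of J hJ) (star_mul_self_nonneg j)).2 m ε hε
  choose s hs using fun i => hφ₂ (ι (r i))
  refine ⟨fun i => φ (s i), fun i l => ?_⟩
  have e2 : star (φ (s i)) * q * φ (s l) - (if i = l then q else 0) =
      φ (star (s i) * (star x * x) * s l - (if i = l then star x * x else 0)) := by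
    rw [← e1, map_sub, map_mul φ (star (s i) * (star x * x)), map_mul φ (star (s i)), map_star φ]
    split_ifs
    · rfl
    · rw [map_zero]
  have e3 : φ₂ (star (s i) * (star x * x) * s l - (if i = l then star x * x else 0)) =
      ι (star (r i) * (star j * j) * r l - (if i = l then star j * j else 0)) := by
    simp only [map_sub, map_mul, map_star, hs, hj]
    split_ifs
    · simp only [map_mul, map_star, hj]
    · rw [map_zero, map_zero]
  rw [e2]
  refine (norm_le_of_ker (ψ := φ₂) (φ := φ) (fun x hx => (hk x).2 ((hk₂ x).1 hx)) _).trans_lt ?_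
  rw [e3]
  exact (NonUnitalStarAlgHom.norm_apply_le ι _).trans_lt (hr i l)

/-- **The inductive theorem.** Let `A` be weakly purely infinite. Suppose that for all closed
ideals `K < K'` of `A` there is a closed ideal `I` with `K < I ≤ K'` such that the quotient of
`A` by `I + (K : I)` is purely infinite, or `I` is compact modulo `K`, or `I / K` is purely
infinite. Then `A` is purely infinite. -/
theorem eltPI_of_ind3 {n : ℕ} (hn : WPI A n)
    (H : ∀ K K' : Submodule ℂ A, IsClosedIdeal K → IsClosedIdeal K' → K < K' →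
      ∃ I : Submodule ℂ A, IsClosedIdeal I ∧ K < I ∧ I ≤ K' ∧
        ((∀ (B : Type u) [NonUnitalCStarAlgebra B] [PartialOrder B] [StarOrderedRing B]
          (φ : A →⋆ₙₐ[ℂ] B), Function.Surjective φ →
          (∀ x, φ x = 0 ↔ x ∈ (I ⊔ colon K I).topologicalClosure) → EltPI B) ∨
        CompactMod K I ∨ PiBetween K I)) : EltPI A := by
  refine eltPI_of_infB fun a ha => ?_
  -- it suffices to find small cuts
  suffices hcut : ∀ κ₀ : ℝ, 0 < κ₀ → Good n a κ₀ ⊥ by
    refine infB_lim ha fun ε hε => ?_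
    obtain ⟨κ, hκ, hκε, h⟩ := infB_of_good hn ha (φ := NonUnitalStarAlgHom.id ℂ A)
      (fun x => ⟨x, rfl⟩) (fun x hx => (Submodule.mem_bot ℂ).1 hx) (hcut ε hε)
    exact ⟨R2.H28.cut a κ, h, (R2.H28.norm_cut_sub_le ha hκ).trans_lt hκε⟩
  intro κ₀ hκ₀
  by_contra hbad
  -- a maximal bad ideal
  obtain ⟨K, -, hKm⟩ := zorn_le_nonempty₀
    {P : Submodule ℂ A | IsClosedIdeal P ∧ ¬ Good n a κ₀ P} (by
      intro c hc hch y hy
      refine ⟨(sSup c).topologicalClosure, ⟨isClosedIdeal_closure fun b x hx => ?_, ?_⟩,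
        fun z hz => (le_sSup hz).trans (Submodule.le_topologicalClosure _)⟩
      · have h1 : ∀ x, x ∈ sSup c ↔ ∃ P ∈ c, x ∈ P := fun x =>
          Submodule.mem_sSup_of_directed ⟨y, hy⟩ hch.directedOn
        obtain ⟨P, hP, hx⟩ := (h1 x).1 hx
        exact ⟨(h1 _).2 ⟨P, hP, ((hc hP).1.2 b x hx).1⟩,
          (h1 _).2 ⟨P, hP, ((hc hP).1.2 b x hx).2⟩⟩
      · intro hg
        obtain ⟨P, hP, hPg⟩ := good_chain hn ha (fun P hP => (hc hP).1) hch ⟨y, hy⟩ hg
        exact (hc hP).2 hPg) ⊥ ⟨isClosedIdeal_bot, hbad⟩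
  obtain ⟨hK, hKbad⟩ := hKm.prop
  have hmax : ∀ P' : Submodule ℂ A, IsClosedIdeal P' → K ≤ P' → ¬ P' ≤ K → Good n a κ₀ P' := by
    intro P' hP' hle hnle
    by_contra hb
    exact hnle (hKm.le_of_ge ⟨hP', hb⟩ hle)
  obtain ⟨D, i1, i2, i3, φ, hφ, hk⟩ := hK.quot
  have hD : WPI D n := wpiE_of_surj hn φ hφ
  have hφa : 0 ≤ φ a := map_nonneg_aux φ ha
  -- `a` is not good in `D`
  have hDbad : ∀ κ, 0 < κ → κ < κ₀ → ¬ InfB (φ a) (φ (R2.H28.cut a κ)) := fun κ hκ hκ₀ h =>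
    hKbad (good_of_infB hκ hκ₀ hφ (fun x hx => (hk x).1 hx) h)
  have hne : φ a ≠ 0 := by
    intro h0
    refine hDbad (κ₀ / 2) (half_pos hκ₀) (half_lt_self hκ₀) ⟨map_nonneg_aux φ
      (R2.H28.cut_nonneg _ _), fun m ε hε => ⟨fun _ => 0, fun i j => ?_⟩⟩
    have h1 : φ (R2.H28.cut a (κ₀ / 2)) = 0 := by
      rw [cut_map φ ha (half_pos hκ₀).le, h0]
      exact cfcₙ_apply_zero
    rw [h1]
    simpa using hε
  have hbot : ∀ x : D, x ≠ 0 → x ∉ (⊥ : Submodule ℂ D) := fun x hx h =>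
    hx ((Submodule.mem_bot ℂ).1 h)
  obtain ⟨c, hc0, hc, hac⟩ := exists_below (wpi_of_elt hD) hφa isClosedIdeal_bot (hbot _ hne)
  have hcne : c ≠ 0 := fun h => hc (by rw [h]; exact Submodule.zero_mem _)
  obtain ⟨h, y, h0, y0, hhy, hha, hya, hIa, hyne, -⟩ :=
    full_and_small hφa hcne (infB_of_allBelow hc0 hac)
  obtain ⟨e, he0, he, hye⟩ := exists_below (wpi_of_elt hD) y0 isClosedIdeal_bot (hbot y hyne)
  have hene : e ≠ 0 := fun h => he (by rw [h]; exact Submodule.zero_mem _)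
  have hyeB : InfB y e := infB_of_allBelow he0 hye
  obtain ⟨J, hJ, hJ'⟩ := isClosedIdeal_inId e
  have hJy : ∀ x ∈ J, InfB y (star x * x) := infB_idSub hyeB hJ'
  -- the ideal `J` of `D` in `A`
  let K' : Submodule ℂ A := J.comap (φ : A →ₗ[ℂ] D)
  have hK'm : ∀ x, x ∈ K' ↔ φ x ∈ J := fun x => Iff.rfl
  have hK' : IsClosedIdeal K' := isClosedIdeal_comap φ hJ
  have hKK' : K < K' := by
    refine lt_of_le_of_ne (fun x hx => ?_) fun heq => ?_
    · rw [hK'm, (hk x).2 hx]; exact J.zero_mem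
    · obtain ⟨e', rfl⟩ := hφ e
      have h1 : e' ∈ K := by
        rw [heq, hK'm]; exact (hJ' _).2 (InId.refl _)
      exact hene ((hk _).2 h1)
  obtain ⟨I, hI, hKI, hIK', hB⟩ := H K K' hK hK' hKK'
  have hker : ∀ x, φ x = 0 → x ∈ I := fun x hx => hKI.le ((hk x).1 hx)
  let I' : Submodule ℂ D := I.map (φ : A →ₗ[ℂ] D)
  have hI' : IsClosedIdeal I' := isClosedIdeal_map φ hφ hI hker
  have hI'm : ∀ x, φ x ∈ I' ↔ x ∈ I := mem_map_iff φ hker
  have hI'J : ∀ x ∈ I', x ∈ J := by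
    rintro _ ⟨x, hx, rfl⟩
    exact hIK' hx
  obtain ⟨κ₁, g1, g2, g3⟩ := good_rows hn ha hI (hmax I hI hKI.le (not_le_of_gt hKI))
  have hrows' : ∀ (m : ℕ) (ε : ℝ), 0 < ε →
      RowsMod I' (φ a) (φ (R2.H28.cut a κ₁)) m ε := by
    intro m ε hε
    obtain ⟨s, z, hz, hs⟩ := g3 κ₁ le_rfl m ε hε
    refine ⟨fun i => φ (s i), fun i j => φ (z i j), fun i j => (hI'm _).2 (hz i j),
      fun i j => ?_⟩
    have e1 : star (φ (s i)) * φ a * φ (s j) - (if i = j then φ (R2.H28.cut a κ₁) else 0) -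
        φ (z i j) = φ (star (s i) * a * s j - (if i = j then R2.H28.cut a κ₁ else 0) - z i j) := by
      rw [map_sub, map_sub, map_mul, map_mul, map_star]
      split_ifs
      · rfl
      · rw [map_zero]
    rw [e1]
    exact (NonUnitalStarAlgHom.norm_apply_le φ _).trans_lt (hs i j)
  rcases hB with hB | ⟨c', hc'0, hc'I, r, hr, hcomp⟩ | hB
  · have hc : IsClosedIdeal (colon K I) := isClosedIdeal_colon hK hI
    have hIc : IsClosedIdeal (I ⊔ colon K I).topologicalClosure := by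
      refine isClosedIdeal_closure fun b x hx => ?_
      obtain ⟨u, hu, v, hv, rfl⟩ := Submodule.mem_sup.1 hx
      rw [mul_add, add_mul]
      exact ⟨Submodule.add_mem_sup (hI.2 _ _ hu).1 (hc.2 _ _ hv).1,
        Submodule.add_mem_sup (hI.2 _ _ hu).2 (hc.2 _ _ hv).2⟩
    obtain ⟨C, k1, k2, k3, ρ, hρ, hρk⟩ := hIc.quot
    have hC : EltPI C := hB C ρ hρ hρk
    -- the ideal quotient is `K`
    have hcK : colon K I ≤ K := by
      by_contra hnle
      obtain ⟨κ₂, f1, f2, f3⟩ := good_rows hn ha hc (hmax _ hc (le_colon hK) hnle)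
      refine hKbad ⟨max κ₁ κ₂, g1.trans_le (le_max_left _ _), max_lt g2 f2, fun η hη => ?_⟩
      obtain ⟨s, z, hz, hs⟩ := glueR ha (R2.H28.cut_nonneg a (max κ₁ κ₂)) hI hc hK
        (inf_colon hK hI) hρ hρk (diag_of_eltPI C hC) hη
        (f3 _ (le_max_right _ _) (n + n) (η / 5000) (by positivity))
        (g3 _ (le_max_left _ _) (n + n) (η / 5000) (by positivity))
      exact ⟨s, z, hz, fun i j => (hs i j).le⟩
    have h2 : (I ⊔ colon K I).topologicalClosure ≤ I :=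
      Submodule.topologicalClosure_minimal _ (sup_le le_rfl (hcK.trans hKI.le)) hI.1
    have hinf : InfB (φ a) (φ a) := by
      refine infB_of_quot hD hφa h0 y0 hhy hha hya hIa hI' (fun x hx => hJy x (hI'J x hx))
        fun B _ _ _ ψ hψ hψk => ?_
      refine eltPI_of_le hρ hC (χ := ψ.comp φ) (hψ.comp hφ) (I := I)
        (fun x hx => h2 ((hρk x).1 hx)) fun x hx => ?_
      show ψ (φ x) = 0
      exact (hψk _).2 ((hI'm x).2 hx)
    refine hDbad (κ₀ / 2) (half_pos hκ₀) (half_lt_self hκ₀) ?_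
    rw [cut_map φ ha (half_pos hκ₀).le]
    exact infB_cut_of hinf (half_pos hκ₀)
  · refine hDbad κ₁ g1 g2 (infB_of_compact hD hφa (map_nonneg_aux φ (R2.H28.cut_nonneg _ _))
      (map_nonneg_aux φ hc'0) ?_ hI' ((hI'm c').2 hc'I) hr (fun P hP hcP => ?_)
      fun ε hε => hrows' n ε hε)
    · -- all multiples of `c'` are below `a`
      have h1 : InfB y (star (CFC.sqrt (φ c')) * CFC.sqrt (φ c')) := by
        refine hJy _ (hI'J _ ?_)
        refine hI'.of_star_mul_self ?_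
        rw [(IsSelfAdjoint.of_nonneg (CFC.sqrt_nonneg (φ c'))).star_eq,
          CFC.sqrt_mul_sqrt_self _ (map_nonneg_aux φ hc'0)]
        exact (hI'm c').2 hc'I
      rw [(IsSelfAdjoint.of_nonneg (CFC.sqrt_nonneg (φ c'))).star_eq,
        CFC.sqrt_mul_sqrt_self _ (map_nonneg_aux φ hc'0)] at h1
      exact infB_mono y0 hφa (Her.mem_RI hya) h1
    · rintro _ ⟨x, hx, rfl⟩
      have hP' : IsClosedIdeal (P.comap (φ : A →ₗ[ℂ] D)) := isClosedIdeal_comap φ hP
      refine hcomp _ hP' (fun z hz => ?_) ?_ hx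
      · show φ z ∈ P
        rw [(hk z).2 hz]; exact P.zero_mem
      · show φ (R2.H28.cut c' r) ∈ P
        rw [cut_map φ hc'0 hr.le]; exact hcP
  · refine hDbad κ₁ g1 g2 (infB_of_ext hD hI' (infB_of_piBetween hφ hk hI hKI.le hB) hφa
      (map_nonneg_aux φ (R2.H28.cut_nonneg _ _)) ?_ fun ε hε => hrows' (n + 1) ε hε)
    rw [← sub_nonneg, ← map_sub]
    exact map_nonneg_aux φ (sub_nonneg.2 (cut_le_self ha g1))

end

end Vale.Agent.P133.H512
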