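import Vale.Agent.P133.H832.Glu2

/-!
P133 (helper512): gluing two families along a quotient, the algebraic part: four successive pieces.
-/

open scoped ComplexOrder

namespace Vale.Agent.P133.H512

open Vale.Agent.P133 Vale.Agent.P133.H832

universe u

variable {M : Type u} [CStarAlgebra M] [PartialOrder M] [StarOrderedRing M]

omit [PartialOrder M] [StarOrderedRing M] in
theorem nm3 {x y z : M} {a b c : ℝ} (hx : ‖x‖ ≤ a) (hy : ‖y‖ ≤ b) (hz : ‖z‖ ≤ c) :
    ‖x * y * z‖ ≤ a * b * c :=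
  norm_mul_le_of_le (norm_mul_le_of_le hx hy) hz

/-- the sixteen terms -/
theorem stage4 {n : ℕ} (I₁ I₂ : CIdeal M) (h0 : ∀ z, z ∈ I₁ → z ∈ I₂ → z = 0)
    {a b : M} (ha : star a = a) (s s' t' t : Fin n → M)
    (z1 z2 z3 w3 z4 w4 z5 w5 w6 w7 : Fin n → Fin n → M)
    (hz1 : ∀ i j, z1 i j ∈ I₁) (hz2 : ∀ i j, z2 i j ∈ I₁) (hz3 : ∀ i j, z3 i j ∈ I₁)
    (hw3 : ∀ i j, w3 i j ∈ I₂) (hz4 : ∀ i j, z4 i j ∈ I₁) (hw4 : ∀ i j, w4 i j ∈ I₂)
    (hz5 : ∀ i j, z5 i j ∈ I₁) (hw5 : ∀ i j, w5 i j ∈ I₂) (hw6 : ∀ i j, w6 i j ∈ I₂)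
    (hw7 : ∀ i j, w7 i j ∈ I₂) {η : ℝ} (hη : 0 < η)
    (h1 : ∀ i j, ‖star (s i) * a * s j - (if i = j then b else 0) - z1 i j‖ ≤ η)
    (h2 : ∀ i j, ‖star (s i) * a * s' j - z2 i j‖ ≤ η)
    (h3 : ∀ i j, ‖star (s' i) * a * s' j - (if i = j then b else 0) - (z3 i j + w3 i j)‖ ≤ η)
    (h4 : ∀ i j, ‖star (s' i) * a * t' j - (z4 i j + w4 i j)‖ ≤ η)
    (h5 : ∀ i j, ‖star (t' i) * a * t' j - (if i = j then b else 0) - (z5 i j + w5 i j)‖ ≤ η)
    (h6 : ∀ i j, ‖star (t' i) * a * t j - w6 i j‖ ≤ η)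
    (h7 : ∀ i j, ‖star (t i) * a * t j - (if i = j then b else 0) - w7 i j‖ ≤ η) :
    ∃ p1 p2 p3 p4 : M, star p1 = p1 ∧ star p2 = p2 ∧ star p3 = p3 ∧ star p4 = p4 ∧
      p1 + p2 + p3 + p4 = 1 ∧ ∀ i j,
      ‖star (s i * p1 + s' i * p2 + t' i * p3 + t i * p4) * a *
          (s j * p1 + s' j * p2 + t' j * p3 + t j * p4) -
        (if i = j then p1 * b * p1 + p2 * b * p2 + p3 * b * p3 + p4 * b * p4 else 0)‖ ≤
        55 * η := by
  -- the first unit
  obtain ⟨e₃, he₃, h3z⟩ := exists_approx_unit (ι := Fin n × Fin n) I₁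
    (c := fun k => z5 k.1 k.2) (fun k => hz5 k.1 k.2) hη
  -- the second unit
  obtain ⟨e₂, he₂, h2z⟩ := exists_approx_unit
    (ι := (((Fin n × Fin n) ⊕ (Fin n × Fin n)) ⊕ (Fin n × Fin n)) ⊕ (Fin n × Fin n)) I₁
    (c := Sum.elim (Sum.elim (Sum.elim (fun k => z5 k.1 k.2) (fun k => z3 k.1 k.2))
      (fun k => z4 k.1 k.2)) (fun k => star (s' k.1) * a * t k.2 * e₃))
    (by
      rintro (((k | k) | k) | k)
      exacts [hz5 _ _, hz3 _ _, hz4 _ _, I₁.left_mem _ he₃.mem]) hη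
  set p3 : M := e₂ - e₃ with hp3
  have hp3I : p3 ∈ I₁ := I₁.sub_mem he₂.mem he₃.mem
  -- the third unit
  obtain ⟨e₁, he₁, h1z⟩ := exists_approx_unit
    (ι := ((((((Fin n × Fin n) ⊕ (Fin n × Fin n)) ⊕ (Fin n × Fin n)) ⊕ (Fin n × Fin n)) ⊕
      (Fin n × Fin n)) ⊕ (Fin n × Fin n)) ⊕ (Fin n × Fin n)) I₁
    (c := Sum.elim (Sum.elim (Sum.elim (Sum.elim (Sum.elim (Sum.elim
      (fun k => z1 k.1 k.2) (fun k => z2 k.1 k.2)) (fun k => z3 k.1 k.2)) (fun k => z4 k.1 k.2))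
      (fun k => star (s' k.1) * a * t k.2 * e₃)) (fun k => star (s k.1) * a * t' k.2 * p3))
      (fun k => star (s k.1) * a * t k.2 * e₃))
    (by
      rintro ((((((k | k) | k) | k) | k) | k) | k)
      exacts [hz1 _ _, hz2 _ _, hz3 _ _, hz4 _ _, I₁.left_mem _ he₃.mem, I₁.left_mem _ hp3I,
        I₁.left_mem _ he₃.mem]) hη
  set p1 : M := 1 - e₁ with hp1
  set p2 : M := e₁ - e₂ with hp2
  have hp2I : p2 ∈ I₁ := I₁.sub_mem he₁.mem he₂.mem
  have hes1 : star e₁ = e₁ := he₁.star_eq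
  have hes2 : star e₂ = e₂ := he₂.star_eq
  have hes3 : star e₃ = e₃ := he₃.star_eq
  have hs1 : star p1 = p1 := by rw [hp1, star_sub, star_one, hes1]
  have hs2 : star p2 = p2 := by rw [hp2, star_sub, hes1, hes2]
  have hs3 : star p3 = p3 := by rw [hp3, star_sub, hes2, hes3]
  have hn1 : ‖p1‖ ≤ 1 := norm_one_sub_le he₁.nonneg he₁.le_one
  have hn2 : ‖p2‖ ≤ 2 := (norm_sub_le _ _).trans (by linarith [he₁.norm_le, he₂.norm_le])
  have hn3 : ‖p3‖ ≤ 2 := (norm_sub_le _ _).trans (by linarith [he₂.norm_le, he₃.norm_le])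
  have hn4 : ‖e₃‖ ≤ 1 := he₃.norm_le
  -- products of the two ideals
  have hl : ∀ x w : M, x ∈ I₁ → w ∈ I₂ → x * w = 0 := fun x w hx hw =>
    h0 _ (I₁.right_mem hx _) (I₂.left_mem _ hw)
  have hr : ∀ x w : M, x ∈ I₁ → w ∈ I₂ → w * x = 0 := fun x w hx hw =>
    h0 _ (I₁.left_mem _ hx) (I₂.right_mem hw _)
  have hp2sub : ∀ c : M, p2 * c = (1 - e₂) * c - (1 - e₁) * c := fun c => by
    rw [hp2]; noncomm_ring
  have hp3sub : ∀ c : M, p3 * c = (1 - e₃) * c - (1 - e₂) * c := fun c => by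
    rw [hp3]; noncomm_ring
  refine ⟨p1, p2, p3, e₃, hs1, hs2, hs3, hes3, by rw [hp1, hp2, hp3]; abel, fun i j => ?_⟩
  set dB : M := if i = j then b else 0 with hdB
  -- diagonal terms
  have d1 : ∀ i j : Fin n, ‖p1 * (star (s i) * a * s j - (if i = j then b else 0)) * p1‖ ≤
      2 * η := by
    intro i j
    have e : p1 * (star (s i) * a * s j - (if i = j then b else 0)) * p1 =
        p1 * (star (s i) * a * s j - (if i = j then b else 0) - z1 i j) * p1 +
          p1 * z1 i j * p1 := by noncomm_ring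
    have k1 := (h1z (Sum.inl (Sum.inl (Sum.inl (Sum.inl (Sum.inl (Sum.inl (i, j)))))))).2.le
    simp only [Sum.elim_inl] at k1
    rw [e]
    calc _ ≤ 1 * η * 1 + η * 1 := (norm_add_le _ _).trans (add_le_add (nm3 hn1 (h1 i j) hn1)
          (norm_mul_le_of_le k1 hn1))
      _ = 2 * η := by ring
  have d2 : ∀ i j : Fin n, ‖p2 * (star (s' i) * a * s' j - (if i = j then b else 0)) * p2‖ ≤
      8 * η := by
    intro i j
    have e : p2 * (star (s' i) * a * s' j - (if i = j then b else 0)) * p2 =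
        p2 * (star (s' i) * a * s' j - (if i = j then b else 0) - (z3 i j + w3 i j)) * p2 +
          p2 * z3 i j * p2 + p2 * w3 i j * p2 := by noncomm_ring
    have k1 := (h1z (Sum.inl (Sum.inl (Sum.inl (Sum.inl (Sum.inr (i, j))))))).2.le
    have k2 := (h2z (Sum.inl (Sum.inl (Sum.inr (i, j))))).2.le
    simp only [Sum.elim_inl, Sum.elim_inr] at k1 k2
    have k3 : ‖p2 * z3 i j‖ ≤ 2 * η := by
      rw [hp2sub]; exact (norm_sub_le _ _).trans (by linarith)
    rw [e, hl _ _ hp2I (hw3 i j), zero_mul, add_zero]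
    calc _ ≤ 2 * η * 2 + 2 * η * 2 := (norm_add_le _ _).trans (add_le_add (nm3 hn2 (h3 i j) hn2)
          (norm_mul_le_of_le k3 hn2))
      _ = 8 * η := by ring
  have d3 : ∀ i j : Fin n, ‖p3 * (star (t' i) * a * t' j - (if i = j then b else 0)) * p3‖ ≤
      8 * η := by
    intro i j
    have e : p3 * (star (t' i) * a * t' j - (if i = j then b else 0)) * p3 =
        p3 * (star (t' i) * a * t' j - (if i = j then b else 0) - (z5 i j + w5 i j)) * p3 +
          p3 * z5 i j * p3 + p3 * w5 i j * p3 := by noncomm_ring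
    have k1 := (h3z (i, j)).2.le
    have k2 := (h2z (Sum.inl (Sum.inl (Sum.inl (i, j))))).2.le
    simp only [Sum.elim_inl, Sum.elim_inr] at k1 k2
    have k3 : ‖p3 * z5 i j‖ ≤ 2 * η := by
      rw [hp3sub]; exact (norm_sub_le _ _).trans (by linarith)
    rw [e, hl _ _ hp3I (hw5 i j), zero_mul, add_zero]
    calc _ ≤ 2 * η * 2 + 2 * η * 2 := (norm_add_le _ _).trans (add_le_add (nm3 hn3 (h5 i j) hn3)
          (norm_mul_le_of_le k3 hn3))
      _ = 8 * η := by ring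
  have d4 : ∀ i j : Fin n, ‖e₃ * (star (t i) * a * t j - (if i = j then b else 0)) * e₃‖ ≤
      η := by
    intro i j
    have e : e₃ * (star (t i) * a * t j - (if i = j then b else 0)) * e₃ =
        e₃ * (star (t i) * a * t j - (if i = j then b else 0) - w7 i j) * e₃ +
          e₃ * w7 i j * e₃ := by noncomm_ring
    rw [e, hl _ _ he₃.mem (hw7 i j), zero_mul, add_zero]
    calc _ ≤ 1 * η * 1 := nm3 hn4 (h7 i j) hn4
      _ = η := by ring
  -- cross terms
  have x12 : ∀ i j : Fin n, ‖p1 * (star (s i) * a * s' j) * p2‖ ≤ 4 * η := by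
    intro i j
    have e : p1 * (star (s i) * a * s' j) * p2 =
        p1 * (star (s i) * a * s' j - z2 i j) * p2 + p1 * z2 i j * p2 := by noncomm_ring
    have k1 := (h1z (Sum.inl (Sum.inl (Sum.inl (Sum.inl (Sum.inl (Sum.inr (i, j)))))))).2.le
    simp only [Sum.elim_inl, Sum.elim_inr] at k1
    rw [e]
    calc _ ≤ 1 * η * 2 + η * 2 := (norm_add_le _ _).trans (add_le_add (nm3 hn1 (h2 i j) hn2)
          (norm_mul_le_of_le k1 hn2))
      _ = 4 * η := by ring
  have x13 : ∀ i j : Fin n, ‖p1 * (star (s i) * a * t' j) * p3‖ ≤ η := by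
    intro i j
    have k1 := (h1z (Sum.inl (Sum.inr (i, j)))).2.le
    simp only [Sum.elim_inl, Sum.elim_inr] at k1
    rw [mul_assoc]
    exact k1
  have x14 : ∀ i j : Fin n, ‖p1 * (star (s i) * a * t j) * e₃‖ ≤ η := by
    intro i j
    have k1 := (h1z (Sum.inr (i, j))).2.le
    simp only [Sum.elim_inl, Sum.elim_inr] at k1
    rw [mul_assoc]
    exact k1
  have x23 : ∀ i j : Fin n, ‖p2 * (star (s' i) * a * t' j) * p3‖ ≤ 8 * η := by
    intro i j
    have e : p2 * (star (s' i) * a * t' j) * p3 =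
        p2 * (star (s' i) * a * t' j - (z4 i j + w4 i j)) * p3 +
          p2 * z4 i j * p3 + p2 * w4 i j * p3 := by noncomm_ring
    have k1 := (h1z (Sum.inl (Sum.inl (Sum.inl (Sum.inr (i, j)))))).2.le
    have k2 := (h2z (Sum.inl (Sum.inr (i, j)))).2.le
    simp only [Sum.elim_inl, Sum.elim_inr] at k1 k2
    have k3 : ‖p2 * z4 i j‖ ≤ 2 * η := by
      rw [hp2sub]; exact (norm_sub_le _ _).trans (by linarith)
    rw [e, hl _ _ hp2I (hw4 i j), zero_mul, add_zero]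
    calc _ ≤ 2 * η * 2 + 2 * η * 2 := (norm_add_le _ _).trans (add_le_add (nm3 hn2 (h4 i j) hn3)
          (norm_mul_le_of_le k3 hn3))
      _ = 8 * η := by ring
  have x24 : ∀ i j : Fin n, ‖p2 * (star (s' i) * a * t j) * e₃‖ ≤ 2 * η := by
    intro i j
    have k1 := (h1z (Sum.inl (Sum.inl (Sum.inr (i, j))))).2.le
    have k2 := (h2z (Sum.inr (i, j))).2.le
    simp only [Sum.elim_inl, Sum.elim_inr] at k1 k2
    rw [mul_assoc, hp2sub]
    exact (norm_sub_le _ _).trans (by linarith)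
  have x34 : ∀ i j : Fin n, ‖p3 * (star (t' i) * a * t j) * e₃‖ ≤ 2 * η := by
    intro i j
    have e : p3 * (star (t' i) * a * t j) * e₃ =
        p3 * (star (t' i) * a * t j - w6 i j) * e₃ + p3 * w6 i j * e₃ := by noncomm_ring
    rw [e, hl _ _ hp3I (hw6 i j), zero_mul, add_zero]
    calc _ ≤ 2 * η * 1 := nm3 hn3 (h6 i j) hn4
      _ = 2 * η := by ring
  have hst : ∀ (p q : M) (x y : Fin n → M), star p = p → star q = q →
      star (p * (star (x j) * a * y i) * q) = q * (star (y i) * a * x j) * p := by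
    intro p q x y hp hq
    rw [star_mul, star_mul, star_mul, star_mul, star_star, ha, hp, hq]
    simp only [mul_assoc]
  have key : star (s i * p1 + s' i * p2 + t' i * p3 + t i * e₃) * a *
          (s j * p1 + s' j * p2 + t' j * p3 + t j * e₃) -
        (if i = j then p1 * b * p1 + p2 * b * p2 + p3 * b * p3 + e₃ * b * e₃ else 0) =
      (p1 * (star (s i) * a * s j - (if i = j then b else 0)) * p1 +
       p2 * (star (s' i) * a * s' j - (if i = j then b else 0)) * p2 +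
       p3 * (star (t' i) * a * t' j - (if i = j then b else 0)) * p3 +
       e₃ * (star (t i) * a * t j - (if i = j then b else 0)) * e₃) +
      ((p1 * (star (s i) * a * s' j) * p2 + p1 * (star (s i) * a * t' j) * p3 +
        p1 * (star (s i) * a * t j) * e₃) +
       (p2 * (star (s' i) * a * t' j) * p3 + p2 * (star (s' i) * a * t j) * e₃ +
        p3 * (star (t' i) * a * t j) * e₃)) +
      ((star (p1 * (star (s j) * a * s' i) * p2) + star (p1 * (star (s j) * a * t' i) * p3) +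
        star (p1 * (star (s j) * a * t i) * e₃)) +
       (star (p2 * (star (s' j) * a * t' i) * p3) + star (p2 * (star (s' j) * a * t i) * e₃) +
        star (p3 * (star (t' j) * a * t i) * e₃))) := by
    rw [hst p1 p2 s s' hs1 hs2, hst p1 p3 s t' hs1 hs3, hst p1 e₃ s t hs1 hes3,
      hst p2 p3 s' t' hs2 hs3, hst p2 e₃ s' t hs2 hes3, hst p3 e₃ t' t hs3 hes3]
    have k1 : star (s i * p1 + s' i * p2 + t' i * p3 + t i * e₃) =
        p1 * star (s i) + p2 * star (s' i) + p3 * star (t' i) + e₃ * star (t i) := by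
      simp only [star_add, star_mul, hs1, hs2, hs3, hes3]
    rw [k1]
    clear_value p1 p2 p3
    split_ifs
    · simp only [mul_add, add_mul, mul_sub, sub_mul, mul_assoc]; abel
    · simp only [mul_add, add_mul, mul_sub, sub_mul, mul_assoc, mul_zero, zero_mul]; abel
  rw [key]
  have n3 : ∀ {x y z : M} {α β γ : ℝ}, ‖x‖ ≤ α → ‖y‖ ≤ β → ‖z‖ ≤ γ →
      ‖x + y + z‖ ≤ α + β + γ := fun hx hy hz =>
    (norm_add_le _ _).trans (add_le_add ((norm_add_le _ _).trans (add_le_add hx hy)) hz)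
  have n2 : ∀ {x y : M} {α β : ℝ}, ‖x‖ ≤ α → ‖y‖ ≤ β → ‖x + y‖ ≤ α + β := fun hx hy =>
    (norm_add_le _ _).trans (add_le_add hx hy)
  have st : ∀ {x : M} {α : ℝ}, ‖x‖ ≤ α → ‖star x‖ ≤ α := fun hx => by rwa [norm_star]
  have b1 := n2 (n3 (d1 i j) (d2 i j) (d3 i j)) (d4 i j)
  have b2 := n2 (n3 (x12 i j) (x13 i j) (x14 i j)) (n3 (x23 i j) (x24 i j) (x34 i j))
  have b3 := n2 (n3 (st (x12 j i)) (st (x13 j i)) (st (x14 j i)))
    (n3 (st (x23 j i)) (st (x24 j i)) (st (x34 j i)))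
  refine (n3 b1 b2 b3).trans ?_
  linarith

end Vale.Agent.P133.H512
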