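import Vale.Agent.P133.H512.Countable

/-!
P133 (helper512): countable unions of arbitrary subspaces of small transfinite inductive dimension.
-/

namespace Vale.Agent.P133.H512

open Vale.Agent.P133.H330 TopologicalSpace

universe u

variable {X : Type u} [TopologicalSpace X]

/-- below every locally closed set nowhere in the class there is one that misses `S` -/
def Neg (S : Set X) : Prop :=
  ∀ Y U : Set X, NW Y U → ∃ Y' U' : Set X, NW Y' U' ∧ Y' ⊆ Y ∧ U' ⊆ U ∧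
    ∀ x ∈ S, ¬ (x ∈ U' ∧ x ∈ Y')

/-- subspaces of small transfinite inductive dimension -/
theorem neg_of_tInd {Z : Type u} [TopologicalSpace Z] (hZ : TInd Z) :
    ∀ f : Z → X, Topology.IsInducing f → Neg (Set.range f) := by
  induction hZ with
  | intro Z K L h hL ih =>
    intro f hf Y U hN
    by_contra hno
    have hstar : ∀ Y' U' : Set X, IsClosed Y' → IsOpen U' → Y' ⊆ Y → U' ⊆ U →
        (∀ x ∈ Set.range f, ¬ (x ∈ U' ∧ x ∈ Y')) → SmallInd (U' ∩ Y' : Set X) := by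
      intro Y' U' hY' hU' h1 h2 h3
      by_contra h4
      obtain ⟨Y'', h5, h6⟩ := exists_nw hU' hY' h4
      exact hno ⟨Y'', U', h6, h5.trans h1, h2, fun x hx h7 => h3 x hx ⟨h7.1, h5 h7.2⟩⟩
    refine hN.2.2.2 U hN.2.1 Set.Subset.rfl hN.2.2.1 (smallInd_of fun C V hC hV hVC => ?_)
    obtain ⟨Z', hZ', rfl⟩ := isClosed_induced_iff.1 hC
    obtain ⟨W, hW, rfl⟩ := isOpen_induced_iff.1 hV
    obtain ⟨⟨x, hx⟩, hxW, hxZ⟩ := hVC
    by_cases hd : ∃ W' : Set X, IsOpen W' ∧ W' ⊆ W ∩ U ∧ (W' ∩ (Z' ∩ Y)).Nonempty ∧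
        ∀ x ∈ Set.range f, ¬ (x ∈ W' ∧ x ∈ Z' ∩ Y)
    · obtain ⟨W', hW', h1, ⟨y, hyW, hyZ, hyY⟩, h3⟩ := hd
      refine ⟨Subtype.val ⁻¹' W', hW'.preimage continuous_subtype_val,
        ⟨⟨y, (h1 hyW).2, hyY⟩, hyW, hyZ⟩, fun z hz => (h1 hz.1).1, Or.inr (Or.inl ?_)⟩
      refine smallInd_transfer (T := W' ∩ (Z' ∩ Y)) (fun z => ?_)
        (hstar _ _ (hZ'.inter hN.1) hW' Set.inter_subset_right (h1.trans Set.inter_subset_right) h3)
      constructor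
      · rintro ⟨h4, h5, h6⟩
        exact ⟨⟨(h1 h4).2, h6⟩, h4, h5⟩
      · rintro ⟨h4, h5, h6⟩
        exact ⟨h5, h6, h4.2⟩
    · push Not at hd
      obtain ⟨_, ⟨z, rfl⟩, hzW, hzZ⟩ := hd (W ∩ U) (hW.inter hN.2.1) Set.Subset.rfl
        ⟨x, ⟨hxW, hx.1⟩, hxZ, hx.2⟩
      obtain ⟨k, O', hO', hzO, hOV, hfr⟩ := h z (f ⁻¹' (W ∩ U))
        ((hW.inter hN.2.1).preimage hf.continuous) hzW
      obtain ⟨O₀, hO₀, rfl⟩ := hf.isOpen_iff.1 hO'
      obtain ⟨O, hOdef⟩ : ∃ O : Set X, O = O₀ ∩ (W ∩ U) := ⟨_, rfl⟩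
      have hO : IsOpen O := by rw [hOdef]; exact hO₀.inter (hW.inter hN.2.1)
      have hOW : O ⊆ W ∩ U := by rw [hOdef]; exact Set.inter_subset_right
      have hOO : O ⊆ O₀ := by rw [hOdef]; exact Set.inter_subset_left
      have hmO : ∀ w, f w ∈ O₀ → f w ∈ O := fun w hw => by rw [hOdef]; exact ⟨hw, hOV hw⟩
      have hD : SmallInd (U ∩ (closure (O ∩ (Z' ∩ Y)) \ O) : Set X) := by
        by_contra hDn
        obtain ⟨Y1, hY1, hN1⟩ := exists_nw hN.2.1 (isClosed_closure.sdiff hO) hDn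
        obtain ⟨Y2, U2, hN2, hY2, hU2, hmiss⟩ := ih k (fun x => f x.1)
          (hf.comp Topology.IsInducing.subtypeVal) Y1 U hN1
        refine hno ⟨Y2, U2, hN2, (hY2.trans hY1).trans fun y hy =>
          closure_minimal (Set.inter_subset_right.trans Set.inter_subset_right) hN.1 hy.1,
          hU2, ?_⟩
        rintro _ ⟨w, rfl⟩ ⟨hwU, hwY⟩
        have hw := hY1 (hY2 hwY)
        refine hmiss (f w) ⟨⟨w, ?_⟩, rfl⟩ ⟨hwU, hwY⟩
        rw [← hfr, hO'.frontier_eq]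
        refine ⟨?_, fun hwO => hw.2 (hmO w hwO)⟩
        rw [hf.closure_eq_preimage_closure_image]
        refine closure_minimal (fun y hy => ?_) isClosed_closure hw.1
        rw [mem_closure_iff]
        intro G hG hyG
        obtain ⟨_, ⟨v, rfl⟩, hv, -⟩ := hd (G ∩ O) (hG.inter hO)
          (Set.inter_subset_right.trans hOW) ⟨y, ⟨hyG, hy.1⟩, hy.2⟩
        exact ⟨f v, hv.1, v, hOO hv.2, rfl⟩
      have hzOO : f z ∈ O := hmO z hzO
      refine ⟨Subtype.val ⁻¹' O, hO.preimage continuous_subtype_val,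
        ⟨⟨f z, (hOW hzOO).2, hzZ.2⟩, hzOO, hzZ.1⟩, fun y hy => (hOW hy.1).1,
        Or.inr (Or.inr ?_)⟩
      refine smallInd_transfer (T := U ∩ (closure (O ∩ (Z' ∩ Y)) \ O)) (fun y => ?_) hD
      have himg : ∀ y : (U ∩ Y : Set X), y ∈ closure (Subtype.val ⁻¹' O ∩ Subtype.val ⁻¹' Z') ↔
          y.1 ∈ closure (O ∩ (Z' ∩ Y)) := by
        intro y
        rw [closure_subtype]
        have e1 : (Subtype.val '' (Subtype.val ⁻¹' O ∩ Subtype.val ⁻¹' Z' :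
            Set (U ∩ Y : Set X)) : Set X) = O ∩ (Z' ∩ Y) := by
          ext t
          constructor
          · rintro ⟨⟨t, ht⟩, ⟨h1, h2⟩, rfl⟩
            exact ⟨h1, h2, ht.2⟩
          · rintro ⟨h1, h2, h3⟩
            exact ⟨⟨t, (hOW h1).2, h3⟩, ⟨h1, h2⟩, rfl⟩
        rw [e1]
      constructor
      · rintro ⟨h1, h2, h3⟩
        have h4 : y ∈ Y :=
          closure_minimal (Set.inter_subset_right.trans Set.inter_subset_right) hN.1 h2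
        exact ⟨⟨h1, h4⟩, (himg ⟨y, h1, h4⟩).2 h2, h3⟩
      · rintro ⟨h1, h2, h3⟩
        exact ⟨h1.1, (himg ⟨y, h1⟩).1 h2, h3⟩

/-- locally closed subspaces in the class -/
theorem neg_of_locallyClosed {S : Set X} (hS : IsLocallyClosed S) (h : SmallInd S) : Neg S := by
  intro Y U hN
  obtain ⟨O, F, hO, hF, rfl⟩ := hS
  by_cases hne : (U ∩ O ∩ Y).Nonempty
  swap
  · refine ⟨Y, U, hN, Set.Subset.rfl, Set.Subset.rfl, fun x hx hx' => hne ⟨x, ⟨hx'.1, hx.1⟩, hx'.2⟩⟩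
  by_cases hA : U ∩ O ∩ Y ⊆ F
  · exfalso
    refine hN.2.2.2 (U ∩ O) (hN.2.1.inter hO) Set.inter_subset_left hne ?_
    have h1 : SmallInd (U ∩ (O ∩ F) : Set X) := smallInd_open h hN.2.1
    have hsub : U ∩ O ∩ Y ⊆ U ∩ (O ∩ F) := fun x hx => ⟨hx.1.1, hx.1.2, hA hx⟩
    refine smallInd_embedding h1 _ (Set.inclusion hsub) ⟨Topology.IsEmbedding.inclusion hsub, ?_⟩
    rw [Set.range_inclusion]
    have h3 : {x : (U ∩ (O ∩ F) : Set X) | x.1 ∈ U ∩ O ∩ Y} = Subtype.val ⁻¹' Y := by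
      ext x
      exact ⟨fun h => h.2, fun h => ⟨⟨x.2.1, x.2.2.1⟩, h⟩⟩
    rw [h3]
    exact hN.1.preimage continuous_subtype_val
  · obtain ⟨y, hy, hyF⟩ := Set.not_subset.1 hA
    refine ⟨Y, U ∩ O ∩ Fᶜ, ⟨hN.1, (hN.2.1.inter hO).inter hF.isOpen_compl, ⟨y, ⟨hy.1, hyF⟩, hy.2⟩,
      fun U' h1 h2 h3 => hN.2.2.2 U' h1 (h2.trans (Set.inter_subset_left.trans
        Set.inter_subset_left)) h3⟩, Set.Subset.rfl,
      Set.inter_subset_left.trans Set.inter_subset_left, fun x hx hx' => hx'.1.2 hx.2⟩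

theorem tInd_of_subsingleton (Z : Type u) [TopologicalSpace Z] [Subsingleton Z] : TInd Z := by
  have h0 : TInd (∅ : Set Z) := TInd.intro _ PEmpty (fun k => k.elim) (fun x => x.2.elim)
    fun k => k.elim
  refine TInd.intro Z PUnit (fun _ => ∅) (fun x V hV hx => ?_) fun _ => h0
  refine ⟨PUnit.unit, Set.univ, isOpen_univ, Set.mem_univ x, fun y _ => ?_, frontier_univ⟩
  rw [Subsingleton.elim y x]
  exact hx

/-- **The game argument.** -/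
theorem smallInd_of_neg [QuasiSober X]
    (hcc : ∀ (x : X) (U : Set X), IsOpen U → x ∈ U → ∃ V : Set X, IsOpen V ∧ x ∈ V ∧ V ⊆ U ∧
      ∀ F : Set (Set X), F.Nonempty → DirectedOn (· ⊆ ·) F → (∀ W ∈ F, IsOpen W) → U ⊆ ⋃₀ F →
        ∃ W ∈ F, V ⊆ W) {S : ℕ → Set X} (hS : ∀ k, Neg (S k)) (hSX : ⋃ k, S k = Set.univ) :
    SmallInd X := by
  by_contra hX
  obtain ⟨Y0, h0⟩ : ∃ Y : Set X, NW Y Set.univ := by
    by_contra h
    refine hX (smallInd_of_local fun Y hY hYn => ?_)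
    by_contra h2
    exact h ⟨Y, hY, isOpen_univ, by rwa [Set.univ_inter], fun U' h3 _ h4 h5 =>
      h2 ⟨U', h3, h4, h5⟩⟩
  have hstep : ∀ (q : {q : Set X × Set X // NW q.1 q.2}) (k : ℕ),
      ∃ q' : {q : Set X × Set X // NW q.1 q.2}, q'.1.1 ⊆ q.1.1 ∧ q'.1.2 ⊆ q.1.2 ∧
        WayB q'.1.2 q.1.2 ∧ ∀ x ∈ S k, ¬ (x ∈ q'.1.2 ∧ x ∈ q'.1.1) := by
    rintro ⟨⟨Y, U⟩, hq⟩ k
    obtain ⟨hY, hU, ⟨x, hxU, hxY⟩, hno⟩ := id hq
    obtain ⟨V, hV, hxV, hVU, hVU'⟩ := hcc x U hU hxU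
    have hNV : NW Y V := ⟨hY, hV, ⟨x, hxV, hxY⟩, fun U' h1 h2 h3 => hno U' h1 (h2.trans hVU) h3⟩
    obtain ⟨Y', U', h1, h2, h3, h4⟩ := hS k Y V hNV
    refine ⟨⟨(Y', U'), h1⟩, h2, h3.trans hVU, fun F f1 f2 f3 f4 => ?_, h4⟩
    obtain ⟨W, hW, hVW⟩ := hVU' F f1 f2 f3 f4
    exact ⟨W, hW, h3.trans hVW⟩
  choose nxt n1 n2 n3 n4 using hstep
  let s : ℕ → {q : Set X × Set X // NW q.1 q.2} := fun n =>
    Nat.rec ⟨(Y0, Set.univ), h0⟩ (fun k q => nxt q k) n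
  have hs : ∀ k, s (k + 1) = nxt (s k) k := fun k => rfl
  have hYd : Antitone fun k => (s k).1.1 := antitone_nat_of_succ_le fun k => by
    rw [hs]; exact n1 _ _
  have hUd : Antitone fun k => (s k).1.2 := antitone_nat_of_succ_le fun k => by
    rw [hs]; exact n2 _ _
  have hW : ∀ k, WayB (s (k + 1)).1.2 (s k).1.2 := fun k => by
    rw [hs]; exact n3 _ _
  have hpk : ∀ k, ∀ x ∈ S k, ¬ (x ∈ (s (k + 1)).1.2 ∧ x ∈ (s (k + 1)).1.1) := fun k => by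
    rw [hs]; exact n4 _ _
  have key : ∀ 𝒞 : Set (Set X), 𝒞.Nonempty → DirectedOn (· ⊇ ·) 𝒞 → (∀ C ∈ 𝒞, IsClosed C) →
      (∀ C ∈ 𝒞, ∀ j, (C ∩ (s j).1.2).Nonempty) → ∀ j, (⋂₀ 𝒞 ∩ (s j).1.2).Nonempty := by
    intro 𝒞 hne hd hc h j
    by_contra hemp
    obtain ⟨W, ⟨C, hC, rfl⟩, hW'⟩ := hW j (compl '' 𝒞) (hne.image _) (by
      rintro _ ⟨C1, h1, rfl⟩ _ ⟨C2, h2, rfl⟩
      obtain ⟨C3, h3, h31, h32⟩ := hd C1 h1 C2 h2
      exact ⟨_, ⟨C3, h3, rfl⟩, Set.compl_subset_compl.2 h31, Set.compl_subset_compl.2 h32⟩) (by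
      rintro _ ⟨C, hC, rfl⟩
      exact (hc C hC).isOpen_compl) (by
      intro x hx
      by_contra hx'
      refine hemp ⟨x, fun C hC => ?_, hx⟩
      by_contra hxC
      exact hx' ⟨Cᶜ, ⟨C, hC, rfl⟩, hxC⟩)
    obtain ⟨x, hx1, hx2⟩ := h C hC (j + 1)
    exact hW' hx2 hx1
  have hYU : ∀ k j, ((s k).1.1 ∩ (s j).1.2).Nonempty := by
    intro k j
    obtain ⟨x, hxU, hxY⟩ := (s (max k j)).2.2.2.1
    exact ⟨x, hYd (le_max_left k j) hxY, hUd (le_max_right k j) hxU⟩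
  let 𝒮 : Set (Set X) := {C | IsClosed C ∧ (∀ k, C ⊆ (s k).1.1) ∧ ∀ j, (C ∩ (s j).1.2).Nonempty}
  have hC0 : ⋂₀ (Set.range fun k => (s k).1.1) ∈ 𝒮 := by
    refine ⟨isClosed_sInter ?_, fun k => Set.sInter_subset_of_mem ⟨k, rfl⟩,
      key _ ⟨_, ⟨0, rfl⟩⟩ ?_ ?_ ?_⟩
    · rintro _ ⟨k, rfl⟩; exact (s k).2.1
    · rintro _ ⟨k, rfl⟩ _ ⟨l, rfl⟩
      exact ⟨_, ⟨max k l, rfl⟩, hYd (le_max_left k l), hYd (le_max_right k l)⟩
    · rintro _ ⟨k, rfl⟩; exact (s k).2.1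
    · rintro _ ⟨k, rfl⟩ j; exact hYU k j
  obtain ⟨M, -, hM⟩ := zorn_superset_nonempty 𝒮 (by
    intro c hc hch hcn
    refine ⟨⋂₀ c, ⟨isClosed_sInter fun C hC => (hc hC).1, fun k => ?_,
      key c hcn ?_ (fun C hC => (hc hC).1) fun C hC => (hc hC).2.2⟩,
      fun C hC => Set.sInter_subset_of_mem hC⟩
    · obtain ⟨C, hC⟩ := hcn
      exact (Set.sInter_subset_of_mem hC).trans ((hc hC).2.1 k)
    · intro C1 h1 C2 h2
      rcases hch.total h1 h2 with h3 | h3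
      · exact ⟨C1, h1, Set.Subset.rfl, h3⟩
      · exact ⟨C2, h2, h3, Set.Subset.rfl⟩) _ hC0
  obtain ⟨hMc, hMY, hMU⟩ := hM.prop
  have hirr : IsIrreducible M := by
    refine ⟨⟨(hMU 0).some, (hMU 0).some_mem.1⟩, ?_⟩
    rw [isPreirreducible_iff_isClosed_union_isClosed]
    intro C1 C2 h1 h2 h12
    by_contra hcon
    push Not at hcon
    have hbad : ∀ C : Set X, IsClosed C → ¬ M ⊆ C → ∃ j, ¬ (M ∩ C ∩ (s j).1.2).Nonempty := by
      intro C hC hMC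
      by_contra hall
      push Not at hall
      refine hMC ((hM.le_of_le (y := M ∩ C) ⟨hMc.inter hC, fun k =>
        Set.inter_subset_left.trans (hMY k), hall⟩ Set.inter_subset_left).trans
          Set.inter_subset_right)
    obtain ⟨j1, hj1⟩ := hbad C1 h1 hcon.1
    obtain ⟨j2, hj2⟩ := hbad C2 h2 hcon.2
    obtain ⟨x, hxM, hxU⟩ := hMU (max j1 j2)
    rcases h12 hxM with h3 | h3
    · exact hj1 ⟨x, ⟨hxM, h3⟩, hUd (le_max_left j1 j2) hxU⟩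
    · exact hj2 ⟨x, ⟨hxM, h3⟩, hUd (le_max_right j1 j2) hxU⟩
  obtain ⟨q, hq⟩ := QuasiSober.sober hirr hMc
  obtain ⟨k, hk⟩ := Set.mem_iUnion.1 (show q ∈ ⋃ k, S k by rw [hSX]; exact Set.mem_univ q)
  refine hpk k q hk ⟨?_, hMY (k + 1) (hq.mem)⟩
  obtain ⟨x, hxM, hxU⟩ := hMU (k + 1)
  exact (hq.specializes hxM).mem_open (s (k + 1)).2.2.1 hxU

/-- **Countable unions of arbitrary subspaces of small transfinite inductive dimension, and of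
locally closed subspaces in the class.** -/
theorem smallInd_of_union [QuasiSober X]
    (hcc : ∀ (x : X) (U : Set X), IsOpen U → x ∈ U → ∃ V : Set X, IsOpen V ∧ x ∈ V ∧ V ⊆ U ∧
      ∀ F : Set (Set X), F.Nonempty → DirectedOn (· ⊆ ·) F → (∀ W ∈ F, IsOpen W) → U ⊆ ⋃₀ F →
        ∃ W ∈ F, V ⊆ W) {S : ℕ → Set X}
    (hS : ∀ k, TInd (S k) ∨ (IsLocallyClosed (S k) ∧ SmallInd (S k)))
    (hSX : ⋃ k, S k = Set.univ) : SmallInd X := by
  refine smallInd_of_neg hcc (fun k => ?_) hSX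
  rcases hS k with h | ⟨h1, h2⟩
  · have h1 := neg_of_tInd h (Subtype.val : S k → X) Topology.IsInducing.subtypeVal
    rwa [Subtype.range_val] at h1
  · exact neg_of_locallyClosed h1 h2

end Vale.Agent.P133.H512
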