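import Vale.Agent.P133.H512.GameAlg
import Vale.Agent.P133.H512.Win
import Vale.Agent.P133.H330.PrimeSp
import Vale.Agent.P133.H779.LocalMain

/-!
P133 (helper512): pure infiniteness of weakly purely infinite C*-algebras whose space of closed
prime ideals is the union of countably many subspaces.
-/

open scoped ComplexOrder

namespace Vale.Agent.P133.H512

open Vale.Agent.P133 Vale.Agent.P133.Statement Vale.Agent.P133.H832 Vale.Agent.P133F
  Vale.Agent.P133.H681 Vale.Agent.P133.R2 Vale.Agent.P133.R2.H28 Vale.Agent.P133.R2.H474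
  Vale.Agent.P133.H330 TopologicalSpace

universe u

variable {A : Type u} [NonUnitalCStarAlgebra A] [PartialOrder A] [StarOrderedRing A]
  {X : Type u} [TopologicalSpace X]

theorem pi_of_win [QuasiSober X] {n : ℕ} (hn : WPI A n) {e : Opens X → Submodule ℂ A}
    (he : ∀ O, IsClosedIdeal (e O)) (hs : ∀ I, IsClosedIdeal I → ∃ O, e O = I)
    (hle : ∀ O O', e O ≤ e O' ↔ O ≤ O') (hwin : Game.Win (HP e) (Set.univ : Set X)) :
    PurelyInfinite A := by
  have h5 := Game.good_of_win (indStep_HP hn he hs hle)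
    (fun x U hU hx => core_compact ⟨e, he, hs, hle⟩ x U hU hx) hwin
  have h6 : PiBetween (e ⊥) (e ⊤) := h5 ⊥ ⊤ (by simp) (by simp)
  have h7 : e ⊤ = ⊤ := by
    obtain ⟨W, hW⟩ := hs ⊤ isClosedIdeal_top
    exact top_le_iff.1 (by rw [← hW, hle]; exact le_top)
  have h8 : e ⊥ = ⊥ := by
    obtain ⟨W, hW⟩ := hs ⊥ ⟨isClosed_singleton, fun a x hx => by
      rw [Submodule.mem_bot] at hx
      subst hx
      exact ⟨by simp, by simp⟩⟩
    exact le_bot_iff.1 (by rw [← hW, hle]; exact bot_le)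
  rw [h7, h8] at h6
  exact pi_of_eltPI (elt_of_piBetween (χ := NonUnitalStarAlgHom.id ℂ A) (fun x => ⟨x, rfl⟩) h6
    fun x hx => by rw [Submodule.mem_bot] at hx; rw [hx, map_zero])

/-- the union criterion for general spaces -/
theorem pi_of_union [QuasiSober X] {n : ℕ} (hn : WPI A n) {e : Opens X → Submodule ℂ A}
    (he : ∀ O, IsClosedIdeal (e O)) (hs : ∀ I, IsClosedIdeal I → ∃ O, e O = I)
    (hle : ∀ O O', e O ≤ e O' ↔ O ≤ O') {S : Set X} (hS : CountInd S) {O V : ℕ → Opens X}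
    (hOV : ∀ k, O k ≤ V k) (hX : ∀ x, x ∉ S → ∃ k, x ∉ O k ∧ x ∈ V k)
    (h : ∀ k, PiBetween (e (O k)) (e (V k))) : PurelyInfinite A := by
  have hI := indStep_HP hn he hs hle
  have hM := mono_HP he hs hle
  have hpc : ∀ k, HP e ((O k : Set X)ᶜ) (V k) := by
    intro k O₁ V₁ h1 h2
    have h3 : O₁ = O k := Opens.ext (by rw [h1, compl_compl])
    have h4 : V₁ = V k := Opens.ext (by
      rw [h2, compl_compl]
      exact Set.union_eq_right.2 (hOV k))
    rw [h3, h4]
    exact h k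
  have hwin : Game.Win (HP e) (Set.univ : Set X) := by
    have h1 : ∀ k, Game.Win (HP e) ((V k : Set X) ∩ (O k : Set X)ᶜ) := fun k =>
      Game.win_of_neg (Game.neg_of_good hM (O k).2.isClosed_compl (V k).2 (hpc k))
    have h2 : Game.Win (HP e) S := by
      have h3 := Game.win_of_countInd hI hS (fun x => x.1) Topology.IsInducing.subtypeVal
      rwa [Subtype.range_coe] at h3
    have h3 : Game.Win (HP e) (⋃ k : ℕ, Nat.casesOn k S fun k => (V k : Set X) ∩ (O k : Set X)ᶜ) :=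
      Game.win_iUnion fun k => by
        cases k with
        | zero => exact h2
        | succ k => exact h1 k
    refine h3.mono fun x _ => ?_
    by_cases hx : x ∈ S
    · exact Set.mem_iUnion.2 ⟨0, hx⟩
    · obtain ⟨k, hk1, hk2⟩ := hX x hx
      exact Set.mem_iUnion.2 ⟨k + 1, hk2, hk1⟩
  exact pi_of_win hn he hs hle hwin

omit [PartialOrder A] [StarOrderedRing A] in
theorem ker_top [PartialOrder A] [StarOrderedRing A] (O O' : Opens (PrimeSp A)) :
    ker O ≤ ker O' ↔ O ≤ O' := by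
  obtain ⟨I, hI, h1⟩ := isOpen_iff.1 O.2
  obtain ⟨J, hJ, h2⟩ := isOpen_iff.1 O'.2
  have h3 : O = ⟨op I, isOpen_op hI⟩ := Opens.ext h1
  have h4 : O' = ⟨op J, isOpen_op hJ⟩ := Opens.ext h2
  subst h3 h4
  rw [ker_op hI, ker_op hJ, ← op_subset_iff hJ]
  exact Iff.rfl

/-- **The union criterion.** -/
theorem pi_iff_union (hW : WeaklyPurelyInfinite A) {S : Set (PrimeSp A)}
    (hS : CountInd S) {J K : ℕ → Submodule ℂ A} (hJ : ∀ k, IsClosedIdeal (J k))
    (hK : ∀ k, IsClosedIdeal (K k)) (hJK : ∀ k, J k ≤ K k)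
    (h : ∀ P : PrimeSp A, P ∉ S → ∃ k, J k ≤ P.1 ∧ ¬ K k ≤ P.1) :
    PurelyInfinite A ↔ ∀ k, PiBetween (J k) (K k) := by
  constructor
  · exact fun hA k => piBetween_of_pi hA (hJ k) (hK k) (hJK k)
  · intro H
    obtain ⟨n, hn⟩ := wpi_elementwise hW
    refine pi_of_union hn (e := ker) isClosedIdeal_ker (fun I hI => ⟨_, ker_op hI⟩)
      ker_top hS (O := fun k => ⟨op (J k), isOpen_op (hJ k)⟩)
      (V := fun k => ⟨op (K k), isOpen_op (hK k)⟩) (fun k => op_mono (hJK k))
      (fun P hP => ?_) fun k => ?_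
    · obtain ⟨k, h1, h2⟩ := h P hP
      exact ⟨k, fun h3 => h3 h1, h2⟩
    · rw [ker_op (hJ k), ker_op (hK k)]
      exact H k

/-- countable inductive dimension of the space of closed prime ideals -/
theorem coincide_of_countInd (h : CountInd (PrimeSp A)) : Coincide A := by
  refine coincide_of fun hW => ?_
  obtain ⟨n, hn⟩ := wpi_elementwise hW
  have hs : ∀ I, IsClosedIdeal I → ∃ O : Opens (PrimeSp A), ker O = I :=
    fun I hI => ⟨_, ker_op hI⟩
  have h1 := Game.win_of_countInd (indStep_HP hn isClosedIdeal_ker hs ker_top) h id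
    Topology.IsInducing.id
  rw [Set.range_id] at h1
  exact pi_of_win hn isClosedIdeal_ker hs ker_top h1

/-- The union criterion in terms of the algebras of the pieces. -/
theorem union_clause {S : Set (PrimeSp A)} (hS : CountInd S) {J K : ℕ → Submodule ℂ A}
    {C : ℕ → Type u} [∀ k, NonUnitalCStarAlgebra (C k)] [∀ k, PartialOrder (C k)]
    [∀ k, StarOrderedRing (C k)] (hC : ∀ k, H779.IsSubquot (J k) (K k) (C k))
    (h : ∀ P : PrimeSp A, P ∉ S → ∃ k, J k ≤ P.1 ∧ ¬ K k ≤ P.1) :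
    (PurelyInfinite A ↔ WeaklyPurelyInfinite A ∧ ∀ k, PurelyInfinite (C k)) ∧
      ((∀ k, Coincide (C k)) → Coincide A) := by
  have key : WeaklyPurelyInfinite A → (∀ k, PurelyInfinite (C k)) → PurelyInfinite A :=
    fun hW hpi => (pi_iff_union hW hS (fun k => (hC k).1) (fun k => (hC k).2.1)
      (fun k => H779.le_of_subquot (hC k)) h).2 fun k => H779.piBetween_of_subquot (hC k) (hpi k)
  refine ⟨⟨fun hA => ⟨wpi_of_pi hA, fun k => H779.pi_subquot hA (hC k)⟩,
    fun hA => key hA.1 hA.2⟩, fun hc => coincide_of fun hW => ?_⟩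
  obtain ⟨n, hn⟩ := wpi_elementwise hW
  exact key hW fun k => (hc k).1.1 (wpi_of_elt (H779.wpi_subquot hn (hC k)))

end Vale.Agent.P133.H512
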